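import Vale.Agent.P100E.Harnack

/-!
# P100 energy method: universal bounds on a fixed annulus
-/

noncomputable section

namespace Vale.Agent.P100E

open MeasureTheory Set Filter Topology Vale.Agent.P100H Vale.Agent.P100L

variable {n : ℕ}

/-- The wide annulus `1/8 ≤ |x| ≤ 3`. -/
def wide (n : ℕ) : Set (E n) := {x | 1 / 8 ≤ ‖x‖ ∧ ‖x‖ ≤ 3}

theorem isCompact_wide : IsCompact (wide n) :=
  (isCompact_closedBall (0 : E n) 3).of_isClosed_subset
    ((isClosed_le continuous_const continuous_norm).inter
      (isClosed_le continuous_norm continuous_const))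
    fun _x hx => mem_closedBall_zero_iff.2 hx.2

theorem measurableSet_wide : MeasurableSet (wide n) := isCompact_wide.isClosed.measurableSet

theorem wide_ne_zero {x : E n} (hx : x ∈ wide n) : x ≠ 0 := fun h => by
  have := hx.1; simp [h] at this; linarith

theorem reg_subset_wide {T : ℝ} (hT : T ≤ 3) : reg n T ⊆ wide n := fun _ hx =>
  ⟨by linarith [hx.1], hx.2.trans hT⟩

theorem continuousAt_src {B q : ℝ} {w : E n → ℝ} (hw : Super w) {x : E n} (hx : x ≠ 0) :
    ContinuousAt (src B q w) x :=
  (continuous_norm.continuousAt.rpow_const (Or.inl (norm_ne_zero_iff.2 hx))).mul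
    (hw.cont.continuousAt.rpow_const (Or.inl (hw.pos x).ne'))

theorem src_pos {B q : ℝ} {w : E n → ℝ} (hw : Super w) {x : E n} (hx : x ≠ 0) :
    0 < src B q w x :=
  mul_pos (Real.rpow_pos_of_pos (norm_pos_iff.2 hx) _) (Real.rpow_pos_of_pos (hw.pos x) _)

theorem integral_ball_eq_avg (u : E n → ℝ) (x : E n) {ρ : ℝ} (hρ : 0 < ρ) :
    ∫ y in Metric.closedBall x ρ, u y = ρ ^ n * avg u x ρ := by
  have h := integral_affine ((Metric.closedBall x ρ).indicator u) x hρ
  rw [integral_indicator measurableSet_closedBall] at h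
  have e : (fun w => (Metric.closedBall x ρ).indicator u (x + ρ • w)) =
      (Metric.closedBall (0 : E n) 1).indicator fun w => u (x + ρ • w) := by
    funext w
    have hiff : x + ρ • w ∈ Metric.closedBall x ρ ↔ w ∈ Metric.closedBall (0 : E n) 1 := by
      rw [Metric.mem_closedBall, dist_eq_norm, add_sub_cancel_left, norm_smul, Real.norm_eq_abs,
        abs_of_pos hρ, mem_closedBall_zero_iff]
      exact mul_le_iff_le_one_right hρ
    by_cases hw : w ∈ Metric.closedBall (0 : E n) 1
    · rw [indicator_of_mem hw, indicator_of_mem (hiff.2 hw)]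
    · rw [indicator_of_notMem hw, indicator_of_notMem (mt hiff.1 hw)]
  rw [e, integral_indicator measurableSet_closedBall] at h
  rw [avg, h, ← mul_assoc, mul_inv_cancel₀ (by positivity), one_mul]

/-- The integral over the wide annulus is controlled by each value on it. -/
theorem wide_le (hn : 3 ≤ n) : ∃ C : ℝ, 0 < C ∧ ∀ (u : E n → ℝ), Super u →
    ∀ y ∈ wide n, (∫ x in wide n, u x) ≤ C * u y := by
  obtain ⟨C, hC, hH⟩ := harnack (n := n) hn
  obtain ⟨t, htw, htf, hcov⟩ :=
    (isCompact_wide (n := n)).finite_cover_balls (show (0 : ℝ) < 1 / 128 by norm_num)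
  set S := htf.toFinset with hS
  refine ⟨(S.card + 1) * ((1 / 128) ^ n * C), by positivity, fun u hu y hy => ?_⟩
  have hi : IntegrableOn u (wide n) := hu.cont.continuousOn.integrableOn_compact isCompact_wide
  set F : E n → E n → ℝ := fun c => (Metric.closedBall c (1 / 128)).indicator u with hF
  have hFi : ∀ c, Integrable (F c) := fun c =>
    (hu.cont.continuousOn.integrableOn_compact (isCompact_closedBall _ _)).integrable_indicator
      measurableSet_closedBall
  have h0 : ∀ c x, 0 ≤ F c x := fun c x => indicator_nonneg (fun z _ => (hu.pos z).le) x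
  calc ∫ x in wide n, u x = ∫ x, (wide n).indicator u x :=
        (integral_indicator measurableSet_wide).symm
    _ ≤ ∫ x, ∑ c ∈ S, F c x := by
        refine integral_mono (hi.integrable_indicator measurableSet_wide)
          (integrable_finsetSum _ fun c _ => hFi c) fun x => ?_
        by_cases hx : x ∈ wide n
        · rw [indicator_of_mem hx]
          obtain ⟨c, hc, hxc⟩ := mem_iUnion₂.1 (hcov hx)
          refine le_trans ?_ (Finset.single_le_sum (fun c _ => h0 c x) (htf.mem_toFinset.2 hc))
          rw [hF]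
          simp only [indicator_of_mem (Metric.ball_subset_closedBall hxc), le_refl]
        · rw [indicator_of_notMem hx]
          exact Finset.sum_nonneg fun c _ => h0 c x
    _ = ∑ c ∈ S, ∫ x, F c x := integral_finsetSum _ fun c _ => hFi c
    _ ≤ ∑ _c ∈ S, (1 / 128) ^ n * C * u y := by
        refine Finset.sum_le_sum fun c hc => ?_
        rw [hF]
        dsimp only
        rw [integral_indicator measurableSet_closedBall, integral_ball_eq_avg u c (by norm_num),
          mul_assoc]
        have hcw := htw (htf.mem_toFinset.1 hc)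
        exact mul_le_mul_of_nonneg_left (hH u hu c y hcw.1 hcw.2 hy.1 hy.2) (by positivity)
    _ = S.card * ((1 / 128) ^ n * C * u y) := by rw [Finset.sum_const, nsmul_eq_mul]
    _ ≤ (S.card + 1) * ((1 / 128) ^ n * C) * u y := by
        have : 0 ≤ (1 / 128 : ℝ) ^ n * C * u y := by have := hu.pos y; positivity
        nlinarith

/-- One half of the universal bound: `I_u ≥ c I_v^p`. -/
theorem mass_lower (hn : 3 ≤ n) (A : ℝ) {p : ℝ} (hp : 0 < p) :
    ∃ c : ℝ, 0 < c ∧ ∀ u v : E n → ℝ, Super u → Super v → Eqn A p u v →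
      c * (∫ x in wide n, v x) ^ p ≤ ∫ x in wide n, u x := by
  obtain ⟨C, hC, hW⟩ := wide_le (n := n) hn
  obtain ⟨e, he⟩ := exists_norm_eq' (n := n) hn (r := 1) zero_le_one
  have hn' : (0 : ℝ) < n := by exact_mod_cast (show 0 < n by omega)
  have hball : Metric.closedBall e (1 / 4) ⊆ wide n := fun z hz => by
    rw [Metric.mem_closedBall, dist_eq_norm] at hz
    have h1 := norm_sub_norm_le z e
    have h2 := norm_sub_norm_le e z
    rw [norm_sub_rev] at h2
    exact ⟨by linarith, by linarith⟩
  obtain ⟨z0, hz0, hmin⟩ := (isCompact_wide (n := n)).exists_isMinOn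
    ⟨e, hball (Metric.mem_closedBall_self (by norm_num))⟩ (f := fun x : E n => ‖x‖ ^ A)
    fun x hx => (continuous_norm.continuousAt.rpow_const
      (Or.inl (norm_ne_zero_iff.2 (wide_ne_zero hx)))).continuousWithinAt
  set k := ‖z0‖ ^ A with hk
  have hk0 : 0 < k := Real.rpow_pos_of_pos (norm_pos_iff.2 (wide_ne_zero hz0)) A
  set vol := volume.real (Metric.closedBall e (1 / 8 : ℝ)) with hvol
  have hvol0 : 0 < vol := ENNReal.toReal_pos
    (Metric.measure_closedBall_pos volume e (by norm_num)).ne' measure_closedBall_lt_top.ne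
  refine ⟨vol * (k * (C⁻¹) ^ p * (1 / 8) ^ 2 / (4 * n)), by positivity,
    fun u v hu hv hEq => ?_⟩
  set Iv := ∫ x in wide n, v x with hIv
  have hIv0 : 0 ≤ Iv := setIntegral_nonneg measurableSet_wide fun x _ => (hv.pos x).le
  have hlow : ∀ z ∈ Metric.closedBall e (1 / 4),
      Laplacian.laplacian u z ≤ -(k * (C⁻¹) ^ p * Iv ^ p) := by
    intro z hz
    have hzw := hball hz
    have h1 : (C⁻¹ * Iv) ^ p ≤ v z ^ p := Real.rpow_le_rpow (by positivity)
      (by rw [inv_mul_le_iff₀ hC]; exact hW v hv z hzw) hp.le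
    rw [Real.mul_rpow (by positivity) hIv0] at h1
    have h2 : k ≤ ‖z‖ ^ A := hmin hzw
    have h3 : k * ((C⁻¹) ^ p * Iv ^ p) ≤ ‖z‖ ^ A * v z ^ p :=
      mul_le_mul h2 h1 (by positivity) (by positivity)
    have := hEq z (wide_ne_zero hzw)
    linarith
  have hpt : ∀ z ∈ Metric.closedBall e (1 / 8 : ℝ),
      k * (C⁻¹) ^ p * Iv ^ p * (1 / 8) ^ 2 / (4 * n) ≤ u z := by
    intro z hz
    rcases (Real.rpow_nonneg hIv0 p).eq_or_lt with h | h
    · rw [← h]; simp [(hu.pos z).le]
    refine ball_lower hn hu (by norm_num) ?_ (by positivity) fun w hw => hlow w ?_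
    · rw [Metric.mem_closedBall, dist_eq_norm] at hz
      have := norm_sub_norm_le e z
      rw [norm_sub_rev] at this
      linarith
    · rw [Metric.mem_closedBall] at hw hz ⊢
      linarith [dist_triangle w z e]
  have hsub : Metric.closedBall e (1 / 8 : ℝ) ⊆ wide n :=
    (Metric.closedBall_subset_closedBall (by norm_num)).trans hball
  have hi : IntegrableOn u (wide n) := hu.cont.continuousOn.integrableOn_compact isCompact_wide
  have h4 := setIntegral_mono_on
    (integrableOn_const (hs := measure_closedBall_lt_top.ne)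
      (C := k * (C⁻¹) ^ p * Iv ^ p * (1 / 8) ^ 2 / (4 * n)))
    (hi.mono_set hsub) measurableSet_closedBall hpt
  rw [setIntegral_const, smul_eq_mul, ← hvol] at h4
  refine le_trans (le_of_eq ?_) (h4.trans (setIntegral_mono_set hi
    ((ae_restrict_iff' measurableSet_wide).2 (Eventually.of_forall fun x _ => (hu.pos x).le))
    hsub.eventuallyLE))
  ring

/-- The cutoff: one on `1/4 ≤ |x| ≤ 2`, supported in the wide annulus. -/
def cut (x : E n) : ℝ :=
  Real.smoothTransition ((‖x‖ ^ 2 - 1 / 64) / (3 / 64)) *
    Real.smoothTransition ((9 - ‖x‖ ^ 2) / 5)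

theorem contDiff_cut : ContDiff ℝ 2 (cut : E n → ℝ) :=
  (Real.smoothTransition.contDiff.comp (((contDiff_norm_sq ℝ).sub contDiff_const).div_const _)).mul
    (Real.smoothTransition.contDiff.comp ((contDiff_const.sub (contDiff_norm_sq ℝ)).div_const _))

theorem cut_nonneg (x : E n) : 0 ≤ cut x :=
  mul_nonneg (Real.smoothTransition.nonneg _) (Real.smoothTransition.nonneg _)

theorem cut_one {x : E n} (hx : x ∈ reg n 2) : cut x = 1 := by
  have h1 := hx.1
  have h2 := hx.2
  rw [cut, Real.smoothTransition.one_of_one_le, Real.smoothTransition.one_of_one_le, one_mul]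
  · rw [le_div_iff₀ (by norm_num)]
    nlinarith [norm_nonneg x]
  · rw [le_div_iff₀ (by norm_num)]
    nlinarith

theorem tsupport_cut : tsupport (cut : E n → ℝ) ⊆ wide n := by
  refine closure_minimal (fun x hx => ?_) isCompact_wide.isClosed
  refine ⟨?_, ?_⟩
  · by_contra h
    refine hx ?_
    rw [cut, Real.smoothTransition.zero_of_nonpos, zero_mul]
    exact div_nonpos_of_nonpos_of_nonneg (by nlinarith [norm_nonneg x]) (by norm_num)
  · by_contra h
    refine hx ?_
    rw [cut, mul_comm, Real.smoothTransition.zero_of_nonpos, zero_mul]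
    exact div_nonpos_of_nonpos_of_nonneg (by nlinarith [norm_nonneg x]) (by norm_num)

theorem integrable_wide_supp {g : E n → ℝ} (hg : ∀ x ∈ wide n, ContinuousAt g x)
    (hs : tsupport g ⊆ wide n) : Integrable g := by
  refine (continuous_of_tsupport fun x hx => hg x (hs hx)).integrable_of_hasCompactSupport ?_
  exact isCompact_wide.of_isClosed_subset (isClosed_tsupport g) hs

/-- Moving the Laplacian onto the cutoff. -/
theorem ibp_cut {u : E n → ℝ} (hu : Super u) :
    ∫ x, cut x * Laplacian.laplacian u x = ∫ x, Laplacian.laplacian cut x * u x := by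
  have hc := contDiff_cut (n := n)
  have hu2 : ∀ x ∈ wide n, ContDiffAt ℝ 2 u x := fun x hx => hu.at' (wide_ne_zero hx)
  set du : Fin n → E n → ℝ := fun i x => fderiv ℝ u x (cv i) with hdu
  set dc : Fin n → E n → ℝ := fun i x => fderiv ℝ cut x (cv i) with hdc
  have hdu1 : ∀ i, ∀ x ∈ wide n, ContDiffAt ℝ 1 (du i) x := fun i x hx =>
    ((hu2 x hx).fderiv_right (m := 1) (by norm_num)).clm_apply contDiffAt_const
  have hdc1 : ∀ i, ContDiff ℝ 1 (dc i) := fun i =>
    (hc.fderiv_right (m := 1) (by norm_num)).clm_apply contDiff_const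
  have hdus : ∀ i, ∀ x ∈ wide n,
      fderiv ℝ (du i) x (cv i) = fderiv ℝ (fderiv ℝ u) x (cv i) (cv i) := fun i x hx => by
    rw [hdu]
    dsimp only
    rw [fderiv_clm_apply (((hu2 x hx).fderiv_right (m := 1) (by norm_num)).differentiableAt
      (by simp)) (differentiableAt_const _)]
    simp
  have hdcs : ∀ i, ∀ x, fderiv ℝ (dc i) x (cv i) = fderiv ℝ (fderiv ℝ cut) x (cv i) (cv i) :=
    fun i x => by
    rw [hdc]
    dsimp only
    rw [fderiv_clm_apply ((hc.fderiv_right (m := 1) (by norm_num)).differentiable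
      (by simp) x) (differentiableAt_const _)]
    simp
  have hts1 : ∀ i, tsupport (dc i) ⊆ wide n := fun i =>
    (tsupport_fderiv_apply_subset ℝ (cv i)).trans tsupport_cut
  have hts2 : ∀ i, tsupport (fun x => fderiv ℝ (dc i) x (cv i)) ⊆ wide n := fun i =>
    (tsupport_fderiv_apply_subset ℝ (cv i)).trans (hts1 i)
  have hdcc : ∀ i, Continuous fun x => fderiv ℝ (dc i) x (cv i) := fun i =>
    ((hdc1 i).continuous_fderiv (by simp)).clm_apply continuous_const
  have hduc : ∀ i, ∀ x ∈ wide n, ContinuousAt (fun x => fderiv ℝ (du i) x (cv i)) x :=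
    fun i x hx =>
    (((hdu1 i x hx).fderiv_right (m := 0) (by norm_num)).continuousAt).clm_apply
      continuousAt_const
  have I1 : ∀ i, Integrable fun x => cut x * fderiv ℝ (du i) x (cv i) := fun i =>
    integrable_wide_supp (fun x hx => hc.continuous.continuousAt.mul (hduc i x hx))
      (tsupport_mul_subset_left.trans tsupport_cut)
  have I2 : ∀ i, Integrable fun x => dc i x * du i x := fun i =>
    integrable_wide_supp (fun x hx => (hdc1 i).continuous.continuousAt.mul
      (hdu1 i x hx).continuousAt) (tsupport_mul_subset_left.trans (hts1 i))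
  have I3 : ∀ i, Integrable fun x => fderiv ℝ (dc i) x (cv i) * u x := fun i =>
    integrable_wide_supp (fun x _ => (hdcc i).continuousAt.mul hu.cont.continuousAt)
      (tsupport_mul_subset_left.trans (hts2 i))
  have I4 : ∀ i, Integrable fun x => cut x * du i x := fun i =>
    integrable_wide_supp (fun x hx => hc.continuous.continuousAt.mul (hdu1 i x hx).continuousAt)
      (tsupport_mul_subset_left.trans tsupport_cut)
  have I5 : ∀ i, Integrable fun x => dc i x * u x := fun i =>
    integrable_wide_supp (fun x _ => (hdc1 i).continuous.continuousAt.mul hu.cont.continuousAt)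
      (tsupport_mul_subset_left.trans (hts1 i))
  have key : ∀ i, ∫ x, cut x * fderiv ℝ (du i) x (cv i) =
      ∫ x, fderiv ℝ (dc i) x (cv i) * u x := by
    intro i
    rw [integral_mul_fderiv_eq_neg_fderiv_mul_of_integrable (I2 i) (I1 i) (I4 i)
      (fun x _ => hc.differentiable (by simp) x)
      (fun x hx => (hdu1 i x (tsupport_cut hx)).differentiableAt (by simp))]
    have := integral_mul_fderiv_eq_neg_fderiv_mul_of_integrable (I3 i)
      (I2 i) (I5 i)
      (fun x _ => (hdc1 i).differentiable (by simp) x)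
      (fun x hx => (hu2 x (hts1 i hx)).differentiableAt (by simp))
    change -∫ x, dc i x * du i x = _
    rw [show (fun x => dc i x * du i x) = fun x => dc i x * fderiv ℝ u x (cv i) from rfl, this,
      neg_neg]
  have e1 : ∀ x, cut x * Laplacian.laplacian u x = ∑ i, cut x * fderiv ℝ (du i) x (cv i) := by
    intro x
    rcases em (x ∈ wide n) with hx | hx
    · rw [lap_eq_sum, Finset.mul_sum]
      exact Finset.sum_congr rfl fun i _ => by rw [hdus i x hx]
    · have : cut x = 0 := image_eq_zero_of_notMem_tsupport fun h => hx (tsupport_cut h)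
      simp [this]
  have e2 : ∀ x, Laplacian.laplacian cut x * u x = ∑ i, fderiv ℝ (dc i) x (cv i) * u x := by
    intro x
    rw [lap_eq_sum, Finset.sum_mul]
    exact Finset.sum_congr rfl fun i _ => by rw [hdcs i x]
  simp only [e1, e2]
  rw [integral_finsetSum _ fun i _ => I1 i, integral_finsetSum _ fun i _ => I3 i]
  exact Finset.sum_congr rfl fun i _ => key i

/-- The source mass is controlled by the mass of the solution. -/
theorem src_le (n : ℕ) (A p : ℝ) : ∃ C : ℝ, 0 ≤ C ∧ ∀ u v : E n → ℝ,
    Super u → Super v → Eqn A p u v →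
      (∫ x in reg n 2, src A p v x) ≤ C * ∫ x in wide n, u x := by
  obtain ⟨M, hM⟩ := (isCompact_wide (n := n)).exists_bound_of_continuousOn
    (f := Laplacian.laplacian (cut : E n → ℝ)) (by
      have : Laplacian.laplacian (cut : E n → ℝ) =
          fun x => ∑ i, fderiv ℝ (fderiv ℝ cut) x (cv i) (cv i) := funext (lap_eq_sum _)
      rw [this]
      exact (continuous_finsetSum _ fun i _ =>
        ((((contDiff_cut (n := n)).fderiv_right (m := 1) (by norm_num)).continuous_fderiv
          (by simp)).clm_apply continuous_const).clm_apply continuous_const).continuousOn)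
  refine ⟨max M 0, le_max_right _ _, fun u v hu hv hEq => ?_⟩
  have hsub := reg_subset_wide (n := n) (T := 2) (by norm_num)
  have hI : Integrable fun x => cut x * src A p v x :=
    integrable_wide_supp (fun x hx => contDiff_cut.continuous.continuousAt.mul
      (continuousAt_src hv (wide_ne_zero hx))) (tsupport_mul_subset_left.trans tsupport_cut)
  have hi : IntegrableOn u (wide n) := hu.cont.continuousOn.integrableOn_compact isCompact_wide
  have hregm : MeasurableSet (reg n 2) :=
    ((isClosed_le continuous_const continuous_norm).inter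
      (isClosed_le continuous_norm continuous_const)).measurableSet
  have h1 : (∫ x in reg n 2, src A p v x) ≤ ∫ x, cut x * src A p v x := by
    rw [← integral_indicator hregm]
    refine integral_mono_of_nonneg (Eventually.of_forall fun x => ?_) hI
      (Eventually.of_forall fun x => ?_)
    · exact indicator_nonneg (fun z hz => (src_pos hv (wide_ne_zero (hsub hz))).le) x
    · by_cases hx : x ∈ reg n 2
      · simp only [indicator_of_mem hx, cut_one hx, one_mul, le_refl]
      · simp only [indicator_of_notMem hx]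
        rcases em (x ∈ wide n) with hw | hw
        · exact mul_nonneg (cut_nonneg x) (src_pos hv (wide_ne_zero hw)).le
        · simp [image_eq_zero_of_notMem_tsupport fun h => hw (tsupport_cut h)]
  have h2 : ∫ x, cut x * src A p v x = ∫ x, -(cut x * Laplacian.laplacian u x) := by
    refine integral_congr_ae (Eventually.of_forall fun x => ?_)
    rcases em (x ∈ wide n) with hw | hw
    · simp only [src]
      rw [← hEq x (wide_ne_zero hw)]
      ring
    · simp [image_eq_zero_of_notMem_tsupport fun h => hw (tsupport_cut h)]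
  rw [integral_neg, ibp_cut hu] at h2
  refine h1.trans (h2.le.trans ((neg_le_abs _).trans ?_))
  rw [← Real.norm_eq_abs, ← integral_const_mul]
  rw [← integral_indicator measurableSet_wide]
  refine norm_integral_le_of_norm_le
    (IntegrableOn.integrable_indicator (hi.const_mul _) measurableSet_wide)
    (Eventually.of_forall fun x => ?_)
  rcases em (x ∈ wide n) with hw | hw
  · rw [indicator_of_mem hw, norm_mul, Real.norm_eq_abs (u x), abs_of_pos (hu.pos x)]
    exact mul_le_mul_of_nonneg_right ((hM x hw).trans (le_max_left _ _)) (hu.pos x).le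
  · have : Laplacian.laplacian (cut : E n → ℝ) x = 0 := by
      have he : (cut : E n → ℝ) =ᶠ[𝓝 x] fun _ => (0 : ℝ) :=
        notMem_tsupport_iff_eventuallyEq.1 fun h => hw (tsupport_cut h)
      rw [(InnerProductSpace.laplacian_congr_nhds he).eq_of_nhds, lap_eq_sum]
      simp
    simp [this, indicator_of_notMem hw]

theorem bound_of_feedback {c p q : ℝ} (hc : 0 < c) (hp : 0 < p) (hpq : 1 < p * q) {x y : ℝ}
    (hx : 0 ≤ x) (h1 : c * y ^ p ≤ x) (h2 : c * x ^ q ≤ y) :
    x ≤ (c * c ^ p)⁻¹ ^ (p * q - 1)⁻¹ := by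
  rcases hx.eq_or_lt with h | h
  · rw [← h]; positivity
  have h3 : c * (c ^ p * x ^ (q * p)) ≤ x := by
    refine le_trans (mul_le_mul_of_nonneg_left ?_ hc.le) h1
    rw [Real.rpow_mul h.le, ← Real.mul_rpow hc.le (by positivity)]
    exact Real.rpow_le_rpow (by positivity) h2 hp.le
  have h4 : x ^ (p * q - 1) ≤ (c * c ^ p)⁻¹ := by
    rw [Real.rpow_sub h, Real.rpow_one, mul_comm p q, div_le_iff₀ h,
      le_inv_mul_iff₀ (by positivity), mul_assoc]
    exact h3
  have h5 := Real.rpow_le_rpow (by positivity) h4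
    (show 0 ≤ (p * q - 1)⁻¹ by have : 0 < p * q - 1 := by linarith
                               positivity)
  rwa [← Real.rpow_mul h.le, mul_inv_cancel₀ (by linarith), Real.rpow_one] at h5

theorem aprioriBound (hn : 3 ≤ n) : AprioriBound n := by
  intro A B p q _ _ hp hq hpq
  obtain ⟨c1, hc1, h1⟩ := mass_lower (n := n) hn A hp
  obtain ⟨c2, hc2, h2⟩ := mass_lower (n := n) hn B hq
  obtain ⟨K1, hK1, k1⟩ := src_le n A p
  obtain ⟨K2, hK2, k2⟩ := src_le n B q
  set c := min c1 c2
  have hc : 0 < c := lt_min hc1 hc2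
  set Cu := (c * c ^ p)⁻¹ ^ (p * q - 1)⁻¹
  set Cv := (c * c ^ q)⁻¹ ^ (q * p - 1)⁻¹
  have hCu : 0 ≤ Cu := by positivity
  have hCv : 0 ≤ Cv := by positivity
  refine ⟨Cu + Cv + K1 * Cu + K2 * Cv, by positivity, fun u v hs => ?_⟩
  have hIu : 0 ≤ ∫ x in wide n, u x := setIntegral_nonneg measurableSet_wide fun x _ => (hs.hu.pos x).le
  have hIv : 0 ≤ ∫ x in wide n, v x := setIntegral_nonneg measurableSet_wide fun x _ => (hs.hv.pos x).le
  have a1 := (mul_le_mul_of_nonneg_right (min_le_left c1 c2)
    (Real.rpow_nonneg hIv p)).trans (h1 u v hs.hu hs.hv hs.eu)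
  have a2 := (mul_le_mul_of_nonneg_right (min_le_right c1 c2)
    (Real.rpow_nonneg hIu q)).trans (h2 v u hs.hv hs.hu hs.ev)
  have bu : (∫ x in wide n, u x) ≤ Cu := bound_of_feedback hc hp hpq hIu a1 a2
  have bv : (∫ x in wide n, v x) ≤ Cv :=
    bound_of_feedback hc hq (by rwa [mul_comm] at hpq) hIv a2 a1
  have r1 : (∫ x in reg n 2, u x) ≤ ∫ x in wide n, u x :=
    setIntegral_mono_set (hs.hu.cont.continuousOn.integrableOn_compact isCompact_wide)
      (Eventually.of_forall fun x => (hs.hu.pos x).le)
      (reg_subset_wide (by norm_num)).eventuallyLE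
  have r2 : (∫ x in reg n 2, v x) ≤ ∫ x in wide n, v x :=
    setIntegral_mono_set (hs.hv.cont.continuousOn.integrableOn_compact isCompact_wide)
      (Eventually.of_forall fun x => (hs.hv.pos x).le)
      (reg_subset_wide (by norm_num)).eventuallyLE
  have s1 := (k1 u v hs.hu hs.hv hs.eu).trans (mul_le_mul_of_nonneg_left bu hK1)
  have s2 := (k2 v u hs.hv hs.hu hs.ev).trans (mul_le_mul_of_nonneg_left bv hK2)
  have p1 := mul_nonneg hK1 hCu
  have p2 := mul_nonneg hK2 hCv
  exact ⟨by linarith, by linarith, by linarith, by linarith⟩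

end Vale.Agent.P100E
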