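import Vale.Agent.P100E.Main

/-!
# P100 energy method: parameter ranges contained in the energy region
-/

noncomputable section

namespace Vale.Agent.P100E

variable {n : ℕ} {p q A B : ℝ}

theorem region_of_three (hn : n = 3) (hp : 0 < p) :
    ((n : ℝ) - 3) * (p * q - 1) < 2 * (max p q + 1) := by
  subst hn
  have := le_max_left p q
  norm_num
  linarith

theorem region_of_four (hn : n = 4) (hp : 0 < p) (hq : 0 < q) (hA : A ≤ 0) (hB : B ≤ 0)
    (hsub : (n : ℝ) - 2 < ((n : ℝ) + A) / (p + 1) + ((n : ℝ) + B) / (q + 1)) :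
    ((n : ℝ) - 3) * (p * q - 1) < 2 * (max p q + 1) := by
  subst hn
  have h1 : ((4 : ℝ) + A) / (p + 1) ≤ 4 / (p + 1) := by gcongr; linarith
  have h2 : ((4 : ℝ) + B) / (q + 1) ≤ 4 / (q + 1) := by gcongr; linarith
  have h3 : (2 : ℝ) < 4 / (p + 1) + 4 / (q + 1) := by push_cast at hsub; linarith
  rw [div_add_div _ _ (show p + 1 ≠ 0 by linarith) (show q + 1 ≠ 0 by linarith),
    lt_div_iff₀ (by positivity)] at h3
  have := le_max_left p q
  have := le_max_right p q
  norm_num
  nlinarith

theorem region_of_small (hn : 3 ≤ n) (hp : 0 < p) (hq : 0 < q)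
    (h : ((n : ℝ) - 3) * min p q ≤ 2) :
    ((n : ℝ) - 3) * (p * q - 1) < 2 * (max p q + 1) := by
  have hn' : (3 : ℝ) ≤ n := by exact_mod_cast hn
  have hm : 0 < max p q := lt_max_of_lt_left hp
  have e : p * q = min p q * max p q := (min_mul_max p q).symm
  have := mul_le_mul_of_nonneg_right h hm.le
  rw [e]
  nlinarith

end Vale.Agent.P100E
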