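import Vale.Agent.P100H.Bootstrap

/-!
# P100: energy method (sphere interpolation + hole filling) — shared interface

Target: for `n ≥ 3`, `A, B > -2`, weighted subcritical `(p,q)` with `pq > 1` and
`max (2(p+1)) (2(q+1)) > (n-3)(pq-1)` there is no positive entire solution.
-/

noncomputable section

namespace Vale.Agent.P100E

open MeasureTheory Set Vale.Agent.P100H

variable {n : ℕ}

/-- A positive entire solution. -/
structure Sol (A B p q : ℝ) (u v : E n → ℝ) : Prop where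
  hu : Super u
  hv : Super v
  eu : Eqn A p u v
  ev : Eqn B q v u

/-- The source `|x|^A w^p`. -/
def src (A p : ℝ) (w : E n → ℝ) (x : E n) : ℝ := ‖x‖ ^ A * w x ^ p

/-- The closed annulus `1/4 ≤ |x| ≤ T`. -/
def reg (n : ℕ) (T : ℝ) : Set (E n) := {x | 1 / 4 ≤ ‖x‖ ∧ ‖x‖ ≤ T}

/-- Energy density. -/
def dens (A B p q : ℝ) (u v : E n → ℝ) (x : E n) : ℝ := src A p v x * v x + src B q u x * u x

/-- Energy in a ball. -/
def energy (A B p q : ℝ) (u v : E n → ℝ) (r : ℝ) : ℝ :=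
  ∫ x in Metric.closedBall (0 : E n) r, dens A B p q u v x

/-- Integral over the sphere of radius `r`, in unit-sphere coordinates. -/
def sphInt (g : E n → ℝ) (r : ℝ) : ℝ :=
  ∫ θ : Metric.sphere (0 : E n) 1, g (r • θ.1) ∂(volume : Measure (E n)).toSphere

/-- The `L^s` norm on the sphere of radius `r`, in unit-sphere coordinates. -/
def sN (s : ℝ) (g : E n → ℝ) (r : ℝ) : ℝ := sphInt (fun x => |g x| ^ s) r ^ s⁻¹

/-- Operator norm of the derivative. -/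
def dn (w : E n → ℝ) (x : E n) : ℝ := ‖fderiv ℝ w x‖

/-- The boundary density of the Pohozaev identity. -/
def bdy (A B p q : ℝ) (u v : E n → ℝ) (x : E n) : ℝ :=
  dens A B p q u v x + dn u x * dn v x + dn u x * v x + dn v x * u x

/-- Module P: Pohozaev inequality on balls, with the origin removed. -/
def PohozaevBound (n : ℕ) : Prop :=
  ∀ A B p q : ℝ, -2 < A → -2 < B → 0 < p → 0 < q →
    (n : ℝ) - 2 < ((n : ℝ) + A) / (p + 1) + ((n : ℝ) + B) / (q + 1) →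
    ∃ C : ℝ, 0 ≤ C ∧ ∀ u v : E n → ℝ, Sol A B p q u v →
      (∀ r : ℝ, IntegrableOn (dens A B p q u v) (Metric.closedBall 0 r)) ∧
      ∀ r ∈ Icc (1 : ℝ) 2, energy A B p q u v r ≤ C * sphInt (bdy A B p q u v) r

/-- Module A: universal bounds on a fixed annulus. -/
def AprioriBound (n : ℕ) : Prop :=
  ∀ A B p q : ℝ, -2 < A → -2 < B → 0 < p → 0 < q → 1 < p * q →
    ∃ C : ℝ, 0 ≤ C ∧ ∀ u v : E n → ℝ, Sol A B p q u v →
      (∫ x in reg n 2, u x) ≤ C ∧ (∫ x in reg n 2, v x) ≤ C ∧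
      (∫ x in reg n 2, src A p v x) ≤ C ∧ (∫ x in reg n 2, src B q u x) ≤ C

/-- Module M: mean-value representation, dyadic and finite, for the value and the derivative. -/
def MeanBound (n : ℕ) : Prop :=
  ∃ C : ℝ, 0 ≤ C ∧ ∀ (w : E n → ℝ) (x : E n) (ρ Λ : ℝ), 0 < ρ →
    (∀ y ∈ Metric.closedBall x ρ, ContDiffAt ℝ 2 w y) →
    (∀ y ∈ Metric.closedBall x ρ, |Laplacian.laplacian w y| ≤ Λ) →
    ∀ K : ℕ,
      |w x| ≤ C * ((ρ ^ n)⁻¹ * ∫ y in Metric.closedBall x ρ, |w y|) +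
          C * ∑ k ∈ Finset.range K, (ρ / 2 ^ k) ^ (2 : ℕ) *
            (((ρ / 2 ^ k) ^ n)⁻¹ *
              ∫ y in Metric.closedBall x (ρ / 2 ^ k), |Laplacian.laplacian w y|) +
          C * Λ * (ρ / 2 ^ K) ^ (2 : ℕ) ∧
      dn w x ≤ C * ((ρ ^ (n + 1))⁻¹ * ∫ y in Metric.closedBall x ρ, |w y|) +
          C * ∑ k ∈ Finset.range K, (ρ / 2 ^ k) *
            (((ρ / 2 ^ k) ^ n)⁻¹ *
              ∫ y in Metric.closedBall x (ρ / 2 ^ k), |Laplacian.laplacian w y|) +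
          C * Λ * (ρ / 2 ^ K)

/-- Conclusion of module S for one quantity `G w`: a bound on the sphere for most radii. -/
def GoodRadii (n : ℕ) (m s : ℝ) (G : (E n → ℝ) → E n → ℝ) : Prop :=
  ∃ (C : ℝ) (N : ℕ), 0 ≤ C ∧ ∀ (w : E n → ℝ) (t δ M I : ℝ),
    ContDiffOn ℝ 2 w {0}ᶜ → 1 ≤ t → 0 < δ → t + δ ≤ 2 → 0 ≤ M →
    (∫ y in reg n (t + δ), |Laplacian.laplacian w y| ^ m) ≤ M ^ m →
    (∫ y in reg n (t + δ), |w y|) ≤ I →
    ∃ bad : Set ℝ, volume bad ≤ ENNReal.ofReal (δ / 16) ∧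
      ∀ r ∈ Icc t (t + δ / 2) \ bad, sN s (G w) r ≤ C * (1 / δ) ^ N * (M + I)

/-- Module S: sphere bounds from `L^m` bounds on the Laplacian. -/
def SphereBound (n : ℕ) : Prop :=
  ∀ m s : ℝ, 1 ≤ m → m ≤ s →
    (((n : ℝ) - 1) * (1 / m - 1 / s) < 2 → GoodRadii n m s fun w => w) ∧
    (((n : ℝ) - 1) * (1 / m - 1 / s) < 1 → GoodRadii n m s fun w => dn w)

end Vale.Agent.P100E
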