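import Vale.Agent.P100L.Linear
import Vale.Agent.P100E.Defs

/-!
# P100 energy method: averages of supersolutions on a fixed annulus are comparable
-/

noncomputable section

namespace Vale.Agent.P100E

open MeasureTheory Set Vale.Agent.P100H Vale.Agent.P100L

variable {n : ℕ}

/-- One Harnack step between averages. -/
theorem avg_step (hn : 3 ≤ n) : ∃ C : ℝ, 0 < C ∧ ∀ (u : E n → ℝ), Super u →
    ∀ (ρ : ℝ) (x x' : E n), 0 < ρ → ‖x - x'‖ ≤ 2 * ρ → 9 * ρ < ‖x'‖ →
      avg u x ρ ≤ C * avg u x' ρ := by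
  set C1 := 64 / 27 * 8 ^ n * mass n 3 with hC1
  set vol := volume.real (Metric.closedBall (0 : E n) 1) with hvol
  have hvol0 : 0 < vol := ENNReal.toReal_pos
    (Metric.measure_closedBall_pos volume (0 : E n) one_pos).ne' measure_closedBall_lt_top.ne
  have hC10 : 0 < C1 := by have := mass_pos n (show 3 ≠ 0 by norm_num); positivity
  refine ⟨C1 / vol, by positivity, fun u hu ρ x x' hρ h1 h2 => ?_⟩
  have h3 : ∀ z ∈ Metric.closedBall (0 : E n) 1, avg u x ρ / C1 ≤ u (x' + ρ • z) := by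
    intro z hz
    have hzz : ‖ρ • z‖ ≤ ρ := by
      rw [norm_smul, Real.norm_eq_abs, abs_of_pos hρ]
      exact mul_le_of_le_one_right hρ.le (mem_closedBall_zero_iff.1 hz)
    rw [div_le_iff₀' hC10]
    refine weak_harnack hu hρ ?_ ?_
    · rw [← sub_sub]
      linarith [norm_sub_le (x - x') (ρ • z)]
    · have := norm_le_add_norm_add x' (ρ • z)
      linarith
  have h4 := setIntegral_mono_on (integrableOn_const (hs := measure_closedBall_lt_top.ne)
    (C := avg u x ρ / C1)) (integrableOn_avg hu x' ρ) measurableSet_closedBall h3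
  rw [setIntegral_const, smul_eq_mul, ← hvol] at h4
  calc avg u x ρ = C1 / vol * (vol * (avg u x ρ / C1)) := by field_simp
    _ ≤ C1 / vol * avg u x' ρ := mul_le_mul_of_nonneg_left h4 (by positivity)

/-- A chain of Harnack steps along a segment. -/
theorem avg_segment (hn : 3 ≤ n) : ∃ C : ℝ, 0 < C ∧ ∀ (u : E n → ℝ), Super u →
    ∀ (ρ : ℝ) (a b : E n) (N : ℕ), 0 < ρ → 0 < N → ‖b - a‖ ≤ 2 * ρ * N →
      (∀ t ∈ Icc (0 : ℝ) 1, 9 * ρ < ‖a + t • (b - a)‖) →
      avg u a ρ ≤ C ^ N * avg u b ρ := by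
  obtain ⟨C, hC, hstep⟩ := avg_step (n := n) hn
  refine ⟨C, hC, fun u hu ρ a b N hρ hN hab hline => ?_⟩
  have hN' : (0 : ℝ) < N := by exact_mod_cast hN
  have hind : ∀ j : ℕ, j ≤ N →
      avg u a ρ ≤ C ^ j * avg u (a + ((j : ℝ) / N) • (b - a)) ρ := by
    intro j
    induction j with
    | zero => intro _; simp
    | succ j ih =>
      intro hj
      refine (ih (by omega)).trans ?_
      rw [pow_succ, mul_assoc]
      refine mul_le_mul_of_nonneg_left (hstep u hu ρ _ _ hρ ?_ ?_) (by positivity)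
      · rw [show a + ((j : ℝ) / N) • (b - a) - (a + (((j + 1 : ℕ) : ℝ) / N) • (b - a)) =
          (-(1 / N) : ℝ) • (b - a) by push_cast; module,
          norm_smul, Real.norm_eq_abs, abs_neg, abs_of_pos (by positivity : (0 : ℝ) < 1 / N),
          one_div, inv_mul_le_iff₀ hN']
        linarith
      · refine hline _ ⟨by positivity, ?_⟩
        rw [div_le_one hN']
        exact_mod_cast hj
  have := hind N le_rfl
  rw [div_self hN'.ne', one_smul, add_sub_cancel] at this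
  exact this

/-- Harnack inequality on the annulus `1/8 ≤ |x| ≤ 3`, at scale `1/128`. -/
theorem harnack (hn : 3 ≤ n) : ∃ C : ℝ, 0 < C ∧ ∀ (u : E n → ℝ), Super u →
    ∀ x y : E n, 1 / 8 ≤ ‖x‖ → ‖x‖ ≤ 3 → 1 / 8 ≤ ‖y‖ → ‖y‖ ≤ 3 →
      avg u x (1 / 128) ≤ C * u y := by
  obtain ⟨C, hC, hseg⟩ := avg_segment (n := n) hn
  set C1 := 64 / 27 * 8 ^ n * mass n 3 with hC1
  have hC10 : 0 < C1 := by have := mass_pos n (show 3 ≠ 0 by norm_num); positivity
  refine ⟨(C ^ 192 * C ^ 12 * C ^ 12 * C ^ 192) * C1, by positivity,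
    fun u hu x y hx1 hx2 hy1 hy2 => ?_⟩
  set ρ : ℝ := 1 / 128
  have hρ : 0 < ρ := by norm_num [ρ]
  set hat : E n → E n := fun x => (1 / (8 * ‖x‖)) • x with hhat
  have hh : ∀ x : E n, 1 / 8 ≤ ‖x‖ → ‖hat x‖ = 16 * ρ := fun x hx => by
    have h0 : 0 < ‖x‖ := by linarith
    rw [hhat]
    dsimp only
    rw [norm_smul, Real.norm_eq_abs, abs_of_pos (by positivity)]
    field_simp
    norm_num [ρ]
  have radial : ∀ x : E n, 1 / 8 ≤ ‖x‖ → ‖x‖ ≤ 3 →
      avg u x ρ ≤ C ^ 192 * avg u (hat x) ρ ∧ avg u (hat x) ρ ≤ C ^ 192 * avg u x ρ := by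
    intro x hx hx'
    have h0 : 0 < ‖x‖ := by linarith
    have hb : ‖hat x - x‖ ≤ 2 * ρ * ((192 : ℕ) : ℝ) := by
      rw [hhat]
      dsimp only
      rw [show (1 / (8 * ‖x‖)) • x - x = (1 / (8 * ‖x‖) - 1) • x by module, norm_smul,
        Real.norm_eq_abs]
      have e1 : (1 / (8 * ‖x‖) - 1) * ‖x‖ = 1 / 8 - ‖x‖ := by field_simp
      rw [← abs_of_pos h0, ← abs_mul, abs_of_pos h0, e1, abs_le]
      norm_num [ρ]
      constructor <;> linarith
    have hline : ∀ t ∈ Icc (0 : ℝ) 1, 9 * ρ < ‖x + t • (hat x - x)‖ := by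
      intro t ht
      rw [hhat]
      dsimp only
      rw [show x + t • ((1 / (8 * ‖x‖)) • x - x) = (1 + t * (1 / (8 * ‖x‖) - 1)) • x by module,
        norm_smul, Real.norm_eq_abs]
      have e2 : (1 + t * (1 / (8 * ‖x‖) - 1)) * ‖x‖ = (1 - t) * ‖x‖ + t * (1 / 8) := by
        field_simp
        ring
      have h3 : 1 / 8 ≤ (1 + t * (1 / (8 * ‖x‖) - 1)) * ‖x‖ := by
        rw [e2]
        nlinarith [mul_le_mul_of_nonneg_left hx (show 0 ≤ 1 - t by linarith [ht.2])]
      have h4 : (1 + t * (1 / (8 * ‖x‖) - 1)) * ‖x‖ ≤ |1 + t * (1 / (8 * ‖x‖) - 1)| * ‖x‖ :=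
        mul_le_mul_of_nonneg_right (le_abs_self _) h0.le
      norm_num [ρ] at *
      linarith
    refine ⟨hseg u hu ρ x (hat x) 192 hρ (by norm_num) hb hline, ?_⟩
    refine hseg u hu ρ (hat x) x 192 hρ (by norm_num) (by rwa [norm_sub_rev]) fun t ht => ?_
    have := hline (1 - t) ⟨by linarith [ht.2], by linarith [ht.1]⟩
    rwa [show x + (1 - t) • (hat x - x) = hat x + t • (x - hat x) by module] at this
  have chord : ∀ a b : E n, ‖a‖ = 16 * ρ → ‖b‖ = 16 * ρ → inner ℝ a b = 0 →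
      avg u a ρ ≤ C ^ 12 * avg u b ρ := by
    intro a b ha hb hab
    refine hseg u hu ρ a b 12 hρ (by norm_num) ?_ fun t _ => ?_
    · have h5 : ‖b - a‖ ^ 2 ≤ (24 * ρ) ^ 2 := by
        rw [norm_sub_sq_real, real_inner_comm, hab, ha, hb]; nlinarith
      have h6 := (pow_le_pow_iff_left₀ (norm_nonneg _) (by positivity) two_ne_zero).1 h5
      push_cast
      linarith
    · have e : a + t • (b - a) = (1 - t) • a + t • b := by module
      have h5 : (9 * ρ) ^ 2 < ‖a + t • (b - a)‖ ^ 2 := by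
        rw [e, norm_add_sq_real, real_inner_smul_left, real_inner_smul_right, hab, norm_smul,
          norm_smul, ha, hb, Real.norm_eq_abs, Real.norm_eq_abs]
        simp only [mul_pow, sq_abs]
        nlinarith [mul_nonneg (sq_nonneg (2 * t - 1)) (sq_nonneg ρ), mul_pos hρ hρ]
      exact (pow_lt_pow_iff_left₀ (by positivity) (norm_nonneg _) two_ne_zero).1 h5
  obtain ⟨w, hw, hw1, hw2⟩ : ∃ w : E n, ‖w‖ = 16 * ρ ∧ inner ℝ (hat x) w = 0 ∧
      inner ℝ w (hat y) = 0 := by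
    set T : E n →ₗ[ℝ] ℝ × ℝ := (innerₛₗ ℝ (hat x)).prod (innerₛₗ ℝ (hat y))
    have hker : LinearMap.ker T ≠ ⊥ := by
      refine LinearMap.ker_ne_bot_of_finrank_lt ?_
      simp only [Module.finrank_prod, Module.finrank_self, finrank_euclideanSpace_fin]
      omega
    obtain ⟨z, hz, hz0⟩ := Submodule.exists_mem_ne_zero_of_ne_bot hker
    rw [LinearMap.mem_ker] at hz
    have hz1 : inner ℝ (hat x) z = 0 := congrArg Prod.fst hz
    have hz2 : inner ℝ (hat y) z = 0 := congrArg Prod.snd hz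
    have hzn := norm_pos_iff.2 hz0
    refine ⟨(16 * ρ / ‖z‖) • z, ?_, by rw [real_inner_smul_right, hz1, mul_zero],
      by rw [real_inner_smul_left, real_inner_comm, hz2, mul_zero]⟩
    rw [norm_smul, Real.norm_eq_abs, abs_of_pos (by positivity)]
    field_simp
  have r1 := (radial x hx1 hx2).1
  have r2 := chord (hat x) w (hh x hx1) hw hw1
  have r3 := chord w (hat y) hw (hh y hy1) hw2
  have r4 := (radial y hy1 hy2).2
  have r5 : avg u y ρ ≤ C1 * u y :=
    weak_harnack hu hρ (by simp; positivity) (by norm_num [ρ]; linarith)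
  calc avg u x ρ ≤ C ^ 192 * avg u (hat x) ρ := r1
    _ ≤ C ^ 192 * (C ^ 12 * avg u w ρ) := by gcongr
    _ ≤ C ^ 192 * (C ^ 12 * (C ^ 12 * avg u (hat y) ρ)) := by gcongr
    _ ≤ C ^ 192 * (C ^ 12 * (C ^ 12 * (C ^ 192 * avg u y ρ))) := by gcongr
    _ ≤ C ^ 192 * (C ^ 12 * (C ^ 12 * (C ^ 192 * (C1 * u y)))) := by gcongr
    _ = C ^ 192 * C ^ 12 * C ^ 12 * C ^ 192 * C1 * u y := by ring

end Vale.Agent.P100E
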