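import Vale.Agent.P100E.Step

/-!
# P100 energy method: exponents, hole-filling iteration, scaling, nonexistence
-/

noncomputable section

namespace Vale.Agent.P100E

open MeasureTheory Set Filter Topology Vale.Agent.P100H Vale.Agent.P100L

variable {n : ℕ}

theorem exists_exponents_aux {c p q : ℝ} (hp : 0 < p) (hq : 0 < q) (hpq : 1 < p * q)
    (h : c * (p * (q + 1)) < p + 1) :
    ∃ x y : ℝ, 0 < x ∧ x ≤ (p + 1)⁻¹ ∧ 0 < y ∧ y ≤ (q + 1)⁻¹ ∧ c < x + y ∧
      p * x + q * y < 1 := by
  set U := (p * (q + 1))⁻¹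
  set Lw := max 0 (c - (q + 1)⁻¹)
  have hU : 0 < U := by positivity
  have hlt : Lw < U := by
    refine max_lt hU ?_
    have h1 : c < (p + 1) / (p * (q + 1)) := by rwa [lt_div_iff₀ (by positivity)]
    have h2 : (p + 1) / (p * (q + 1)) = (q + 1)⁻¹ + U := by
      simp only [U]; field_simp
    linarith
  have hL0 : 0 ≤ Lw := le_max_left _ _
  have hL1 : c - (q + 1)⁻¹ ≤ Lw := le_max_right _ _
  refine ⟨(Lw + U) / 2, (q + 1)⁻¹, by linarith, ?_, by positivity, le_rfl, by linarith, ?_⟩
  · have h3 : U ≤ (p + 1)⁻¹ := inv_anti₀ (by positivity) (by linarith)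
    linarith
  · have h4 : p * U + q * (q + 1)⁻¹ = 1 := by
      simp only [U]; field_simp; ring
    have h5 : p * ((Lw + U) / 2) < p * U := mul_lt_mul_of_pos_left (by linarith) hp
    linarith

theorem exists_exponents (hn : 3 ≤ n) {p q : ℝ} (hp : 0 < p) (hq : 0 < q) (hpq : 1 < p * q)
    (h : ((n : ℝ) - 3) * (p * q - 1) < 2 * (max p q + 1)) :
    ∃ x y : ℝ, 0 < x ∧ x ≤ (p + 1)⁻¹ ∧ 0 < y ∧ y ≤ (q + 1)⁻¹ ∧
      ((n : ℝ) - 3) / ((n : ℝ) - 1) < x + y ∧ p * x + q * y < 1 := by
  have hn1 : (0 : ℝ) < (n : ℝ) - 1 := by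
    have : (3 : ℝ) ≤ n := by exact_mod_cast hn
    linarith
  rcases le_total q p with hle | hle
  · rw [max_eq_left hle] at h
    refine exists_exponents_aux hp hq hpq ?_
    rw [div_mul_eq_mul_div, div_lt_iff₀ hn1]
    nlinarith
  · rw [max_eq_right hle] at h
    obtain ⟨y, x, hy, hy1, hx, hx1, hc, he⟩ := exists_exponents_aux
      (c := ((n : ℝ) - 3) / ((n : ℝ) - 1)) hq hp (by rwa [mul_comm] at hpq) (by
        rw [div_mul_eq_mul_div, div_lt_iff₀ hn1]
        nlinarith)
    exact ⟨x, y, hx, hx1, hy, hy1, by linarith, by linarith⟩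

/-- Hole filling: a sublinear feedback between nearby balls bounds the innermost one. -/
theorem hole_filling {e C : ℝ} (N : ℕ) (he0 : 0 ≤ e) (he : e < 1) (hC : 0 ≤ C) :
    ∃ K : ℝ, ∀ F : ℝ → ℝ, (∀ r, 0 ≤ F r) → (∀ r r', r ≤ r' → F r ≤ F r') →
      (∀ t δ : ℝ, 1 ≤ t → 0 < δ → t + δ ≤ 2 → F t ≤ C * (1 / δ) ^ N * (1 + F (t + δ)) ^ e) →
      F 1 ≤ K := by
  set a := Real.log (1 + C) + N * Real.log 2 with ha
  set b := N * Real.log 2 with hb
  set β := b / (1 - e)
  set α := (a + e * β) / (1 - e)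
  have hl2 : 0 < Real.log 2 := Real.log_pos (by norm_num)
  have hlC : 0 ≤ Real.log (1 + C) := Real.log_nonneg (by linarith)
  have hb0 : 0 ≤ b := by positivity
  have ha0 : 0 ≤ a := by positivity
  have hβ : 0 ≤ β := div_nonneg hb0 (by linarith)
  have hα : 0 ≤ α := div_nonneg (by positivity) (by linarith)
  refine ⟨Real.exp α, fun F hF0 hmono hfb => ?_⟩
  set t : ℕ → ℝ := fun i => 2 - (1 / 2) ^ i with htdef
  have ht1 : ∀ i, 1 ≤ t i ∧ t i ≤ 2 := fun i => by
    have h1 : (1 / 2 : ℝ) ^ i ≤ 1 := pow_le_one₀ (by norm_num) (by norm_num)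
    have h2 : (0 : ℝ) ≤ (1 / 2) ^ i := by positivity
    simp only [t]
    constructor <;> linarith
  set L : ℕ → ℝ := fun i => Real.log (1 + F (t i)) with hLdef
  have hstep : ∀ i, L i ≤ a + b * i + e * L (i + 1) := by
    intro i
    have hΦ : (1 : ℝ) ≤ 1 + F (t (i + 1)) := by linarith [hF0 (t (i + 1))]
    have hδ : t (i + 1) = t i + (1 / 2) ^ (i + 1) := by
      simp only [t]; rw [pow_succ]; ring
    have h := hfb (t i) ((1 / 2) ^ (i + 1)) (ht1 i).1 (by positivity)
      (hδ ▸ (ht1 (i + 1)).2)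
    rw [← hδ] at h
    set Φ := 1 + F (t (i + 1))
    have h2 : (1 / (1 / 2 : ℝ) ^ (i + 1)) ^ N = 2 ^ ((i + 1) * N) := by
      rw [show (1 / (1 / 2 : ℝ) ^ (i + 1)) = 2 ^ (i + 1) by rw [one_div_pow, one_div_one_div],
        ← pow_mul]
    rw [h2] at h
    have hone : (1 : ℝ) ≤ 2 ^ ((i + 1) * N) * Φ ^ e :=
      one_le_mul_of_one_le_of_one_le (one_le_pow₀ (by norm_num)) (Real.one_le_rpow hΦ he0)
    have h3 : 1 + F (t i) ≤ (1 + C) * (2 ^ ((i + 1) * N) * Φ ^ e) := by linarith
    have h4 := Real.log_le_log (by linarith [hF0 (t i)]) h3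
    rw [Real.log_mul (by linarith) (by positivity), Real.log_mul (by positivity) (by positivity),
      Real.log_pow, Real.log_rpow (by linarith)] at h4
    push_cast at h4
    simp only [L, ha, hb]
    linarith
  have hfix : ∀ i : ℕ, a + b * i + e * (α + β * (i + 1)) = α + β * i := by
    intro i
    have e1 : β * (1 - e) = b := div_mul_cancel₀ _ (by linarith)
    have e2 : α * (1 - e) = a + e * β := div_mul_cancel₀ _ (by linarith)
    linear_combination (-(i : ℝ)) * e1 - e2
  set Lm := Real.log (1 + F 2)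
  have hLm : ∀ i, L i ≤ Lm := fun i => Real.log_le_log (by linarith [hF0 (t i)])
    (by linarith [hmono _ _ (ht1 i).2])
  have hind : ∀ k i, L i ≤ α + β * i + e ^ k * Lm := by
    intro k
    induction k with
    | zero =>
      intro i
      have := hLm i
      have : 0 ≤ β * (i : ℝ) := by positivity
      simp only [pow_zero, one_mul]
      linarith
    | succ k ih =>
      intro i
      have h1 := hstep i
      have h2 := mul_le_mul_of_nonneg_left (ih (i + 1)) he0
      push_cast at h2
      have h3 := hfix i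
      rw [pow_succ]
      linarith
  have hlim : Tendsto (fun k : ℕ => α + β * ((0 : ℕ) : ℝ) + e ^ k * Lm) atTop (𝓝 α) := by
    simpa using ((tendsto_pow_atTop_nhds_zero_of_lt_one he0 he).mul_const Lm).const_add α
  have hL0 : L 0 ≤ α := ge_of_tendsto' hlim fun k => hind k 0
  have ht0 : t 0 = 1 := by norm_num [t]
  simp only [L, ht0] at hL0
  have := (Real.log_le_iff_le_exp (by linarith [hF0 1])).1 hL0
  linarith

/-- The rescaled function `R^α u(R x)`. -/
def scale (R α : ℝ) (u : E n → ℝ) (x : E n) : ℝ := R ^ α * u (R • x)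

theorem lap_scale {R α : ℝ} (hR : 0 < R) {u : E n → ℝ} (hu : Super u) {x : E n} (hx : x ≠ 0) :
    Laplacian.laplacian (scale R α u) x = R ^ α * R ^ 2 * Laplacian.laplacian u (R • x) := by
  have h := hu.at' (smul_ne_zero hR.ne' hx)
  have hg : ContDiffAt ℝ 2 (fun z => u (R • z)) x := h.comp x (contDiffAt_id.const_smul R)
  rw [show scale R α u = (R ^ α) • fun z => u (R • z) from funext fun z => rfl,
    InnerProductSpace.laplacian_smul _ hg, lap_smul_arg R h, smul_eq_mul, mul_assoc]

theorem super_scale {R α : ℝ} (hR : 0 < R) {u : E n → ℝ} (hu : Super u) :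
    Super (scale R α u) := by
  refine ⟨continuous_const.mul (hu.cont.comp (by fun_prop)), fun x hx => ?_,
    fun x => mul_pos (Real.rpow_pos_of_pos hR _) (hu.pos _), fun x hx => ?_⟩
  · have h := hu.at' (smul_ne_zero hR.ne' hx)
    exact (contDiffAt_const.mul (h.comp x (contDiffAt_id.const_smul R))).contDiffWithinAt
  · rw [lap_scale hR hu hx]
    exact mul_neg_of_pos_of_neg (by positivity) (hu.lap _ (smul_ne_zero hR.ne' hx))

theorem src_scale {R β : ℝ} (hR : 0 < R) (A p : ℝ) {v : E n → ℝ} (hv : Super v) (x : E n) :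
    src A p (scale R β v) x * R ^ A = R ^ (p * β) * src A p v (R • x) := by
  unfold src scale
  rw [Real.mul_rpow (by positivity) (hv.pos _).le, ← Real.rpow_mul hR.le, norm_smul,
    Real.norm_eq_abs, abs_of_pos hR, Real.mul_rpow hR.le (norm_nonneg x), mul_comm β p]
  ring

theorem eqn_scale {R α β A p : ℝ} (hR : 0 < R) (hid : α + 2 + A = p * β) {u v : E n → ℝ}
    (hu : Super u) (hv : Super v) (he : Eqn A p u v) : Eqn A p (scale R α u) (scale R β v) := by
  intro x hx
  have h := src_scale (β := β) hR A p hv x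
  rw [← hid, Real.rpow_add hR, Real.rpow_add hR, Real.rpow_two] at h
  have h1 : Laplacian.laplacian u (R • x) = -src A p v (R • x) := by
    have := he (R • x) (smul_ne_zero hR.ne' hx)
    simp only [src]; linarith
  rw [lap_scale hR hu hx, h1]
  have h2 : src A p (scale R β v) x = R ^ α * R ^ 2 * src A p v (R • x) := by
    refine mul_right_cancel₀ (Real.rpow_pos_of_pos hR A).ne' ?_
    linarith
  change _ = src A p (scale R β v) x
  rw [h2]
  ring

theorem false_of_region (hn : 3 ≤ n) (hP : PohozaevBound n) (hS : SphereBound n)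
    {A B p q : ℝ} (hA : -2 < A) (hB : -2 < B) (hp : 0 < p) (hq : 0 < q)
    (hsub : (n : ℝ) - 2 < ((n : ℝ) + A) / (p + 1) + ((n : ℝ) + B) / (q + 1))
    (hreg : ((n : ℝ) - 3) * (p * q - 1) < 2 * (max p q + 1))
    {u v : E n → ℝ} (hu : Super u) (hv : Super v) (he : Eqn A p u v) (he' : Eqn B q v u) :
    False := by
  rcases le_or_gt (p * q) 1 with hpq | hpq
  · exact false_of_base hn hA hB hp hq (Or.inl hpq) hu hv he he'
  obtain ⟨x, y, hx, hx1, hy, hy1, hxy, hexp⟩ := exists_exponents hn hp hq hpq hreg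
  obtain ⟨C, N, hC, hfb⟩ :=
    feedback hn hP (aprioriBound hn) hS hA hB hp hq hpq hsub hx hx1 hy hy1 hxy
  obtain ⟨K, hK⟩ := hole_filling N (show 0 ≤ p * x + q * y by positivity) hexp hC
  obtain ⟨_, _, hPo⟩ := hP A B p q hA hB hp hq hsub
  set α := (2 + A + p * (2 + B)) / (p * q - 1) with hαd
  set β := (2 + B + q * (2 + A)) / (p * q - 1) with hβd
  have h0 : p * q - 1 ≠ 0 := by linarith
  have i3 : α * (p * q - 1) = 2 + A + p * (2 + B) := div_mul_cancel₀ _ h0
  have i4 : β * (p * q - 1) = 2 + B + q * (2 + A) := div_mul_cancel₀ _ h0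
  have i1 : α + 2 + A = p * β := mul_right_cancel₀ h0 (by linear_combination i3 - p * i4)
  have i2 : β + 2 + B = q * α := mul_right_cancel₀ h0 (by linear_combination i4 - q * i3)
  set κ := α + β + 2 - n
  have hκ : 0 < κ := by
    rw [div_add_div _ _ (show p + 1 ≠ 0 by linarith) (show q + 1 ≠ 0 by linarith),
      lt_div_iff₀ (by positivity)] at hsub
    have : 0 < κ * (p * q - 1) := by
      simp only [κ]
      nlinarith
    exact (pos_iff_pos_of_mul_pos this).2 (by linarith)
  have hint : ∀ {u v : E n → ℝ}, Sol A B p q u v → ∀ r : ℝ,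
      IntegrableOn (dens A B p q u v) (Metric.closedBall 0 r) := fun h => (hPo _ _ h).1
  set F := energy A B p q u v
  have hd0 := dens_nonneg (A := A) (B := B) (p := p) (q := q) hu hv
  have hscale : ∀ R : ℝ, 1 ≤ R → R ^ κ * F 1 ≤ K := by
    intro R hR
    have hR0 : 0 < R := by linarith
    have hs : Sol A B p q (scale R α u) (scale R β v) :=
      ⟨super_scale hR0 hu, super_scale hR0 hv, eqn_scale hR0 i1 hu hv he,
        eqn_scale hR0 i2 hv hu he'⟩
    have hb := hK (energy A B p q (scale R α u) (scale R β v))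
      (fun r => setIntegral_nonneg measurableSet_closedBall fun z _ => dens_nonneg hs.hu hs.hv z)
      (fun r r' h => setIntegral_mono_set (hint hs r')
        (Eventually.of_forall (dens_nonneg hs.hu hs.hv))
        (Metric.closedBall_subset_closedBall h).eventuallyLE)
      (hfb _ _ hs)
    have hden : ∀ z, dens A B p q (scale R α u) (scale R β v) z =
        R ^ (α + β + 2) * dens A B p q u v (R • z) := by
      intro z
      have h1 := src_scale (β := β) hR0 A p hv z
      have h2 := src_scale (β := α) hR0 B q hu z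
      rw [← i1, Real.rpow_add hR0 (α + 2) A] at h1
      rw [← i2, Real.rpow_add hR0 (β + 2) B] at h2
      have e1 : src A p (scale R β v) z = R ^ (α + 2) * src A p v (R • z) :=
        mul_right_cancel₀ (Real.rpow_pos_of_pos hR0 A).ne' (by linarith)
      have e2 : src B q (scale R α u) z = R ^ (β + 2) * src B q u (R • z) :=
        mul_right_cancel₀ (Real.rpow_pos_of_pos hR0 B).ne' (by linarith)
      unfold dens
      rw [e1, e2, scale, scale, Real.rpow_add hR0 α 2, Real.rpow_add hR0 β 2,
        Real.rpow_add hR0 (α + β) 2, Real.rpow_add hR0 α β]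
      ring
    have hE : energy A B p q (scale R α u) (scale R β v) 1 = R ^ κ * F R := by
      have := integral_ball_eq_avg (dens A B p q u v) 0 hR0
      unfold energy
      rw [integral_congr_ae (Eventually.of_forall hden), integral_const_mul]
      simp only [F, energy]
      rw [this, avg]
      simp only [zero_add]
      rw [← mul_assoc, ← Real.rpow_natCast R n, ← Real.rpow_add hR0]
      congr 2
      simp only [κ]; ring
    rw [hE] at hb
    refine le_trans (mul_le_mul_of_nonneg_left ?_ (Real.rpow_nonneg hR0.le _)) hb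
    exact setIntegral_mono_set (hint ⟨hu, hv, he, he'⟩ R) (Eventually.of_forall hd0)
      (Metric.closedBall_subset_closedBall hR).eventuallyLE
  have hF1 : 0 < F 1 := by
    simp only [F, energy]
    rw [setIntegral_pos_iff_support_of_nonneg_ae (Eventually.of_forall hd0)
      (hint ⟨hu, hv, he, he'⟩ 1)]
    obtain ⟨e, he1⟩ := exists_norm_eq' (n := n) hn (r := 1 / 2) (by norm_num)
    refine lt_of_lt_of_le (Metric.measure_closedBall_pos volume e (r := 1 / 4) (by norm_num))
      (measure_mono fun z hz => ?_)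
    rw [Metric.mem_closedBall, dist_eq_norm] at hz
    have h1 := norm_sub_norm_le z e
    have h2 := norm_sub_norm_le e z
    rw [norm_sub_rev] at h2
    have hz0 : z ≠ 0 := fun h => by simp [h] at hz h2; linarith
    refine ⟨ne_of_gt ?_, mem_closedBall_zero_iff.2 (by linarith)⟩
    exact add_pos_of_pos_of_nonneg (mul_pos (src_pos hv hz0) (hv.pos z))
      (mul_nonneg (src_nonneg B q hu z) (hu.pos z).le)
  obtain ⟨R, hR, hRK⟩ := ((eventually_ge_atTop (1 : ℝ)).and
    (((tendsto_rpow_atTop hκ).atTop_mul_const hF1).eventually (eventually_gt_atTop K))).exists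
  linarith [hscale R hR]

end Vale.Agent.P100E
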