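import Vale.Agent.P100E.Defs
import Vale.Agent.P100L.Integrals

/-!
# P100, module M: dyadic mean-value bounds for the value and the derivative

`H a = ∫ bump 3 · w(x + a z)` has `H' a = a/8 ∫ bump 4 · Δw(x + a z)`, and
`V a = ∫ bump 4 · ∂ᵢw(x + a z) = 8 a⁻¹ ∫ bump 3 · zᵢ · w(x + a z)` has
`V' a = ∫ bump 4 · zᵢ Δw(x + a z)`.
-/

noncomputable section

namespace Vale.Agent.P100E

open Filter Topology Set MeasureTheory Vale.Agent.P100H Vale.Agent.P100L

variable {n : ℕ}

/-- A weighted mean of `g` over the ball of radius `a` around `x`. -/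
def mean (m : ℕ) (φ g : E n → ℝ) (x : E n) (a : ℝ) : ℝ :=
  ∫ z, bump m z * (φ z * g (x + a • z))

theorem continuousAt_affine {g : E n → ℝ} {x : E n} {ρ a : ℝ}
    (hg : ∀ y ∈ Metric.closedBall x ρ, ContinuousAt g y) (ha : a ∈ Icc 0 ρ) {z : E n}
    (hz : ‖z‖ ≤ 1) : ContinuousAt (fun z => g (x + a • z)) z :=
  ContinuousAt.comp (g := g) (hg _ (mem_ball_affine ha.1 ha.2 hz)) (by fun_prop)

theorem continuousOn_mean {m : ℕ} (hm : m ≠ 0) {φ g : E n → ℝ} (hφ : Continuous φ) {x : E n}
    {ρ : ℝ} (hg : ∀ y ∈ Metric.closedBall x ρ, ContinuousAt g y) :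
    ContinuousOn (mean m φ g x) (Icc 0 ρ) := by
  refine continuousOn_integral_of_compact_support (isCompact_closedBall (0 : E n) 1) ?_ ?_
  · rintro ⟨a, z⟩ ⟨ha, -⟩
    refine ContinuousAt.continuousWithinAt ?_
    rcases le_or_gt ‖z‖ 1 with h | h
    · exact ((continuous_bump m).comp continuous_snd).continuousAt.mul
        ((hφ.comp continuous_snd).continuousAt.mul
          (ContinuousAt.comp (g := g) (hg _ (mem_ball_affine ha.1 ha.2 h))
            (by fun_prop : ContinuousAt (fun p : ℝ × E n => x + p.1 • p.2) (a, z))))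
    · refine (continuousAt_const (y := (0 : ℝ))).congr ?_
      filter_upwards [(isOpen_lt continuous_const
        (continuous_norm.comp continuous_snd)).mem_nhds (x := (a, z)) h] with w hw
      simp only [Function.uncurry]
      rw [bump_out hm (le_of_lt hw), zero_mul]
  · intro a z _ hz
    rw [mem_closedBall_zero_iff, not_le] at hz
    rw [bump_out hm hz.le, zero_mul]

theorem mean_zero (m : ℕ) (g : E n → ℝ) (x : E n) :
    mean m (fun _ => 1) g x 0 = mass n m * g x := by
  simp [mean, mass, integral_mul_const]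

theorem integral_ball_affine (f : E n → ℝ) (x : E n) {a : ℝ} (ha : 0 < a) :
    ∫ z in Metric.closedBall (0 : E n) 1, f (x + a • z) =
      (a ^ n)⁻¹ * ∫ y in Metric.closedBall x a, f y := by
  rw [← integral_indicator measurableSet_closedBall, ← integral_indicator measurableSet_closedBall,
    ← integral_affine _ x ha]
  congr 1
  funext z
  have h : z ∈ Metric.closedBall (0 : E n) 1 ↔ x + a • z ∈ Metric.closedBall x a := by
    rw [mem_closedBall_zero_iff, Metric.mem_closedBall, dist_eq_norm, add_sub_cancel_left,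
      norm_smul, Real.norm_eq_abs, abs_of_pos ha]
    exact (mul_le_iff_le_one_right ha).symm
  by_cases hz : z ∈ Metric.closedBall (0 : E n) 1
  · rw [indicator_of_mem hz, indicator_of_mem (h.1 hz)]
  · rw [indicator_of_notMem hz, indicator_of_notMem (mt h.2 hz)]

/-- A weighted mean is at most the mean of the absolute value. -/
theorem abs_mean_le {m : ℕ} (hm : m ≠ 0) {φ g : E n → ℝ} (hφc : Continuous φ)
    (hφ : ∀ z : E n, ‖z‖ ≤ 1 → |φ z| ≤ 1) {x : E n} {a : ℝ} (ha : 0 < a)
    (hg : ∀ y ∈ Metric.closedBall x a, ContinuousAt g y) :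
    |mean m φ g x a| ≤ (a ^ n)⁻¹ * ∫ y in Metric.closedBall x a, |g y| := by
  have hc : ∀ z : E n, ‖z‖ ≤ 1 → ContinuousAt (fun z => φ z * g (x + a • z)) z := fun z hz =>
    hφc.continuousAt.mul (continuousAt_affine hg ⟨ha.le, le_rfl⟩ hz)
  rw [← integral_ball_affine (fun y => |g y|) x ha, ← integral_indicator measurableSet_closedBall]
  refine (abs_integral_le_integral_abs).trans (integral_mono (integrable_cut hm hc).abs
    ((ContinuousOn.integrableOn_compact (isCompact_closedBall _ _) fun z hz => ?_).integrable_indicator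
      measurableSet_closedBall) fun z => ?_)
  · exact (continuousAt_affine hg ⟨ha.le, le_rfl⟩
      (mem_closedBall_zero_iff.1 hz)).abs.continuousWithinAt
  · rcases le_or_gt ‖z‖ 1 with hz | hz
    · rw [indicator_of_mem (mem_closedBall_zero_iff.2 hz), abs_mul, abs_mul,
        abs_of_nonneg (bump_nonneg m z)]
      calc bump m z * (|φ z| * |g (x + a • z)|) ≤ 1 * (1 * |g (x + a • z)|) := by
            gcongr
            · exact bump_le_one m z
            · exact hφ z hz
        _ = _ := by ring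
    · rw [indicator_of_notMem (mt mem_closedBall_zero_iff.1 (not_le.2 hz)),
        bump_out hm hz.le]
      simp

theorem abs_mean_le_sup {m : ℕ} (hm : m ≠ 0) {φ g : E n → ℝ} (hφc : Continuous φ)
    (hφ : ∀ z : E n, ‖z‖ ≤ 1 → |φ z| ≤ 1) {x : E n} {a Λ : ℝ} (ha : 0 ≤ a)
    (hg : ∀ y ∈ Metric.closedBall x a, ContinuousAt g y)
    (hb : ∀ y ∈ Metric.closedBall x a, |g y| ≤ Λ) : |mean m φ g x a| ≤ mass n m * Λ := by
  have hc : ∀ z : E n, ‖z‖ ≤ 1 → ContinuousAt (fun z => φ z * g (x + a • z)) z := fun z hz =>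
    hφc.continuousAt.mul (continuousAt_affine hg ⟨ha, le_rfl⟩ hz)
  rw [mass, ← integral_mul_const]
  refine abs_integral_le_integral_abs.trans (integral_mono (integrable_cut hm hc).abs
    ((integrable_bump hm).mul_const Λ) fun z => ?_)
  rcases le_or_gt ‖z‖ 1 with hz | hz
  · rw [abs_mul, abs_mul, abs_of_nonneg (bump_nonneg m z)]
    exact mul_le_mul_of_nonneg_left
      ((mul_le_of_le_one_left (abs_nonneg _) (hφ z hz)).trans
        (hb _ (mem_ball_affine ha le_rfl hz))) (bump_nonneg m z)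
  · rw [bump_out hm hz.le]; simp

/-- Differentiation of a weighted mean in the radius. -/
theorem hasDerivAt_mean {m : ℕ} (hm : m ≠ 0) {φ g : E n → ℝ} (hφ : Continuous φ) {x : E n}
    {ρ a : ℝ} (hg : ∀ y ∈ Metric.closedBall x ρ, ContDiffAt ℝ 1 g y) (ha : a ∈ Ioo 0 ρ) :
    HasDerivAt (mean m φ g x)
      (∫ z, bump m z * (φ z * fderiv ℝ g (x + a • z) z)) a := by
  have hd : ∀ y ∈ Metric.closedBall x ρ, ContinuousAt (fderiv ℝ g) y := fun y hy =>
    ((hg y hy).fderiv_right (m := 0) (by norm_num)).continuousAt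
  have hgc : ∀ y ∈ Metric.closedBall x ρ, ContinuousAt g y := fun y hy => (hg y hy).continuousAt
  obtain ⟨M, hM⟩ := (isCompact_closedBall x ρ).exists_bound_of_continuousOn
    (f := fderiv ℝ g) fun y hy => (hd y hy).continuousWithinAt
  obtain ⟨Q, hQ⟩ := (isCompact_closedBall (0 : E n) 1).exists_bound_of_continuousOn
    (f := φ) hφ.continuousOn
  have haI : a ∈ Icc (0 : ℝ) ρ := Ioo_subset_Icc_self ha
  have hDc : ∀ z : E n, ‖z‖ ≤ 1 →
      ContinuousAt (fun z => φ z * fderiv ℝ g (x + a • z) z) z := fun z hz =>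
    hφ.continuousAt.mul ((ContinuousAt.comp (g := fderiv ℝ g) (f := fun z : E n => x + a • z)
      (hd _ (mem_ball_affine haI.1 haI.2 hz)) (by fun_prop)).clm_apply continuousAt_id)
  exact (hasDerivAt_integral_of_dominated_loc_of_deriv_le (μ := volume)
    (F := fun (b : ℝ) (z : E n) => bump m z * (φ z * g (x + b • z)))
    (F' := fun b z => bump m z * (φ z * fderiv ℝ g (x + b • z) z))
    (bound := (Metric.closedBall (0 : E n) 1).indicator fun _ => Q * M)
    (Ioo_mem_nhds ha.1 ha.2)
    (by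
      filter_upwards [Ioo_mem_nhds ha.1 ha.2] with b hb
      exact (continuous_cut hm fun z hz => hφ.continuousAt.mul
        (continuousAt_affine hgc (Ioo_subset_Icc_self hb) hz)).aestronglyMeasurable)
    (integrable_cut hm fun z hz => hφ.continuousAt.mul (continuousAt_affine hgc haI hz))
    (continuous_cut hm hDc).aestronglyMeasurable
    (Eventually.of_forall fun z b hb => by
      rcases le_or_gt ‖z‖ 1 with h | h
      · rw [indicator_of_mem (mem_closedBall_zero_iff.2 h), norm_mul, norm_mul]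
        have h1 := hM _ (mem_ball_affine hb.1.le hb.2.le h)
        have h2 := hQ z (mem_closedBall_zero_iff.2 h)
        have hQ0 : 0 ≤ Q := (norm_nonneg _).trans h2
        calc ‖bump m z‖ * (‖φ z‖ * ‖fderiv ℝ g (x + b • z) z‖) ≤ 1 * (Q * M) := by
              gcongr
              · rw [Real.norm_eq_abs, abs_of_nonneg (bump_nonneg m z)]; exact bump_le_one m z
              · exact ((ContinuousLinearMap.le_opNorm _ _).trans
                  (mul_le_of_le_one_right (norm_nonneg _) h)).trans h1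
          _ = Q * M := one_mul _
      · rw [bump_out hm h.le, zero_mul, norm_zero,
          indicator_of_notMem (mt mem_closedBall_zero_iff.1 (not_le.2 h))])
    ((integrableOn_const (hs := measure_closedBall_lt_top.ne)).integrable_indicator
      measurableSet_closedBall)
    (Eventually.of_forall fun z b hb => by
      rcases le_or_gt ‖z‖ 1 with h | h
      · exact (((((hg _ (mem_ball_affine hb.1.le hb.2.le h)).differentiableAt
          (by simp)).hasFDerivAt.comp_hasDerivAt b
          (by simpa using ((hasDerivAt_id b).smul_const z).const_add x))).const_mul _).const_mul _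
      · simpa [bump_out hm h.le] using hasDerivAt_const b (0 : ℝ))).2

section C2

variable {w : E n → ℝ} {x : E n} {ρ : ℝ}

/-- The integrand facts for a function that is `C²` near a closed ball. -/
theorem contDiffAt_partial (hw : ∀ y ∈ Metric.closedBall x ρ, ContDiffAt ℝ 2 w y) {a : ℝ}
    (ha : a ∈ Icc 0 ρ) (i : Fin n) {z : E n} (hz : ‖z‖ ≤ 1) :
    ContDiffAt ℝ 1 (fun z => fderiv ℝ w (x + a • z) (cv i)) z :=
  (((hw _ (mem_ball_affine ha.1 ha.2 hz)).fderiv_right (m := 1) (by norm_num)).comp z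
    (contDiffAt_const.add (contDiffAt_id.const_smul a))).clm_apply contDiffAt_const

theorem fderiv_partial (hw : ∀ y ∈ Metric.closedBall x ρ, ContDiffAt ℝ 2 w y) {a : ℝ}
    (ha : a ∈ Icc 0 ρ) (i : Fin n) {z : E n} (hz : ‖z‖ ≤ 1) :
    fderiv ℝ (fun z => fderiv ℝ w (x + a • z) (cv i)) z (cv i) =
      a * fderiv ℝ (fderiv ℝ w) (x + a • z) (cv i) (cv i) := by
  have h2 : HasFDerivAt (fderiv ℝ w) (fderiv ℝ (fderiv ℝ w) (x + a • z)) (x + a • z) :=
    (((hw _ (mem_ball_affine ha.1 ha.2 hz)).fderiv_right (m := 1) (by norm_num)).differentiableAt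
      (by simp)).hasFDerivAt
  have h3 : HasFDerivAt (fun z : E n => x + a • z) (a • ContinuousLinearMap.id ℝ (E n)) z :=
    ((hasFDerivAt_id z).const_smul a).const_add x
  rw [HasFDerivAt.fderiv (f := fun z => fderiv ℝ w (x + a • z) (cv i))
    ((h2.comp z h3).clm_apply (hasFDerivAt_const (cv i) z))]
  simp

theorem continuousAt_second (hw : ∀ y ∈ Metric.closedBall x ρ, ContDiffAt ℝ 2 w y)
    (i : Fin n) : ∀ y ∈ Metric.closedBall x ρ,
      ContinuousAt (fun y => fderiv ℝ (fderiv ℝ w) y (cv i) (cv i)) y := fun y hy =>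
  ((((hw y hy).fderiv_right (m := 1) (by norm_num)).fderiv_right
    (m := 0) (by norm_num)).continuousAt.clm_apply continuousAt_const).clm_apply continuousAt_const

theorem continuousAt_lap (hw : ∀ y ∈ Metric.closedBall x ρ, ContDiffAt ℝ 2 w y) :
    ∀ y ∈ Metric.closedBall x ρ, ContinuousAt (Laplacian.laplacian w) y := by
  intro y hy
  rw [show Laplacian.laplacian w = fun y => ∑ i, fderiv ℝ (fderiv ℝ w) y (cv i) (cv i) from
    funext fun y => lap_eq_sum w y]
  exact tendsto_finsetSum _ fun i _ => continuousAt_second hw i y hy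

/-- Two integrations by parts, for the weights `φ = 1` and `φ = zᵢ` at once. -/
theorem parts_lap (hw : ∀ y ∈ Metric.closedBall x ρ, ContDiffAt ℝ 2 w y) {a : ℝ}
    (ha : a ∈ Icc 0 ρ) (φ : E n → ℝ) (hφ : ContDiff ℝ 2 φ) :
    8 * ∫ z, bump 3 z * (φ z * fderiv ℝ w (x + a • z) z) =
      a * mean 4 φ (Laplacian.laplacian w) x a +
        ∑ i, mean 4 (fun z => fderiv ℝ φ z (cv i)) (fun y => fderiv ℝ w y (cv i)) x a := by
  have hD : ∀ i : Fin n, ∀ z : E n, ‖z‖ ≤ 1 →
      ContinuousAt (fun z => fderiv ℝ w (x + a • z) (cv i)) z := fun i z hz =>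
    (contDiffAt_partial hw ha i hz).continuousAt
  have hS : ∀ i : Fin n, ∀ z : E n, ‖z‖ ≤ 1 →
      ContinuousAt (fun z => φ z * fderiv ℝ (fderiv ℝ w) (x + a • z) (cv i) (cv i)) z :=
    fun i z hz => hφ.continuous.continuousAt.mul
      (continuousAt_affine (continuousAt_second hw i) ha hz)
  have hP : ∀ i : Fin n, ∀ z : E n, ‖z‖ ≤ 1 →
      ContinuousAt (fun z => fderiv ℝ φ z (cv i) * fderiv ℝ w (x + a • z) (cv i)) z :=
    fun i z hz => ((hφ.continuous_fderiv (by norm_num)).clm_apply
      continuous_const).continuousAt.mul (hD i z hz)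
  have hZ : ∀ i : Fin n, ∀ z : E n, ‖z‖ ≤ 1 →
      ContinuousAt (fun z => z i * (φ z * fderiv ℝ w (x + a • z) (cv i))) z := fun i z hz =>
    (contDiff_coord i).continuous.continuousAt.mul (hφ.continuous.continuousAt.mul (hD i z hz))
  have key : ∀ i : Fin n, 8 * ∫ z, bump 3 z * (z i * (φ z * fderiv ℝ w (x + a • z) (cv i))) =
      a * (∫ z, bump 4 z * (φ z * fderiv ℝ (fderiv ℝ w) (x + a • z) (cv i) (cv i))) +
        mean 4 (fun z => fderiv ℝ φ z (cv i)) (fun y => fderiv ℝ w y (cv i)) x a := by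
    intro i
    have h := ibp_bump 2 i (g := fun z => φ z * fderiv ℝ w (x + a • z) (cv i)) fun z hz =>
      (hφ.contDiffAt.of_le (by norm_num)).mul (contDiffAt_partial hw ha i hz)
    have e : ∫ z, bump 4 z * fderiv ℝ (fun z => φ z * fderiv ℝ w (x + a • z) (cv i)) z (cv i) =
        a * (∫ z, bump 4 z * (φ z * fderiv ℝ (fderiv ℝ w) (x + a • z) (cv i) (cv i))) +
          mean 4 (fun z => fderiv ℝ φ z (cv i)) (fun y => fderiv ℝ w y (cv i)) x a := by
      rw [mean, ← integral_const_mul,
        ← integral_add ((integrable_cut (by norm_num) (hS i)).const_mul a)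
          (integrable_cut (by norm_num) (hP i))]
      refine integral_congr_ae (Eventually.of_forall fun z => ?_)
      simp only
      rcases le_or_gt ‖z‖ 1 with hz | hz
      · rw [fderiv_fun_mul ((hφ.differentiable (by norm_num)) z)
          ((contDiffAt_partial hw ha i hz).differentiableAt (by simp))]
        simp only [add_apply, smul_apply,
          smul_eq_mul, fderiv_partial hw ha i hz]
        ring
      · simp [bump_out (show 4 ≠ 0 by norm_num) hz.le]
    rw [e] at h
    norm_num at h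
    linarith
  have e1 : ∫ z, bump 3 z * (φ z * fderiv ℝ w (x + a • z) z) =
      ∑ i, ∫ z, bump 3 z * (z i * (φ z * fderiv ℝ w (x + a • z) (cv i))) := by
    rw [← integral_finsetSum _ fun i _ => integrable_cut (by norm_num) (hZ i)]
    refine integral_congr_ae (Eventually.of_forall fun z => ?_)
    simp only
    rw [← sum_lin (fderiv ℝ w (x + a • z)) z, Finset.mul_sum, Finset.mul_sum]
    exact Finset.sum_congr rfl fun i _ => by ring
  have e2 : mean 4 φ (Laplacian.laplacian w) x a =
      ∑ i, ∫ z, bump 4 z * (φ z * fderiv ℝ (fderiv ℝ w) (x + a • z) (cv i) (cv i)) := by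
    rw [mean, ← integral_finsetSum _ fun i _ => integrable_cut (by norm_num) (hS i)]
    refine integral_congr_ae (Eventually.of_forall fun z => ?_)
    simp only [lap_eq_sum, Finset.mul_sum]
  rw [e1, e2, Finset.mul_sum, Finset.mul_sum, ← Finset.sum_add_distrib]
  exact Finset.sum_congr rfl fun i _ => key i

/-- The mean of a partial derivative is a weighted mean of the function. -/
theorem mean_partial (hw : ∀ y ∈ Metric.closedBall x ρ, ContDiffAt ℝ 2 w y) {a : ℝ}
    (ha : a ∈ Icc 0 ρ) (i : Fin n) :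
    a * mean 4 (fun _ => 1) (fun y => fderiv ℝ w y (cv i)) x a =
      8 * mean 3 (fun z => z i) w x a := by
  have hg : ∀ z : E n, ‖z‖ ≤ 1 → ContDiffAt ℝ 1 (fun z => w (x + a • z)) z := fun z hz =>
    ((hw _ (mem_ball_affine ha.1 ha.2 hz)).of_le (by norm_num)).comp z
      (contDiffAt_const.add (contDiffAt_id.const_smul a))
  have h := ibp_bump 2 i hg
  have e : ∫ z, bump 4 z * fderiv ℝ (fun z => w (x + a • z)) z (cv i) =
      a * mean 4 (fun _ => 1) (fun y => fderiv ℝ w y (cv i)) x a := by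
    rw [mean, ← integral_const_mul]
    refine integral_congr_ae (Eventually.of_forall fun z => ?_)
    simp only
    rcases le_or_gt ‖z‖ 1 with hz | hz
    · have h3 : HasFDerivAt (fun z : E n => x + a • z) (a • ContinuousLinearMap.id ℝ (E n)) z :=
        ((hasFDerivAt_id z).const_smul a).const_add x
      rw [HasFDerivAt.fderiv (f := fun z => w (x + a • z))
        (((hw _ (mem_ball_affine ha.1 ha.2 hz)).differentiableAt (by simp)).hasFDerivAt.comp z h3)]
      simp
      ring
    · simp [bump_out (show 4 ≠ 0 by norm_num) hz.le]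
  rw [e] at h
  norm_num at h
  exact h

theorem hasDerivAt_value (hw : ∀ y ∈ Metric.closedBall x ρ, ContDiffAt ℝ 2 w y) {a : ℝ}
    (ha : a ∈ Ioo 0 ρ) :
    HasDerivAt (mean 3 (fun _ => 1) w x)
      (a / 8 * mean 4 (fun _ => 1) (Laplacian.laplacian w) x a) a := by
  refine (hasDerivAt_mean (by norm_num) continuous_const
    (fun y hy => (hw y hy).of_le (by norm_num)) ha).congr_deriv ?_
  have h := parts_lap hw (Ioo_subset_Icc_self ha) (fun _ => 1) contDiff_const
  simp only [fderiv_fun_const, Pi.zero_apply, zero_apply, mean, zero_mul,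
    mul_zero, integral_zero, Finset.sum_const_zero, add_zero] at h
  simp only [mean]
  linarith

theorem hasDerivAt_partial (hw : ∀ y ∈ Metric.closedBall x ρ, ContDiffAt ℝ 2 w y) (i : Fin n)
    {a : ℝ} (ha : a ∈ Ioo 0 ρ) :
    HasDerivAt (mean 4 (fun _ => 1) (fun y => fderiv ℝ w y (cv i)) x)
      (mean 4 (fun z => z i) (Laplacian.laplacian w) x a) a := by
  have haI := Ioo_subset_Icc_self ha
  have e : mean 4 (fun _ => 1) (fun y => fderiv ℝ w y (cv i)) x =ᶠ[𝓝 a]
      fun b => 8 * mean 3 (fun z => z i) w x b / b := by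
    filter_upwards [Ioo_mem_nhds ha.1 ha.2] with b hb
    rw [← mean_partial hw (Ioo_subset_Icc_self hb) i, mul_div_cancel_left₀ _ hb.1.ne']
  have hN := hasDerivAt_mean (m := 3) (by norm_num) (contDiff_coord i).continuous
    (fun y hy => (hw y hy).of_le (by norm_num)) ha
  refine (((hN.const_mul 8).div (hasDerivAt_id a) ha.1.ne').congr_of_eventuallyEq e).congr_deriv ?_
  have h := parts_lap hw haI (fun z => z i) (contDiff_coord i)
  have hd : ∀ z : E n, ∀ j, fderiv ℝ (fun z : E n => z i) z (cv j) =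
      if j = i then 1 else 0 := fun z j => by
    rw [HasFDerivAt.fderiv (f := fun z : E n => z i)
      (EuclideanSpace.proj (𝕜 := ℝ) i).hasFDerivAt]
    simp [cv_apply, eq_comm]
  have hs : ∑ j, mean 4 (fun z => fderiv ℝ (fun z : E n => z i) z (cv j))
      (fun y => fderiv ℝ w y (cv j)) x a =
      mean 4 (fun _ => 1) (fun y => fderiv ℝ w y (cv i)) x a := by
    rw [Finset.sum_eq_single i]
    · simp [mean, hd]
    · intro j _ hj; simp [mean, hd, hj]
    · simp
  rw [hs] at h
  have h2 := mean_partial hw haI i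
  have ha0 : a ≠ 0 := ha.1.ne'
  simp only [id_eq, mul_one]
  rw [div_eq_iff (pow_ne_zero 2 ha0), h, ← h2]
  ring

end C2

/-- Telescoping along dyadic radii. -/
theorem dyadic {f f' : ℝ → ℝ} {ρ : ℝ} (hρ : 0 < ρ) (hc : ContinuousOn f (Icc 0 ρ))
    (hd : ∀ a ∈ Ioo 0 ρ, HasDerivAt f (f' a) a) (K : ℕ) (c : ℕ → ℝ) (e : ℝ)
    (hk : ∀ k < K, ∀ a ∈ Ioo (ρ / 2 ^ (k + 1)) (ρ / 2 ^ k), |f' a| * (ρ / 2 ^ k) ≤ c k)
    (he : ∀ a ∈ Ioo 0 (ρ / 2 ^ K), |f' a| * (ρ / 2 ^ K) ≤ e) :
    |f 0| ≤ |f ρ| + ∑ k ∈ Finset.range K, c k + e := by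
  have hle : ∀ k : ℕ, ρ / 2 ^ k ≤ ρ := fun k =>
    div_le_self hρ.le (one_le_pow₀ (by norm_num))
  have step : ∀ s b E : ℝ, 0 ≤ s → s < b → b ≤ ρ → (∀ a ∈ Ioo s b, |f' a| * b ≤ E) →
      |f s| ≤ |f b| + E := by
    intro s b E hs hsb hb hE
    obtain ⟨ξ, hξ, hsl⟩ := exists_hasDerivAt_eq_slope f f' hsb
      (hc.mono (Icc_subset_Icc hs hb))
      (fun a ha => hd a ⟨hs.trans_lt ha.1, ha.2.trans_le hb⟩)
    rw [eq_div_iff (sub_pos.2 hsb).ne'] at hsl
    have h1 : |f' ξ * (b - s)| ≤ |f' ξ| * b := by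
      rw [abs_mul, abs_of_pos (sub_pos.2 hsb)]
      exact mul_le_mul_of_nonneg_left (by linarith) (abs_nonneg _)
    have h2 := hE ξ hξ
    rw [hsl] at h1
    have h3 := abs_sub_abs_le_abs_sub (f s) (f b)
    rw [abs_sub_comm (f s) (f b)] at h3
    linarith
  have h := step 0 _ e le_rfl (by positivity) (hle K) he
  suffices |f (ρ / 2 ^ K)| ≤ |f ρ| + ∑ k ∈ Finset.range K, c k by linarith
  clear h he
  induction K with
  | zero => simp
  | succ K ih =>
    have h1 := ih fun k hk' => hk k (Nat.lt_succ_of_lt hk')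
    have h2 := step (ρ / 2 ^ (K + 1)) (ρ / 2 ^ K) (c K) (by positivity)
      (div_lt_div_of_pos_left hρ (by positivity)
        (pow_lt_pow_right₀ (by norm_num) (Nat.lt_succ_self K)))
      (hle K) (hk K (Nat.lt_succ_self K))
    rw [Finset.sum_range_succ]
    linarith

/-- On a dyadic interval of radii the mean of `|g|` is controlled by the larger ball. -/
theorem ball_avg_le {g : E n → ℝ} {x : E n} {a b : ℝ} (hab : b / 2 ≤ a) (ha' : a ≤ b)
    (hb : 0 < b) (hg : ∀ y ∈ Metric.closedBall x b, ContinuousAt g y) :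
    (a ^ n)⁻¹ * ∫ y in Metric.closedBall x a, |g y| ≤
      2 ^ n * ((b ^ n)⁻¹ * ∫ y in Metric.closedBall x b, |g y|) := by
  have ha : 0 < a := by linarith
  rw [← mul_assoc]
  refine mul_le_mul ?_ (setIntegral_mono_set ?_ (Eventually.of_forall fun y => abs_nonneg _)
    (Metric.closedBall_subset_closedBall ha').eventuallyLE)
    (setIntegral_nonneg measurableSet_closedBall fun y _ => abs_nonneg _) (by positivity)
  · calc (a ^ n)⁻¹ ≤ ((b / 2) ^ n)⁻¹ :=
          inv_anti₀ (by positivity) (pow_le_pow_left₀ (by linarith) hab n)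
      _ = 2 ^ n * (b ^ n)⁻¹ := by rw [div_pow, inv_div, div_eq_mul_inv]
  · exact ContinuousOn.integrableOn_compact (isCompact_closedBall _ _)
      fun y hy => (hg y hy).abs.continuousWithinAt

theorem meanBound {n : ℕ} (hn : 3 ≤ n) : MeanBound n := by
  have hm3 := mass_pos n (m := 3) (by norm_num)
  have hm4 := mass_pos n (m := 4) (by norm_num)
  set c0 : ℝ := 8 + 2 ^ n + mass n 4 with hc0
  have hc0' : 0 < c0 := by positivity
  refine ⟨c0 * ((mass n 3)⁻¹ + n * (mass n 4)⁻¹), by positivity, ?_⟩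
  intro w x ρ Λ hρ hw hb K
  have hx : x ∈ Metric.closedBall x ρ := Metric.mem_closedBall_self hρ.le
  have hΛ : 0 ≤ Λ := (abs_nonneg _).trans (hb x hx)
  have hsub : ∀ {a : ℝ}, a ≤ ρ → Metric.closedBall x a ⊆ Metric.closedBall x ρ :=
    fun h => Metric.closedBall_subset_closedBall h
  have hle : ∀ k : ℕ, ρ / 2 ^ k ≤ ρ := fun k => div_le_self hρ.le (one_le_pow₀ (by norm_num))
  set P := (ρ ^ n)⁻¹ * ∫ y in Metric.closedBall x ρ, |w y| with hP
  set T : ℕ → ℝ := fun k => ((ρ / 2 ^ k) ^ n)⁻¹ *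
    ∫ y in Metric.closedBall x (ρ / 2 ^ k), |Laplacian.laplacian w y| with hT
  have hP0 : 0 ≤ P := mul_nonneg (by positivity)
    (setIntegral_nonneg measurableSet_closedBall fun y _ => abs_nonneg _)
  have hT0 : ∀ k, 0 ≤ T k := fun k => mul_nonneg (by positivity)
    (setIntegral_nonneg measurableSet_closedBall fun y _ => abs_nonneg _)
  have hcw : ∀ y ∈ Metric.closedBall x ρ, ContinuousAt w y := fun y hy => (hw y hy).continuousAt
  have hone : ∀ z : E n, ‖z‖ ≤ 1 → |(1 : ℝ)| ≤ 1 := fun _ _ => by simp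
  have hcoord : ∀ i : Fin n, ∀ z : E n, ‖z‖ ≤ 1 → |z i| ≤ 1 := fun i z hz => by
    rw [← inner_cv z i]
    exact (abs_real_inner_le_norm _ _).trans (by rw [norm_cv, mul_one]; exact hz)
  -- bounds for the means of the Laplacian
  have hlapk : ∀ (φ : E n → ℝ), Continuous φ → (∀ z : E n, ‖z‖ ≤ 1 → |φ z| ≤ 1) →
      ∀ k, ∀ a ∈ Ioo (ρ / 2 ^ (k + 1)) (ρ / 2 ^ k),
        |mean 4 φ (Laplacian.laplacian w) x a| ≤ 2 ^ n * T k := by
    intro φ hφc hφ k a ha
    have ha0 : 0 < a := lt_trans (by positivity) ha.1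
    refine (abs_mean_le (by norm_num) hφc hφ ha0 fun y hy =>
      continuousAt_lap hw y (hsub (ha.2.le.trans (hle k)) hy)).trans ?_
    exact ball_avg_le (by rw [div_div, ← pow_succ]; exact ha.1.le) ha.2.le (by positivity)
      fun y hy => continuousAt_lap hw y (hsub (hle k) hy)
  have hlapK : ∀ (φ : E n → ℝ), Continuous φ → (∀ z : E n, ‖z‖ ≤ 1 → |φ z| ≤ 1) →
      ∀ a ∈ Ioo 0 (ρ / 2 ^ K), |mean 4 φ (Laplacian.laplacian w) x a| ≤ mass n 4 * Λ := by
    intro φ hφc hφ a ha
    have h : a ≤ ρ := ha.2.le.trans (hle K)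
    exact abs_mean_le_sup (by norm_num) hφc hφ ha.1.le
      (fun y hy => continuousAt_lap hw y (hsub h hy)) (fun y hy => hb y (hsub h hy))
  constructor
  · have hv := dyadic hρ (continuousOn_mean (by norm_num) continuous_const hcw)
      (fun a ha => hasDerivAt_value hw ha) K
      (fun k => c0 * ((ρ / 2 ^ k) ^ 2 * T k)) (c0 * (Λ * (ρ / 2 ^ K) ^ 2))
      (fun k _ a ha => by
        have ha0 : 0 < a := lt_trans (by positivity) ha.1
        have h := hlapk _ continuous_const hone k a ha
        rw [abs_mul, abs_of_pos (by positivity : (0 : ℝ) < a / 8)]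
        calc a / 8 * |mean 4 (fun _ => 1) (Laplacian.laplacian w) x a| * (ρ / 2 ^ k)
            ≤ (ρ / 2 ^ k) * (2 ^ n * T k) * (ρ / 2 ^ k) := by
              exact mul_le_mul_of_nonneg_right (mul_le_mul (by linarith [ha.2]) h (abs_nonneg _)
                (by positivity)) (by positivity)
          _ = 2 ^ n * ((ρ / 2 ^ k) ^ 2 * T k) := by ring
          _ ≤ _ := mul_le_mul_of_nonneg_right (by simp only [hc0]; linarith)
              (mul_nonneg (sq_nonneg _) (hT0 k)))
      (fun a ha => by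
        have h := hlapK _ continuous_const hone a ha
        rw [abs_mul, abs_of_pos (by linarith [ha.1] : (0 : ℝ) < a / 8)]
        calc a / 8 * |mean 4 (fun _ => 1) (Laplacian.laplacian w) x a| * (ρ / 2 ^ K)
            ≤ (ρ / 2 ^ K) * (mass n 4 * Λ) * (ρ / 2 ^ K) := by
              exact mul_le_mul_of_nonneg_right (mul_le_mul (by linarith [ha.2, ha.1]) h (abs_nonneg _)
                (by positivity)) (by positivity)
          _ = mass n 4 * (Λ * (ρ / 2 ^ K) ^ 2) := by ring
          _ ≤ _ := mul_le_mul_of_nonneg_right (by simp only [hc0]; linarith [pow_pos (two_pos (α := ℝ)) n])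
              (by positivity))
    rw [mean_zero, abs_mul, abs_of_pos hm3, ← Finset.mul_sum] at hv
    have h0 : |mean 3 (fun _ => 1) w x ρ| ≤ c0 * P :=
      (abs_mean_le (by norm_num) continuous_const hone hρ hcw).trans
        (le_mul_of_one_le_left hP0 (by simp only [hc0]; linarith [pow_pos (two_pos (α := ℝ)) n]))
    set S := ∑ k ∈ Finset.range K, (ρ / 2 ^ k) ^ 2 * T k
    have hS0 : 0 ≤ S := Finset.sum_nonneg fun k _ => mul_nonneg (sq_nonneg _) (hT0 k)
    set R := P + S + Λ * (ρ / 2 ^ K) ^ 2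
    have hR0 : 0 ≤ R := by positivity
    have h1 : |w x| ≤ c0 * (mass n 3)⁻¹ * R := by
      rw [mul_comm c0, mul_assoc, le_inv_mul_iff₀ hm3]
      simp only [R]; linarith
    refine h1.trans (le_of_le_of_eq (mul_le_mul_of_nonneg_right
      (mul_le_mul_of_nonneg_left (le_add_of_nonneg_right (by positivity : (0:ℝ) ≤ n * (mass n 4)⁻¹))
        hc0'.le) hR0) ?_)
    simp only [R]
    ring
  · have hpart : ∀ i : Fin n, |fderiv ℝ w x (cv i)| ≤ c0 * (mass n 4)⁻¹ *
        (P / ρ + ∑ k ∈ Finset.range K, (ρ / 2 ^ k) * T k + Λ * (ρ / 2 ^ K)) := by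
      intro i
      have hv := dyadic hρ (continuousOn_mean (m := 4) (by norm_num) (φ := fun _ => 1)
          continuous_const (g := fun y => fderiv ℝ w y (cv i)) fun y hy =>
            ((hw y hy).fderiv_right (m := 1) (by norm_num)).continuousAt.clm_apply
              continuousAt_const)
        (fun a ha => hasDerivAt_partial hw i ha) K
        (fun k => c0 * (ρ / 2 ^ k * T k)) (c0 * (Λ * (ρ / 2 ^ K)))
        (fun k _ a ha => by
          have h := hlapk _ (contDiff_coord i).continuous (hcoord i) k a ha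
          calc |mean 4 (fun z => z i) (Laplacian.laplacian w) x a| * (ρ / 2 ^ k)
              ≤ 2 ^ n * T k * (ρ / 2 ^ k) := by gcongr
            _ = 2 ^ n * (ρ / 2 ^ k * T k) := by ring
            _ ≤ _ := mul_le_mul_of_nonneg_right (by simp only [hc0]; linarith)
                (mul_nonneg (by positivity) (hT0 k)))
        (fun a ha => by
          have h := hlapK _ (contDiff_coord i).continuous (hcoord i) a ha
          calc |mean 4 (fun z => z i) (Laplacian.laplacian w) x a| * (ρ / 2 ^ K)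
              ≤ mass n 4 * Λ * (ρ / 2 ^ K) := by gcongr
            _ = mass n 4 * (Λ * (ρ / 2 ^ K)) := by ring
            _ ≤ _ := mul_le_mul_of_nonneg_right (by simp only [hc0]; linarith [pow_pos (two_pos (α := ℝ)) n])
                (by positivity))
      rw [mean_zero, abs_mul, abs_of_pos hm4, ← Finset.mul_sum] at hv
      have h0 : |mean 4 (fun _ => 1) (fun y => fderiv ℝ w y (cv i)) x ρ| ≤ c0 * (P / ρ) := by
        have e := mean_partial hw (a := ρ) ⟨hρ.le, le_rfl⟩ i
        rw [show mean 4 (fun _ => 1) (fun y => fderiv ℝ w y (cv i)) x ρ =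
          8 * mean 3 (fun z => z i) w x ρ / ρ by rw [← e, mul_div_cancel_left₀ _ hρ.ne'],
          abs_div, abs_mul, abs_of_pos hρ, abs_of_pos (by norm_num : (0:ℝ) < 8), mul_div_assoc]
        have h8 : (8 : ℝ) ≤ c0 := by simp only [hc0]; linarith [pow_pos (two_pos (α := ℝ)) n]
        gcongr
        exact abs_mean_le (by norm_num) (contDiff_coord i).continuous (hcoord i) hρ hcw
      rw [mul_comm c0, mul_assoc, le_inv_mul_iff₀ hm4]
      linarith
    set S := ∑ k ∈ Finset.range K, (ρ / 2 ^ k) * T k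
    have hS0 : 0 ≤ S := Finset.sum_nonneg fun k _ => mul_nonneg (by positivity) (hT0 k)
    set R := P / ρ + S + Λ * (ρ / 2 ^ K)
    have hR0 : 0 ≤ R := by positivity
    have h1 : dn w x ≤ n * (c0 * (mass n 4)⁻¹ * R) := by
      refine ContinuousLinearMap.opNorm_le_bound _ (by positivity) fun v => ?_
      rw [← sum_lin (fderiv ℝ w x) v, Real.norm_eq_abs]
      refine (Finset.abs_sum_le_sum_abs _ _).trans ?_
      refine (Finset.sum_le_sum (g := fun _ => ‖v‖ * (c0 * (mass n 4)⁻¹ * R)) fun i _ => ?_).trans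
        (le_of_eq ?_)
      · rw [abs_mul]
        refine mul_le_mul ?_ (hpart i) (abs_nonneg _) (norm_nonneg _)
        rw [← inner_cv v i]
        exact (abs_real_inner_le_norm _ _).trans (by rw [norm_cv, mul_one])
      · rw [Finset.sum_const, Finset.card_univ, Fintype.card_fin, nsmul_eq_mul]; ring
    calc dn w x ≤ c0 * (n * (mass n 4)⁻¹) * R := h1.trans_eq (by ring)
      _ ≤ c0 * ((mass n 3)⁻¹ + n * (mass n 4)⁻¹) * R :=
        mul_le_mul_of_nonneg_right (mul_le_mul_of_nonneg_left
          (le_add_of_nonneg_left (inv_nonneg.2 hm3.le)) hc0'.le) hR0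
      _ = _ := by
        simp only [R, S, hP, hT, pow_succ, mul_inv, div_eq_mul_inv]
        ring

end Vale.Agent.P100E
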