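import Vale.Agent.P100E.Defs

/-!
# P100, energy method: the Pohozaev inequality on balls

The identity is tested with a radial cutoff vanishing near the origin; the inner boundary terms
disappear in the limit because `u`, `v` are bounded near the origin and `|Du|`, `|Dv|` are
`O(1/|x|)` there.
-/

noncomputable section

namespace Vale.Agent.P100E.Poho

open Filter Topology Set MeasureTheory Vale.Agent.P100H

variable {n : ℕ}

/-- Integration by parts against a differentiable weight with compact support off the origin. -/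
theorem ibp_off {η F : E n → ℝ} {K : Set (E n)} (hη : Differentiable ℝ η)
    (hη' : Continuous fun x => fderiv ℝ η x) (hK : IsCompact K) (hK0 : (0 : E n) ∉ K)
    (hsupp : ∀ x, x ∉ K → η x = 0) (hF : ∀ x : E n, x ≠ 0 → ContDiffAt ℝ 1 F x) (i : Fin n) :
    ∫ x, η x * fderiv ℝ F x (cv i) = -∫ x, fderiv ℝ η x (cv i) * F x := by
  have hne : ∀ x ∈ K, x ≠ 0 := fun x hx h => hK0 (h ▸ hx)
  have hev : ∀ x, x ∉ K → η =ᶠ[𝓝 x] fun _ => 0 := fun x hx => by
    filter_upwards [hK.isClosed.isOpen_compl.mem_nhds hx] with z hz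
    exact hsupp z hz
  have hd0 : ∀ x, x ∉ K → fderiv ℝ η x = 0 := fun x hx => by
    rw [(hev x hx).fderiv_eq, fderiv_fun_const]; rfl
  have cut : ∀ (a b : E n → ℝ), Continuous a → (∀ x, x ∉ K → a x = 0) →
      (∀ x, x ≠ 0 → ContinuousAt b x) → Integrable fun x => a x * b x := by
    intro a b ha ha0 hb
    refine Continuous.integrable_of_hasCompactSupport ?_
      (HasCompactSupport.intro hK fun x hx => by rw [ha0 x hx, zero_mul])
    refine continuous_iff_continuousAt.2 fun x => ?_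
    rcases eq_or_ne x 0 with rfl | hx
    · refine (continuousAt_const (y := (0 : ℝ))).congr ?_
      filter_upwards [hK.isClosed.isOpen_compl.mem_nhds hK0] with z hz
      rw [ha0 z hz, zero_mul]
    · exact ha.continuousAt.mul (hb x hx)
  have hts : tsupport η ⊆ K :=
    closure_minimal (fun x hx => by by_contra h; exact hx (hsupp x h)) hK.isClosed
  refine integral_mul_fderiv_eq_neg_fderiv_mul_of_integrable ?_ ?_ ?_ (fun x _ => hη x)
    (fun x hx => (hF x (hne x (hts hx))).differentiableAt (by simp))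
  · exact cut _ _ (hη'.clm_apply continuous_const) (fun x hx => by simp [hd0 x hx])
      fun x hx => (hF x hx).continuousAt
  · exact cut _ _ hη.continuous hsupp fun x hx =>
      (((hF x hx).fderiv_right (m := 0) (by norm_num)).continuousAt).clm_apply continuousAt_const
  · exact cut _ _ hη.continuous hsupp fun x hx => (hF x hx).continuousAt

/-- `x · Dw`. -/
def rad (w : E n → ℝ) (x : E n) : ℝ := fderiv ℝ w x x

/-- `Du · Dv`. -/
def dd (u v : E n → ℝ) (x : E n) : ℝ := ∑ i, fderiv ℝ u x (cv i) * fderiv ℝ v x (cv i)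

/-- A potential `|x|^B w^(q+1)/(q+1)`. -/
def pot (B q : ℝ) (w : E n → ℝ) (x : E n) : ℝ := ‖x‖ ^ B * w x ^ (q + 1) / (q + 1)

/-- The boundary term of the identity. -/
def flux (A B p q μ : ℝ) (u v : E n → ℝ) (x : E n) : ℝ :=
  -(‖x‖ ^ 2 * (pot B q u x + pot A p v x)) - 2 * (rad u x * rad v x) + ‖x‖ ^ 2 * dd u v x
    - ((n : ℝ) - 2) * μ * (u x * rad v x) - ((n : ℝ) - 2) * (1 - μ) * (v x * rad u x)

theorem sum_mul_fderiv (w : E n → ℝ) (x : E n) : ∑ i, x i * fderiv ℝ w x (cv i) = rad w x :=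
  sum_lin _ _

theorem hasFDerivAt_radial {β β' : ℝ → ℝ} (hβ : ∀ t, HasDerivAt β (β' t) t) (x : E n) :
    HasFDerivAt (fun z : E n => β (‖z‖ ^ 2)) (β' (‖x‖ ^ 2) • (2 • innerSL ℝ x)) x :=
  (hβ (‖x‖ ^ 2)).comp_hasFDerivAt x (hasStrictFDerivAt_norm_sq x).hasFDerivAt

/-- The weighted Pohozaev identity. -/
theorem identity {A B p q μ δ : ℝ} (hp : 0 < p) (hq : 0 < q)
    (hμ1 : (n : ℝ) + B - ((n : ℝ) - 2) * μ * (q + 1) = δ * (q + 1))
    (hμ2 : (n : ℝ) + A - ((n : ℝ) - 2) * (1 - μ) * (p + 1) = δ * (p + 1))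
    {u v : E n → ℝ} (hs : Sol A B p q u v) {β β' : ℝ → ℝ} (hβ : ∀ t, HasDerivAt β (β' t) t)
    (hβ' : Continuous β') {a b : ℝ} (ha : 0 < a)
    (hsupp : ∀ t, t ∉ Icc a b → β t = 0) (hsupp' : ∀ t, t ∉ Icc a b → β' t = 0) :
    δ * ∫ x : E n, β (‖x‖ ^ 2) * dens A B p q u v x =
      ∫ x : E n, 2 * β' (‖x‖ ^ 2) * flux A B p q μ u v x := by
  have hu := hs.hu
  have hv := hs.hv
  set η : E n → ℝ := fun x => β (‖x‖ ^ 2) with hηd
  set η1 : E n → ℝ := fun x => 2 * β' (‖x‖ ^ 2) with hη1d
  have hK := isCompact_ann (n := n) a b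
  have hK0 : (0 : E n) ∉ ann n a b := fun h => ann_ne_zero ha h rfl
  have hsuppη : ∀ x, x ∉ ann n a b → η x = 0 := fun x hx => hsupp _ hx
  have hsupp1 : ∀ x, x ∉ ann n a b → η1 x = 0 := fun x hx => by simp [hη1d, hsupp' _ hx]
  have hηdiff : Differentiable ℝ η := fun x => (hasFDerivAt_radial hβ x).differentiableAt
  have hDη : ∀ (x : E n) (i : Fin n), fderiv ℝ η x (cv i) = η1 x * x i := fun x i => by
    rw [HasFDerivAt.fderiv (f := η) (hasFDerivAt_radial hβ x)]
    simp [hη1d, inner_cv]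
    ring
  have hη' : Continuous fun x => fderiv ℝ η x := by
    have e : (fun x => fderiv ℝ η x) = fun x => β' (‖x‖ ^ 2) • (2 • innerSL ℝ x) :=
      funext fun x => HasFDerivAt.fderiv (f := η) (hasFDerivAt_radial hβ x)
    rw [e]
    fun_prop
  have hη1c : Continuous η1 := continuous_const.mul (hβ'.comp (continuous_norm.pow 2))
  have cut : ∀ (c d : E n → ℝ), Continuous c → (∀ x, x ∉ ann n a b → c x = 0) →
      (∀ x, x ≠ 0 → ContinuousAt d x) → Integrable fun x => c x * d x := by
    intro c d hc hc0 hd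
    refine Continuous.integrable_of_hasCompactSupport ?_
      (HasCompactSupport.intro hK fun x hx => by rw [hc0 x hx, zero_mul])
    refine continuous_iff_continuousAt.2 fun x => ?_
    rcases eq_or_ne x 0 with rfl | hx
    · refine (continuousAt_const (y := (0 : ℝ))).congr ?_
      filter_upwards [hK.isClosed.isOpen_compl.mem_nhds hK0] with z hz
      rw [hc0 z hz, zero_mul]
    · exact hc.continuousAt.mul (hd x hx)
  have hηi : ∀ d : E n → ℝ, (∀ x, x ≠ 0 → ContinuousAt d x) → Integrable fun x => η x * d x :=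
    fun d hd => cut η d hηdiff.continuous hsuppη hd
  have h1i : ∀ d : E n → ℝ, (∀ x, x ≠ 0 → ContinuousAt d x) → Integrable fun x => η1 x * d x :=
    fun d hd => cut η1 d hη1c hsupp1 hd
  have div0 : ∀ P : Fin n → E n → ℝ, (∀ i x, x ≠ 0 → ContDiffAt ℝ 1 (P i) x) →
      ∫ x, η x * ∑ i, fderiv ℝ (P i) x (cv i) = -∫ x, η1 x * ∑ i, x i * P i x := by
    intro P hP
    have i1 : ∀ i, Integrable fun x => η x * fderiv ℝ (P i) x (cv i) := fun i =>
      hηi _ fun x hx => (((hP i x hx).fderiv_right (m := 0) (by norm_num)).continuousAt).clm_apply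
        continuousAt_const
    have i2 : ∀ i, Integrable fun x => η1 x * (x i * P i x) := fun i =>
      h1i _ fun x hx => (contDiff_coord i).continuous.continuousAt.mul (hP i x hx).continuousAt
    simp only [Finset.mul_sum]
    rw [integral_finsetSum _ fun i _ => i1 i, integral_finsetSum _ fun i _ => i2 i,
      ← Finset.sum_neg_distrib]
    refine Finset.sum_congr rfl fun i _ => ?_
    rw [ibp_off hηdiff hη' hK hK0 hsuppη (fun x hx => hP i x hx) i]
    congr 1
    refine integral_congr_ae (Eventually.of_forall fun x => ?_)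
    simp only [hDη]
    ring
  -- first derivatives
  have hD1 : ∀ {w : E n → ℝ}, Super w → ∀ x : E n, x ≠ 0 → ContDiffAt ℝ 1 (fderiv ℝ w) x :=
    fun hw x hx => (hw.at' hx).fderiv_right (m := 1) (by norm_num)
  have hcrad : ∀ {w : E n → ℝ}, Super w → ∀ x : E n, x ≠ 0 → ContDiffAt ℝ 1 (rad w) x :=
    fun hw x hx => (hD1 hw x hx).clm_apply contDiffAt_id
  have hcD : ∀ {w : E n → ℝ}, Super w → ∀ (i : Fin n) (x : E n), x ≠ 0 →
      ContDiffAt ℝ 1 (fun z => fderiv ℝ w z (cv i)) x :=
    fun hw i x hx => (hD1 hw x hx).clm_apply contDiffAt_const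
  have hcdd : ∀ x : E n, x ≠ 0 → ContDiffAt ℝ 1 (dd u v) x := fun x hx =>
    ContDiffAt.sum fun i _ => (hcD hu i x hx).mul (hcD hv i x hx)
  have hH : ∀ {w : E n → ℝ}, Super w → ∀ x : E n, x ≠ 0 →
      HasFDerivAt (fderiv ℝ w) (fderiv ℝ (fderiv ℝ w) x) x :=
    fun hw x hx => ((hD1 hw x hx).differentiableAt (by simp)).hasFDerivAt
  have hsym : ∀ {w : E n → ℝ}, Super w → ∀ x : E n, x ≠ 0 → ∀ s t : E n,
      fderiv ℝ (fderiv ℝ w) x s t = fderiv ℝ (fderiv ℝ w) x t s := fun hw x hx s t =>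
    (hw.at' hx).isSymmSndFDerivAt (by simp) s t
  have hlapu : ∀ x : E n, x ≠ 0 → Laplacian.laplacian u x = -src A p v x := fun x hx => by
    have := hs.eu x hx; rw [src]; linarith
  have hlapv : ∀ x : E n, x ≠ 0 → Laplacian.laplacian v x = -src B q u x := fun x hx => by
    have := hs.ev x hx; rw [src]; linarith
  have hcpot : ∀ {w : E n → ℝ} (D r : ℝ), Super w → ∀ x : E n, x ≠ 0 →
      ContDiffAt ℝ 1 (pot D r w) x := fun D r hw x hx =>
    (((((contDiffAt_norm ℝ hx).rpow_const_of_ne (norm_ne_zero_iff.2 hx))).mul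
      (((hw.at' hx).of_le (by norm_num)).rpow_const_of_ne (hw.pos x).ne'))).div_const _
  have hpot : ∀ {w : E n → ℝ} (D r : ℝ), 0 < r + 1 → Super w → ∀ x : E n, x ≠ 0 →
      fderiv ℝ (pot D r w) x x = D * pot D r w x + src D r w x * rad w x := by
    intro w D r hr hw x hx
    have hn0 := norm_pos_iff.2 hx
    have h1 : HasFDerivAt (fun z : E n => ‖z‖) (fderiv ℝ (fun z : E n => ‖z‖) x) x :=
      ((contDiffAt_norm ℝ hx).differentiableAt (by simp : (1 : WithTop ℕ∞) ≠ 0)).hasFDerivAt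
    have h2 := ((hw.at' hx).differentiableAt (by simp)).hasFDerivAt
    have h3 := ((h1.rpow_const (p := D) (Or.inl hn0.ne')).mul
      (h2.rpow_const (p := r + 1) (Or.inl (hw.pos x).ne'))).mul_const (r + 1)⁻¹
    have e : pot D r w = fun z => ‖z‖ ^ D * w z ^ (r + 1) * (r + 1)⁻¹ := by
      funext z; simp [pot, div_eq_mul_inv]
    have hnx : fderiv ℝ (fun z : E n => ‖z‖) x x = ‖x‖ :=
      DifferentiableAt.fderiv_norm_self
        ((contDiffAt_norm ℝ hx).differentiableAt (by simp : (1 : WithTop ℕ∞) ≠ 0))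
    rw [e, HasFDerivAt.fderiv (f := fun z => ‖z‖ ^ D * w z ^ (r + 1) * (r + 1)⁻¹) h3]
    simp [hnx, src, rad, Real.rpow_sub_one hn0.ne', add_sub_cancel_right]
    field_simp
    ring
  -- the vector fields
  have key1 : ∫ x, η x * (-(rad u x * src B q u x) - rad v x * src A p v x -
      ((n : ℝ) - 2) * dd u v x) =
      -∫ x, η1 x * (2 * (rad u x * rad v x) - ‖x‖ ^ 2 * dd u v x) := by
    have h := div0 (fun i z => rad u z * fderiv ℝ v z (cv i) + rad v z * fderiv ℝ u z (cv i) -
      z i * dd u v z) fun i x hx =>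
        (((hcrad hu x hx).mul (hcD hv i x hx)).add ((hcrad hv x hx).mul (hcD hu i x hx))).sub
          ((((contDiff_coord i).contDiffAt).of_le (by norm_num)).mul (hcdd x hx))
    refine Eq.trans (integral_congr_ae (Eventually.of_forall fun x => ?_)) (h.trans ?_)
    · rcases eq_or_ne x 0 with rfl | hx
      · simp [hsuppη _ hK0]
      simp only
      congr 1
      have hru : HasFDerivAt (rad u) _ x := (hH hu x hx).clm_apply (hasFDerivAt_id x)
      have hrv : HasFDerivAt (rad v) _ x := (hH hv x hx).clm_apply (hasFDerivAt_id x)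
      have hdu : ∀ i, HasFDerivAt (fun z => fderiv ℝ u z (cv i)) _ x := fun i =>
        (hH hu x hx).clm_apply (hasFDerivAt_const (cv i) x)
      have hdv : ∀ i, HasFDerivAt (fun z => fderiv ℝ v z (cv i)) _ x := fun i =>
        (hH hv x hx).clm_apply (hasFDerivAt_const (cv i) x)
      have hd : HasFDerivAt (dd u v) _ x :=
        HasFDerivAt.fun_sum (u := Finset.univ) fun i _ => (hdu i).mul (hdv i)
      have hP : ∀ i, HasFDerivAt (fun z => rad u z * fderiv ℝ v z (cv i) +
          rad v z * fderiv ℝ u z (cv i) - z i * dd u v z) _ x := fun i =>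
        ((hru.mul (hdv i)).add (hrv.mul (hdu i))).sub
          (((EuclideanSpace.proj (𝕜 := ℝ) i).hasFDerivAt).mul hd)
      set a : Fin n → ℝ := fun i => fderiv ℝ u x (cv i)
      set c : Fin n → ℝ := fun i => fderiv ℝ v x (cv i)
      set Hu := fderiv ℝ (fderiv ℝ u) x
      set Hv := fderiv ℝ (fderiv ℝ v) x
      set W : E n → ℝ := fun e => ∑ j, (c j * Hu e (cv j) + a j * Hv e (cv j))
      have hterm : ∀ i, fderiv ℝ (fun z => rad u z * fderiv ℝ v z (cv i) +
          rad v z * fderiv ℝ u z (cv i) - z i * dd u v z) x (cv i) =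
          (Hu x (cv i) + a i) * c i + rad u x * Hv (cv i) (cv i) +
            ((Hv x (cv i) + c i) * a i + rad v x * Hu (cv i) (cv i)) -
            (dd u v x + x i * W (cv i)) := by
        intro i
        rw [(hP i).fderiv]
        simp [W, a, c, Hu, Hv, cv_apply, rad, hsym hu x hx x (cv i), hsym hv x hx x (cv i),
          Finset.sum_add_distrib]
        ring
      have hW : ∑ i, x i * W (cv i) = W x := by
        have hWL : ∀ e, W e = (∑ j, (c j • Hu.flip (cv j) + a j • Hv.flip (cv j))) e := fun e => by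
          simp [W]
        simp only [hWL]
        exact sum_lin _ _
      simp only [hterm, Finset.sum_add_distrib, Finset.sum_sub_distrib, hW, ← Finset.mul_sum,
        Finset.sum_const, Finset.card_univ, Fintype.card_fin, nsmul_eq_mul, add_mul,
        ← lap_eq_sum, hlapu x hx, hlapv x hx, Hu, Hv]
      have e1 : ∑ i, c i * a i = dd u v x := Finset.sum_congr rfl fun i _ => mul_comm _ _
      have e2 : ∑ i, a i * c i = dd u v x := rfl
      have e3 : W x = ∑ i, Hu x (cv i) * c i + ∑ i, Hv x (cv i) * a i := by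
        simp only [W, Finset.sum_add_distrib]
        exact congrArg₂ (· + ·) (Finset.sum_congr rfl fun i _ => mul_comm _ _)
          (Finset.sum_congr rfl fun i _ => mul_comm _ _)
      rw [e1, e2, e3]
      ring
    · congr 1
      refine integral_congr_ae (Eventually.of_forall fun x => ?_)
      simp only
      congr 1
      rw [← sum_sq x, Finset.sum_mul, two_mul]
      conv_rhs => arg 1; arg 1; rw [← sum_mul_fderiv v x, Finset.mul_sum]
      conv_rhs => arg 1; arg 2; rw [mul_comm, ← sum_mul_fderiv u x, Finset.mul_sum]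
      rw [← Finset.sum_add_distrib, ← Finset.sum_sub_distrib]
      exact Finset.sum_congr rfl fun i _ => by ring
  have key2 : ∀ {w : E n → ℝ} (D r : ℝ), 0 < r + 1 → Super w →
      ∫ x, η x * (src D r w x * rad w x) =
        -(((n : ℝ) + D) * ∫ x, η x * pot D r w x) - ∫ x, η1 x * (‖x‖ ^ 2 * pot D r w x) := by
    intro w D r hr hw
    have h := div0 (fun i z => z i * pot D r w z) fun i x hx =>
      (((contDiff_coord i).contDiffAt).of_le (by norm_num)).mul (hcpot D r hw x hx)
    have i1 : Integrable fun x => η x * pot D r w x := hηi _ fun x hx => (hcpot D r hw x hx).continuousAt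
    have i2 : Integrable fun x => η x * (src D r w x * rad w x) := hηi _ fun x hx =>
      (((continuous_norm.continuousAt).rpow_const (Or.inl (norm_ne_zero_iff.2 hx))).mul
        (hw.cont.continuousAt.rpow_const (Or.inl (hw.pos x).ne'))).mul (hcrad hw x hx).continuousAt
    have e1 : ∫ x, η x * ∑ i, fderiv ℝ (fun z => z i * pot D r w z) x (cv i) =
        ((n : ℝ) + D) * (∫ x, η x * pot D r w x) + ∫ x, η x * (src D r w x * rad w x) := by
      rw [← integral_const_mul, ← integral_add (i1.const_mul _) i2]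
      refine integral_congr_ae (Eventually.of_forall fun x => ?_)
      rcases eq_or_ne x 0 with rfl | hx
      · simp [hsuppη _ hK0]
      have hd := ((hcpot D r hw x hx).differentiableAt (by simp)).hasFDerivAt
      have hP : ∀ i : Fin n, fderiv ℝ (fun z => z i * pot D r w z) x (cv i) =
          pot D r w x + x i * fderiv ℝ (pot D r w) x (cv i) := fun i => by
        rw [HasFDerivAt.fderiv (f := fun z => z i * pot D r w z)
          (((EuclideanSpace.proj (𝕜 := ℝ) i).hasFDerivAt).mul hd)]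
        simp [cv_apply]
        ring
      simp only [hP, Finset.sum_add_distrib, Finset.sum_const, Finset.card_univ, Fintype.card_fin,
        nsmul_eq_mul]
      rw [sum_lin, hpot D r hr hw x hx]
      ring
    have e2 : ∫ x, η1 x * ∑ i, x i * (x i * pot D r w x) =
        ∫ x, η1 x * (‖x‖ ^ 2 * pot D r w x) := by
      refine integral_congr_ae (Eventually.of_forall fun x => ?_)
      simp only [← mul_assoc, ← Finset.sum_mul]
      rw [← sum_sq x]
      ring_nf
    rw [e1, e2] at h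
    linarith
  have key3 : ∀ {w z : E n → ℝ} (D r : ℝ), Super w → Super z → 0 < r + 1 →
      (∀ x, x ≠ 0 → Laplacian.laplacian z x = -src D r w x) →
      ∫ x, η x * dd w z x =
        (r + 1) * (∫ x, η x * pot D r w x) - ∫ x, η1 x * (w x * rad z x) := by
    intro w z D r hw hz hr hlap
    have h := div0 (fun i y => w y * fderiv ℝ z y (cv i)) fun i x hx =>
      ((hw.at' hx).of_le (by norm_num)).mul (hcD hz i x hx)
    have i1 : Integrable fun x => η x * pot D r w x := hηi _ fun x hx => (hcpot D r hw x hx).continuousAt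
    have i2 : Integrable fun x => η x * dd w z x := hηi _ fun x hx =>
      (ContDiffAt.sum fun i _ => (hcD hw i x hx).mul (hcD hz i x hx) :
        ContDiffAt ℝ 1 (dd w z) x).continuousAt
    have e1 : ∫ x, η x * ∑ i, fderiv ℝ (fun y => w y * fderiv ℝ z y (cv i)) x (cv i) =
        (∫ x, η x * dd w z x) - (r + 1) * (∫ x, η x * pot D r w x) := by
      rw [← integral_const_mul, ← integral_sub i2 (i1.const_mul _)]
      refine integral_congr_ae (Eventually.of_forall fun x => ?_)
      rcases eq_or_ne x 0 with rfl | hx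
      · simp [hsuppη _ hK0]
      have hd := ((hw.at' hx).differentiableAt (by simp)).hasFDerivAt
      have hP : ∀ i : Fin n, fderiv ℝ (fun y => w y * fderiv ℝ z y (cv i)) x (cv i) =
          fderiv ℝ w x (cv i) * fderiv ℝ z x (cv i) +
            w x * fderiv ℝ (fderiv ℝ z) x (cv i) (cv i) := fun i => by
        rw [HasFDerivAt.fderiv (f := fun y => w y * fderiv ℝ z y (cv i))
          (hd.mul ((hH hz x hx).clm_apply (hasFDerivAt_const (cv i) x)))]
        simp
        ring
      simp only [hP, Finset.sum_add_distrib, ← Finset.mul_sum, ← lap_eq_sum, hlap x hx, dd]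
      rw [src, pot, Real.rpow_add (hw.pos x), Real.rpow_one]
      field_simp
      ring
    have e2 : ∫ x, η1 x * ∑ i, x i * (w x * fderiv ℝ z x (cv i)) =
        ∫ x, η1 x * (w x * rad z x) := by
      refine integral_congr_ae (Eventually.of_forall fun x => ?_)
      simp only [← sum_mul_fderiv z x, Finset.mul_sum]
      exact Finset.sum_congr rfl fun i _ => by ring
    rw [e1, e2] at h
    linarith
  have hddc : ∀ x : E n, x ≠ 0 → ContinuousAt (dd u v) x := fun x hx => (hcdd x hx).continuousAt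
  have hsrc : ∀ {w : E n → ℝ} (D r : ℝ), Super w → ∀ x : E n, x ≠ 0 →
      ContinuousAt (src D r w) x := fun D r hw x hx =>
    ((continuous_norm.continuousAt).rpow_const (Or.inl (norm_ne_zero_iff.2 hx))).mul
      (hw.cont.continuousAt.rpow_const (Or.inl (hw.pos x).ne'))
  have iUg : Integrable fun x => η x * (src B q u x * rad u x) :=
    hηi _ fun x hx => (hsrc B q hu x hx).mul (hcrad hu x hx).continuousAt
  have iVf : Integrable fun x => η x * (src A p v x * rad v x) :=
    hηi _ fun x hx => (hsrc A p hv x hx).mul (hcrad hv x hx).continuousAt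
  have iD : Integrable fun x => η x * dd u v x := hηi _ hddc
  have iU : Integrable fun x => η x * pot B q u x := hηi _ fun x hx => (hcpot B q hu x hx).continuousAt
  have iV : Integrable fun x => η x * pot A p v x := hηi _ fun x hx => (hcpot A p hv x hx).continuousAt
  have j1 : Integrable fun x => η1 x * (2 * (rad u x * rad v x) - ‖x‖ ^ 2 * dd u v x) :=
    h1i _ fun x hx => (continuousAt_const.mul ((hcrad hu x hx).continuousAt.mul
      (hcrad hv x hx).continuousAt)).sub ((continuous_norm.pow 2).continuousAt.mul (hddc x hx))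
  have jU : Integrable fun x => η1 x * (‖x‖ ^ 2 * pot B q u x) :=
    h1i _ fun x hx => (continuous_norm.pow 2).continuousAt.mul (hcpot B q hu x hx).continuousAt
  have jV : Integrable fun x => η1 x * (‖x‖ ^ 2 * pot A p v x) :=
    h1i _ fun x hx => (continuous_norm.pow 2).continuousAt.mul (hcpot A p hv x hx).continuousAt
  have ju : Integrable fun x => η1 x * (u x * rad v x) :=
    h1i _ fun x hx => hu.cont.continuousAt.mul (hcrad hv x hx).continuousAt
  have jv : Integrable fun x => η1 x * (v x * rad u x) :=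
    h1i _ fun x hx => hv.cont.continuousAt.mul (hcrad hu x hx).continuousAt
  have eLHS : ∫ x : E n, η x * dens A B p q u v x =
      (q + 1) * (∫ x, η x * pot B q u x) + (p + 1) * ∫ x, η x * pot A p v x := by
    rw [← integral_const_mul, ← integral_const_mul, ← integral_add (iU.const_mul _) (iV.const_mul _)]
    refine integral_congr_ae (Eventually.of_forall fun x => ?_)
    simp only [dens, src, pot, Real.rpow_add (hu.pos x), Real.rpow_add (hv.pos x), Real.rpow_one]
    field_simp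
    ring
  have eRHS : ∫ x : E n, η1 x * flux A B p q μ u v x =
      -(∫ x, η1 x * (‖x‖ ^ 2 * pot B q u x)) - (∫ x, η1 x * (‖x‖ ^ 2 * pot A p v x)) -
        (∫ x, η1 x * (2 * (rad u x * rad v x) - ‖x‖ ^ 2 * dd u v x)) -
        ((n : ℝ) - 2) * μ * (∫ x, η1 x * (u x * rad v x)) -
        ((n : ℝ) - 2) * (1 - μ) * ∫ x, η1 x * (v x * rad u x) := by
    rw [← integral_neg, ← integral_const_mul, ← integral_const_mul]
    have t1 := integral_sub jU.neg jV
    have t2 := integral_sub (jU.neg.sub jV) j1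
    have t3 := integral_sub ((jU.neg.sub jV).sub j1) (ju.const_mul (((n : ℝ) - 2) * μ))
    have t4 := integral_sub (((jU.neg.sub jV).sub j1).sub (ju.const_mul (((n : ℝ) - 2) * μ)))
      (jv.const_mul (((n : ℝ) - 2) * (1 - μ)))
    simp only [Pi.sub_apply, Pi.neg_apply] at t1 t2 t3 t4
    rw [← t1, ← t2, ← t3, ← t4]
    refine integral_congr_ae (Eventually.of_forall fun x => ?_)
    simp only [flux]
    ring
  have k1 : ∫ x, η x * (-(rad u x * src B q u x) - rad v x * src A p v x -
      ((n : ℝ) - 2) * dd u v x) =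
      -(∫ x, η x * (src B q u x * rad u x)) - (∫ x, η x * (src A p v x * rad v x)) -
        ((n : ℝ) - 2) * ∫ x, η x * dd u v x := by
    have t1 := integral_sub iUg.neg iVf
    have t2 := integral_sub (iUg.neg.sub iVf) (iD.const_mul ((n : ℝ) - 2))
    simp only [Pi.sub_apply, Pi.neg_apply] at t1 t2
    rw [← integral_neg, ← integral_const_mul, ← t1, ← t2]
    refine integral_congr_ae (Eventually.of_forall fun x => ?_)
    simp only
    ring
  have kU := key2 B q (by linarith) hu
  have kV := key2 A p (by linarith) hv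
  have d1 := key3 B q hu hv (by linarith) hlapv
  have d2 := key3 A p hv hu (by linarith) hlapu
  have esym : ∫ x, η x * dd v u x = ∫ x, η x * dd u v x := by
    refine integral_congr_ae (Eventually.of_forall fun x => ?_)
    simp only [dd, mul_comm (fderiv ℝ v x _)]
  rw [esym] at d2
  rw [k1, kU, kV] at key1
  change δ * ∫ x : E n, η x * dens A B p q u v x = ∫ x : E n, η1 x * flux A B p q μ u v x
  rw [eLHS, eRHS]
  linear_combination key1 + ((n : ℝ) - 2) * μ * d1 + ((n : ℝ) - 2) * (1 - μ) * d2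
    - (∫ x, η x * pot B q u x) * hμ1 - (∫ x, η x * pot A p v x) * hμ2

/-- Polar coordinates. -/
theorem integral_polar' (hn : 0 < n) (g : E n → ℝ) (hg : Integrable g) :
    ∫ x, g x = ∫ r in Set.Ioi (0 : ℝ), r ^ (n - 1) * sphInt g r := by
  have : Nonempty (Fin n) := ⟨⟨0, hn⟩⟩
  have hd : Module.finrank ℝ (E n) = n := by simp
  have hmp := (volume : Measure (E n)).measurePreserving_homeomorphUnitSphereProd
  rw [hd] at hmp
  have hc : MeasurableSet ({0}ᶜ : Set (E n)) := (measurableSet_singleton _).compl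
  have h1 : ∫ x, g x = ∫ x : ({0}ᶜ : Set (E n)), g x ∂(Measure.comap Subtype.val volume) := by
    rw [integral_subtype_comap hc, restrict_compl_singleton]
  set G : Metric.sphere (0 : E n) 1 × Set.Ioi (0 : ℝ) → ℝ :=
    fun p => g ((p.2 : ℝ) • (p.1 : E n)) with hG
  have hcomp : ∀ x : ({0}ᶜ : Set (E n)), G (homeomorphUnitSphereProd (E n) x) = g x := by
    intro x
    have hx : (x : E n) ≠ 0 := x.2
    simp [hG, homeomorphUnitSphereProd, smul_smul, norm_ne_zero_iff.2 hx]
  have hemb := (homeomorphUnitSphereProd (E n)).measurableEmbedding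
  have h2 : ∫ x, g x =
      ∫ p, G p ∂((volume : Measure (E n)).toSphere.prod (Measure.volumeIoiPow (n - 1))) := by
    rw [h1, ← hmp.integral_comp hemb]
    exact integral_congr_ae (Eventually.of_forall fun x => (hcomp x).symm)
  have hint : Integrable G
      ((volume : Measure (E n)).toSphere.prod (Measure.volumeIoiPow (n - 1))) := by
    rw [← hmp.integrable_comp_emb hemb]
    have h3 : Integrable (fun x : ({0}ᶜ : Set (E n)) => g x)
        (Measure.comap Subtype.val volume) := by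
      have h4 : IntegrableOn g ({0}ᶜ : Set (E n)) := hg.integrableOn
      exact (integrableOn_iff_comap_subtypeVal hc).1 h4
    exact h3.congr (Eventually.of_forall fun x => (hcomp x).symm)
  rw [h2, integral_prod_symm G hint, Measure.volumeIoiPow]
  simp_rw [ENNReal.ofReal]
  rw [integral_withDensity_eq_integral_smul (measurable_subtype_coe.pow_const _).real_toNNReal,
    integral_subtype_comap measurableSet_Ioi
      (fun a : ℝ => Real.toNNReal (a ^ (n - 1)) •
        ∫ θ : Metric.sphere (0 : E n) 1, g (a • (θ : E n)) ∂(volume : Measure (E n)).toSphere)]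
  refine setIntegral_congr_fun measurableSet_Ioi fun r hr => ?_
  rw [NNReal.smul_def, Real.coe_toNNReal _ (pow_nonneg (le_of_lt hr) _), smul_eq_mul]
  rfl

theorem continuousOn_sphInt {g : E n → ℝ} (hg : ∀ x : E n, x ≠ 0 → ContinuousAt g x) :
    ContinuousOn (sphInt g) (Ioi 0) := by
  intro r hr
  have hr0 : (0 : ℝ) < r := hr
  obtain ⟨C, hC⟩ := (isCompact_ann (n := n) ((r / 2) ^ 2) ((2 * r) ^ 2)).exists_bound_of_continuousOn
    fun x hx => (hg x (ann_ne_zero (by positivity) hx)).continuousWithinAt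
  have hne : ∀ (s : ℝ) (θ : Metric.sphere (0 : E n) 1), 0 < s → s • (θ : E n) ≠ 0 := fun s θ hs =>
    smul_ne_zero hs.ne' (ne_zero_of_mem_unit_sphere θ)
  refine ContinuousAt.continuousWithinAt ?_
  refine continuousAt_of_dominated (bound := fun _ => C) ?_ ?_ (integrable_const _) ?_
  · filter_upwards [Ioi_mem_nhds hr0] with s hs
    refine Continuous.aestronglyMeasurable (continuous_iff_continuousAt.2 fun θ => ?_)
    exact ContinuousAt.comp (g := g) (hg _ (hne s θ hs)) (by fun_prop)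
  · filter_upwards [Ioo_mem_nhds (show r / 2 < r by linarith) (show r < 2 * r by linarith)]
      with s hs
    refine Eventually.of_forall fun θ => hC _ ?_
    have : ‖s • (θ : E n)‖ = s := by
      rw [norm_smul, norm_eq_of_mem_sphere θ, mul_one, Real.norm_eq_abs,
        abs_of_pos (by linarith [hs.1])]
    exact ⟨by rw [this]; exact pow_le_pow_left₀ (by positivity) hs.1.le 2,
      by rw [this]; exact pow_le_pow_left₀ (by linarith [hs.1]) hs.2.le 2⟩
  · exact Eventually.of_forall fun θ =>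
      ContinuousAt.comp (g := g) (f := fun s : ℝ => s • (θ : E n)) (hg _ (hne r θ hr0)) (by fun_prop)

theorem integrableOn_norm_rpow (hn : 0 < n) {A : ℝ} (hA : -(n : ℝ) < A) (r : ℝ) :
    IntegrableOn (fun x : E n => ‖x‖ ^ A) (Metric.closedBall 0 r) := by
  have : Nonempty (Fin n) := ⟨⟨0, hn⟩⟩
  rw [← integrable_indicator_iff measurableSet_closedBall]
  have e : (Metric.closedBall (0 : E n) r).indicator (fun x : E n => ‖x‖ ^ A) =
      fun x : E n => (Iic r).indicator (fun t : ℝ => t ^ A) ‖x‖ := by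
    funext x
    by_cases h : ‖x‖ ≤ r <;> simp [h]
  rw [e, integrable_fun_norm_addHaar (volume : Measure (E n))
    (f := (Iic r).indicator fun t : ℝ => t ^ A), finrank_euclideanSpace_fin]
  have h1 : IntegrableOn (fun t : ℝ => t ^ (A + ((n - 1 : ℕ) : ℝ))) (Ioc 0 r) := by
    have hcast : ((n - 1 : ℕ) : ℝ) = n - 1 := by
      rw [Nat.cast_sub hn]; simp
    rcases le_or_gt r 0 with hr | hr
    · simp [hr]
    exact (intervalIntegrable_iff_integrableOn_Ioc_of_le hr.le).1
      (intervalIntegral.intervalIntegrable_rpow' (by rw [hcast]; linarith))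
  have h2 : IntegrableOn ((Iic r).indicator fun t : ℝ => t ^ (A + ((n - 1 : ℕ) : ℝ))) (Ioi 0) := by
    rw [integrableOn_indicator_iff measurableSet_Iic, inter_comm, Ioi_inter_Iic]
    exact h1
  refine h2.congr_fun (fun t ht => ?_) measurableSet_Ioi
  have ht0 : (0 : ℝ) < t := ht
  by_cases h : t ≤ r
  · simp only [indicator_of_mem (show t ∈ Iic r from h), smul_eq_mul]
    rw [Real.rpow_add ht0, Real.rpow_natCast]
    ring
  · simp [indicator_of_notMem (show t ∉ Iic r from h)]

theorem integrableOn_src (hn : 0 < n) {D r : ℝ} (hD : -(n : ℝ) < D) (hr : 0 < r) {w z : E n → ℝ}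
    (hw : Super w) (hz : Continuous z) (R : ℝ) :
    IntegrableOn (fun x => src D r w x * z x) (Metric.closedBall 0 R) := by
  refine IntegrableOn.congr_fun (((integrableOn_norm_rpow hn hD R).mul_continuousOn
    ((hw.cont.rpow_const fun x => Or.inr hr.le).mul hz).continuousOn (isCompact_closedBall _ _)))
    (fun x _ => ?_) measurableSet_closedBall
  simp only [src, Pi.mul_apply]
  ring

theorem integrableOn_dens (hn : 0 < n) {A B p q : ℝ} (hA : -(n : ℝ) < A) (hB : -(n : ℝ) < B)
    (hp : 0 < p) (hq : 0 < q) {u v : E n → ℝ} (hs : Sol A B p q u v) (R : ℝ) :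
    IntegrableOn (dens A B p q u v) (Metric.closedBall 0 R) :=
  (integrableOn_src hn hA hp hs.hv hs.hv.cont R).add (integrableOn_src hn hB hq hs.hu hs.hu.cont R)

theorem dn_le_sum (w : E n → ℝ) (x : E n) : dn w x ≤ ∑ i, |fderiv ℝ w x (cv i)| := by
  refine ContinuousLinearMap.opNorm_le_bound _ (Finset.sum_nonneg fun i _ => abs_nonneg _) fun y => ?_
  rw [← sum_lin (fderiv ℝ w x) y, Real.norm_eq_abs, Finset.sum_mul]
  refine (Finset.abs_sum_le_sum_abs _ _).trans (Finset.sum_le_sum fun i _ => ?_)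
  rw [abs_mul, mul_comm]
  refine mul_le_mul_of_nonneg_left ?_ (abs_nonneg _)
  rw [← inner_cv y i]
  exact (abs_real_inner_le_norm _ _).trans (by rw [norm_cv, mul_one])

theorem abs_rad_le (w : E n → ℝ) (x : E n) : |rad w x| ≤ dn w x * ‖x‖ :=
  (fderiv ℝ w x).le_opNorm x

theorem abs_dd_le (u v : E n → ℝ) (x : E n) : |dd u v x| ≤ n * (dn u x * dn v x) := by
  refine (Finset.abs_sum_le_sum_abs _ _).trans ?_
  refine (Finset.sum_le_sum (g := fun _ => dn u x * dn v x) fun i _ => ?_).trans (by simp)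
  rw [abs_mul]
  have h : ∀ w : E n → ℝ, |fderiv ℝ w x (cv i)| ≤ dn w x := fun w => by
    simpa [dn, norm_cv] using (fderiv ℝ w x).le_opNorm (cv i)
  exact mul_le_mul (h u) (h v) (abs_nonneg _) (norm_nonneg _)

/-- `|Dw| = O(1/|x|)` near the origin. -/
theorem dn_zero {w : E n → ℝ} (hw : Super w) {A C : ℝ} (hA : -2 < A) (hC : 0 ≤ C)
    (hlap : ∀ z, z ≠ 0 → ‖z‖ ≤ 1 → |Laplacian.laplacian w z| ≤ C * ‖z‖ ^ A) :
    ∃ K, 0 ≤ K ∧ ∀ x : E n, x ≠ 0 → ‖x‖ ≤ 1 / 2 → ‖x‖ * dn w x ≤ K := by
  obtain ⟨_, CA, -, hCA, hband⟩ := rpow_band A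
  obtain ⟨M, hM⟩ := (isCompact_closedBall (0 : E n) 1).exists_bound_of_continuousOn
    hw.cont.continuousOn
  have hM0 : 0 ≤ M := (norm_nonneg _).trans (hM 0 (by simp))
  refine ⟨n * (n * (2 * M) + (C * CA + 1) / 4), by positivity, fun y hy hy1 => ?_⟩
  set ρ := ‖y‖
  have hρ : 0 < ρ := norm_pos_iff.2 hy
  have hball : ∀ z ∈ Metric.closedBall y (ρ / 2), ρ / 2 ≤ ‖z‖ ∧ ‖z‖ ≤ 2 * ρ ∧ ‖z‖ ≤ 1 ∧ z ≠ 0 := by
    intro z hz
    rw [Metric.mem_closedBall, dist_eq_norm] at hz
    have h1 := norm_sub_norm_le y z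
    rw [norm_sub_rev] at h1
    have h2 := norm_sub_norm_le z y
    refine ⟨by linarith, by linarith, by linarith, fun h => ?_⟩
    rw [h, zero_sub, norm_neg] at hz
    linarith
  have hpow : ρ ^ A * ρ ^ 2 ≤ 1 := by
    rw [← Real.rpow_natCast ρ 2, ← Real.rpow_add hρ]
    exact Real.rpow_le_one hρ.le (by linarith) (by push_cast; linarith)
  have hg : ∀ j, ρ * |fderiv ℝ w y (cv j)| ≤ n * (2 * M) + (C * CA + 1) / 4 := by
    intro j
    have h := grad_abs (c := 0) (show 0 < ρ / 2 by positivity) hM0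
      (show 0 ≤ C * CA * ρ ^ A by positivity) (fun z hz => hw.at' (hball z hz).2.2.2)
      (fun z hz => by
        rw [sub_zero, ← Real.norm_eq_abs]
        exact hM z (mem_closedBall_zero_iff.2 (hball z hz).2.2.1))
      (fun z hz => by
        obtain ⟨h1, h2, h3, h4⟩ := hball z hz
        refine (hlap z h4 h3).trans ?_
        rw [mul_assoc]
        exact mul_le_mul_of_nonneg_left (hband ρ ‖z‖ hρ h1 h2).2 hC) j
    refine (mul_le_mul_of_nonneg_left h hρ.le).trans ?_
    have e : ρ * (n * M / (ρ / 2) + (C * CA * ρ ^ A + 1) * (ρ / 2) / 2) =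
        n * (2 * M) + (C * CA * (ρ ^ A * ρ ^ 2) + ρ ^ 2) / 4 := by
      field_simp
      ring
    rw [e]
    have h1 : C * CA * (ρ ^ A * ρ ^ 2) ≤ C * CA * 1 :=
      mul_le_mul_of_nonneg_left hpow (by positivity)
    have h2 : ρ ^ 2 ≤ 1 := pow_le_one₀ hρ.le (by linarith)
    linarith
  calc ρ * dn w y ≤ ρ * ∑ i, |fderiv ℝ w y (cv i)| :=
        mul_le_mul_of_nonneg_left (dn_le_sum w y) hρ.le
    _ = ∑ i, ρ * |fderiv ℝ w y (cv i)| := Finset.mul_sum _ _ _
    _ ≤ ∑ _i : Fin n, (n * (2 * M) + (C * CA + 1) / 4) := Finset.sum_le_sum fun i _ => hg i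
    _ = _ := by simp; ring

theorem exists_trans_bound : ∃ K, 0 ≤ K ∧ ∀ t, |deriv Real.smoothTransition t| ≤ K := by
  have hc : Continuous (deriv Real.smoothTransition) :=
    (Real.smoothTransition.contDiff (n := 1)).continuous_deriv le_rfl
  obtain ⟨K, hK⟩ := (isCompact_Icc (a := (0 : ℝ)) (b := 1)).exists_bound_of_continuousOn
    hc.continuousOn
  refine ⟨K, (norm_nonneg _).trans (hK 0 (by simp)), fun t => ?_⟩
  have hK0 : 0 ≤ K := (norm_nonneg _).trans (hK 0 (by simp))
  rcases lt_or_ge t 0 with h | h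
  · have e : Real.smoothTransition =ᶠ[𝓝 t] fun _ => 0 := by
      filter_upwards [gt_mem_nhds h] with s hs
      exact Real.smoothTransition.zero_of_nonpos (le_of_lt hs)
    rw [e.deriv_eq, deriv_const, abs_zero]; exact hK0
  rcases lt_or_ge 1 t with h' | h'
  · have e : Real.smoothTransition =ᶠ[𝓝 t] fun _ => 1 := by
      filter_upwards [lt_mem_nhds h'] with s hs
      exact Real.smoothTransition.one_of_one_le (le_of_lt hs)
    rw [e.deriv_eq, deriv_const, abs_zero]; exact hK0
  exact hK t ⟨h, h'⟩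

theorem deriv_trans_out {t : ℝ} (h : t ∉ Icc (0 : ℝ) 1) : deriv Real.smoothTransition t = 0 := by
  rw [mem_Icc, not_and_or, not_le, not_le] at h
  rcases h with h | h
  · have e : Real.smoothTransition =ᶠ[𝓝 t] fun _ => 0 := by
      filter_upwards [gt_mem_nhds h] with s hs
      exact Real.smoothTransition.zero_of_nonpos (le_of_lt hs)
    rw [e.deriv_eq, deriv_const]
  · have e : Real.smoothTransition =ᶠ[𝓝 t] fun _ => 1 := by
      filter_upwards [lt_mem_nhds h] with s hs
      exact Real.smoothTransition.one_of_one_le (le_of_lt hs)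
    rw [e.deriv_eq, deriv_const]

theorem hasDerivAt_trans_lin (c d t : ℝ) :
    HasDerivAt (fun t => Real.smoothTransition (c * t + d))
      (deriv Real.smoothTransition (c * t + d) * c) t :=
  ((Real.smoothTransition.contDiff (n := 1)).differentiable one_ne_zero _).hasDerivAt.comp t
    (((hasDerivAt_id t).const_mul c).add_const d |>.congr_deriv (mul_one c))

theorem dens_nonneg {A B p q : ℝ} {u v : E n → ℝ} (hs : Sol A B p q u v) (x : E n) :
    0 ≤ dens A B p q u v x := by
  have h1 := hs.hu.pos x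
  have h2 := hs.hv.pos x
  simp only [dens, src]
  positivity

theorem abs_flux_le {A B p q μ : ℝ} (hn : 3 ≤ n) (hp : 0 < p) (hq : 0 < q) {u v : E n → ℝ}
    (hs : Sol A B p q u v) (x : E n) :
    |flux A B p q μ u v x| ≤ ((n : ℝ) + 3 + ((n : ℝ) - 2) * (|μ| + |1 - μ|)) *
      (‖x‖ ^ 2 * dens A B p q u v x + ‖x‖ ^ 2 * (dn u x * dn v x) +
        ‖x‖ * (dn v x * u x) + ‖x‖ * (dn u x * v x)) := by
  have hn' : (3 : ℝ) ≤ n := by exact_mod_cast hn
  have hu := hs.hu.pos x
  have hv := hs.hv.pos x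
  set m1 := ((n : ℝ) - 2) * |μ|
  set m2 := ((n : ℝ) - 2) * |1 - μ|
  set T1 := ‖x‖ ^ 2 * dens A B p q u v x
  set T2 := ‖x‖ ^ 2 * (dn u x * dn v x)
  set T3 := ‖x‖ * (dn v x * u x)
  set T4 := ‖x‖ * (dn u x * v x)
  have hd0 : 0 ≤ dn u x ∧ 0 ≤ dn v x := ⟨norm_nonneg _, norm_nonneg _⟩
  have h1 : |‖x‖ ^ 2 * (pot B q u x + pot A p v x)| ≤ T1 := by
    have e1 : pot B q u x * (q + 1) = src B q u x * u x := by
      rw [pot, src, Real.rpow_add hu, Real.rpow_one]; field_simp
    have e2 : pot A p v x * (p + 1) = src A p v x * v x := by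
      rw [pot, src, Real.rpow_add hv, Real.rpow_one]; field_simp
    have p1 : 0 ≤ pot B q u x := by rw [pot]; positivity
    have p2 : 0 ≤ pot A p v x := by rw [pot]; positivity
    rw [abs_of_nonneg (by positivity)]
    refine mul_le_mul_of_nonneg_left ?_ (sq_nonneg _)
    rw [dens, ← e1, ← e2]
    nlinarith [mul_nonneg p1 hq.le, mul_nonneg p2 hp.le]
  have h2 : |rad u x * rad v x| ≤ T2 := by
    rw [abs_mul]
    refine (mul_le_mul (abs_rad_le u x) (abs_rad_le v x) (abs_nonneg _)
      (mul_nonneg hd0.1 (norm_nonneg _))).trans_eq ?_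
    simp only [T2]; ring
  have h3 : |‖x‖ ^ 2 * dd u v x| ≤ n * T2 := by
    rw [abs_mul, abs_of_nonneg (sq_nonneg ‖x‖)]
    refine (mul_le_mul_of_nonneg_left (abs_dd_le u v x) (sq_nonneg _)).trans_eq ?_
    simp only [T2]; ring
  have h4 : |u x * rad v x| ≤ T3 := by
    rw [abs_mul, abs_of_pos hu]
    refine (mul_le_mul_of_nonneg_left (abs_rad_le v x) hu.le).trans_eq ?_
    simp only [T3]; ring
  have h5 : |v x * rad u x| ≤ T4 := by
    rw [abs_mul, abs_of_pos hv]
    refine (mul_le_mul_of_nonneg_left (abs_rad_le u x) hv.le).trans_eq ?_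
    simp only [T4]; ring
  have h4' : |((n : ℝ) - 2) * μ * (u x * rad v x)| ≤ m1 * T3 := by
    rw [abs_mul, abs_mul, abs_of_nonneg (by linarith : (0 : ℝ) ≤ n - 2)]
    exact mul_le_mul_of_nonneg_left h4 (mul_nonneg (by linarith) (abs_nonneg _))
  have h5' : |((n : ℝ) - 2) * (1 - μ) * (v x * rad u x)| ≤ m2 * T4 := by
    rw [abs_mul, abs_mul, abs_of_nonneg (by linarith : (0 : ℝ) ≤ n - 2)]
    exact mul_le_mul_of_nonneg_left h5 (mul_nonneg (by linarith) (abs_nonneg _))
  have hm1 : 0 ≤ m1 := mul_nonneg (by linarith) (abs_nonneg _)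
  have hm2 : 0 ≤ m2 := mul_nonneg (by linarith) (abs_nonneg _)
  have hT1 : 0 ≤ T1 := mul_nonneg (sq_nonneg _) (dens_nonneg hs x)
  have hT2 : 0 ≤ T2 := mul_nonneg (sq_nonneg _) (mul_nonneg hd0.1 hd0.2)
  have hT3 : 0 ≤ T3 := mul_nonneg (norm_nonneg _) (mul_nonneg hd0.2 hu.le)
  have hT4 : 0 ≤ T4 := mul_nonneg (norm_nonneg _) (mul_nonneg hd0.1 hv.le)
  have hK : ((n : ℝ) + 3 + ((n : ℝ) - 2) * (|μ| + |1 - μ|)) = (n : ℝ) + 3 + m1 + m2 := by ring
  rw [hK, flux]
  obtain ⟨a1, b1⟩ := abs_le.1 h1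
  obtain ⟨a2, b2⟩ := abs_le.1 h2
  obtain ⟨a3, b3⟩ := abs_le.1 h3
  obtain ⟨a4, b4⟩ := abs_le.1 h4'
  obtain ⟨a5, b5⟩ := abs_le.1 h5'
  rw [abs_le]
  constructor <;> nlinarith [mul_nonneg hm1 hT1, mul_nonneg hm1 hT2, mul_nonneg hm1 hT4,
    mul_nonneg hm2 hT1, mul_nonneg hm2 hT2, mul_nonneg hm2 hT3]

theorem continuousAt_flux {A B p q μ : ℝ} (hp : 0 < p) (hq : 0 < q) {u v : E n → ℝ}
    (hs : Sol A B p q u v) {x : E n} (hx : x ≠ 0) : ContinuousAt (flux A B p q μ u v) x := by
  have hD : ∀ {w : E n → ℝ}, Super w → ContinuousAt (fderiv ℝ w) x := fun hw =>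
    ((hw.at' hx).fderiv_right (m := 1) (by norm_num)).continuousAt
  have hr : ∀ {w : E n → ℝ}, Super w → ContinuousAt (rad w) x := fun hw =>
    (hD hw).clm_apply continuousAt_id
  have hpot : ∀ {w : E n → ℝ} (D r : ℝ), Super w → ContinuousAt (pot D r w) x := fun D r hw =>
    ((continuous_norm.continuousAt.rpow_const (Or.inl (norm_ne_zero_iff.2 hx))).mul
      (hw.cont.continuousAt.rpow_const (Or.inl (hw.pos x).ne'))).div_const _
  have hdd : ContinuousAt (dd u v) x := tendsto_finsetSum _ fun i _ =>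
    ((hD hs.hu).clm_apply continuousAt_const).mul ((hD hs.hv).clm_apply continuousAt_const)
  have hn2 : ContinuousAt (fun z : E n => ‖z‖ ^ 2) x := (continuous_norm.pow 2).continuousAt
  exact ((((hn2.mul ((hpot B q hs.hu).add (hpot A p hs.hv))).neg.sub
    (continuousAt_const.mul ((hr hs.hu).mul (hr hs.hv)))).add (hn2.mul hdd)).sub
    (continuousAt_const.mul (hs.hu.cont.continuousAt.mul (hr hs.hv)))).sub
    (continuousAt_const.mul (hs.hv.cont.continuousAt.mul (hr hs.hu)))

theorem continuousAt_bdy {A B p q : ℝ} {u v : E n → ℝ}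
    (hs : Sol A B p q u v) {x : E n} (hx : x ≠ 0) : ContinuousAt (bdy A B p q u v) x := by
  have hD : ∀ {w : E n → ℝ}, Super w → ContinuousAt (dn w) x := fun hw =>
    ((hw.at' hx).fderiv_right (m := 1) (by norm_num)).continuousAt.norm
  have hsrc : ∀ {w : E n → ℝ} (D r : ℝ), Super w → ContinuousAt (src D r w) x := fun D r hw =>
    (continuous_norm.continuousAt.rpow_const (Or.inl (norm_ne_zero_iff.2 hx))).mul
      (hw.cont.continuousAt.rpow_const (Or.inl (hw.pos x).ne'))
  exact (((((hsrc A p hs.hv).mul hs.hv.cont.continuousAt).add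
    ((hsrc B q hs.hu).mul hs.hu.cont.continuousAt)).add ((hD hs.hu).mul (hD hs.hv))).add
    ((hD hs.hu).mul hs.hv.cont.continuousAt)).add ((hD hs.hv).mul hs.hu.cont.continuousAt)

theorem bdy_nonneg {A B p q : ℝ} {u v : E n → ℝ} (hs : Sol A B p q u v) (x : E n) :
    0 ≤ bdy A B p q u v x := by
  have h1 := hs.hu.pos x
  have h2 := hs.hv.pos x
  have h3 := dens_nonneg hs x
  simp only [bdy, dn]
  positivity

/-- Near the origin the flux is bounded. -/
theorem flux_zero (hn : 3 ≤ n) {A B p q μ : ℝ} (hA : -2 < A) (hB : -2 < B) (hp : 0 < p)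
    (hq : 0 < q) {u v : E n → ℝ} (hs : Sol A B p q u v) :
    ∃ F, 0 ≤ F ∧ ∀ x : E n, x ≠ 0 → ‖x‖ ≤ 1 / 2 → |flux A B p q μ u v x| ≤ F := by
  obtain ⟨Cu, hCu, hlu⟩ := lap_bound hp hs.hv hs.eu
  obtain ⟨Cv, hCv, hlv⟩ := lap_bound hq hs.hu hs.ev
  obtain ⟨Ku, hKu, hdu⟩ := dn_zero hs.hu hA hCu hlu
  obtain ⟨Kv, hKv, hdv⟩ := dn_zero hs.hv hB hCv hlv
  obtain ⟨Mu, hMu⟩ := (isCompact_closedBall (0 : E n) 1).exists_bound_of_continuousOn
    hs.hu.cont.continuousOn
  obtain ⟨Mv, hMv⟩ := (isCompact_closedBall (0 : E n) 1).exists_bound_of_continuousOn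
    hs.hv.cont.continuousOn
  have hMu0 : 0 ≤ Mu := (norm_nonneg _).trans (hMu 0 (by simp))
  have hMv0 : 0 ≤ Mv := (norm_nonneg _).trans (hMv 0 (by simp))
  have hn' : (3 : ℝ) ≤ n := by exact_mod_cast hn
  set K := (n : ℝ) + 3 + ((n : ℝ) - 2) * (|μ| + |1 - μ|)
  have hK : 0 ≤ K := by
    have : 0 ≤ ((n : ℝ) - 2) * (|μ| + |1 - μ|) := mul_nonneg (by linarith) (by positivity)
    linarith
  refine ⟨K * (Mv ^ p * Mv + Mu ^ q * Mu + Ku * Kv + Kv * Mu + Ku * Mv), by positivity,
    fun x hx hx1 => (abs_flux_le hn hp hq hs x).trans (mul_le_mul_of_nonneg_left ?_ hK)⟩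
  have hx0 := norm_pos_iff.2 hx
  have hux : u x ≤ Mu :=
    (le_abs_self _).trans (hMu x (mem_closedBall_zero_iff.2 (by linarith)))
  have hvx : v x ≤ Mv :=
    (le_abs_self _).trans (hMv x (mem_closedBall_zero_iff.2 (by linarith)))
  have hu0 := hs.hu.pos x
  have hv0 := hs.hv.pos x
  have hpow : ∀ D : ℝ, -2 < D → ‖x‖ ^ 2 * ‖x‖ ^ D ≤ 1 := fun D hD => by
    rw [← Real.rpow_natCast ‖x‖ 2, ← Real.rpow_add hx0]
    exact Real.rpow_le_one hx0.le (by linarith) (by push_cast; linarith)
  have h1 : ‖x‖ ^ 2 * dens A B p q u v x ≤ Mv ^ p * Mv + Mu ^ q * Mu := by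
    have a1 : ‖x‖ ^ 2 * ‖x‖ ^ A * (v x ^ p * v x) ≤ 1 * (Mv ^ p * Mv) :=
      mul_le_mul (hpow A hA) (mul_le_mul (Real.rpow_le_rpow hv0.le hvx hp.le) hvx hv0.le
        (by positivity)) (by positivity) zero_le_one
    have a2 : ‖x‖ ^ 2 * ‖x‖ ^ B * (u x ^ q * u x) ≤ 1 * (Mu ^ q * Mu) :=
      mul_le_mul (hpow B hB) (mul_le_mul (Real.rpow_le_rpow hu0.le hux hq.le) hux hu0.le
        (by positivity)) (by positivity) zero_le_one
    simp only [dens, src]
    linarith
  have h2 : ‖x‖ ^ 2 * (dn u x * dn v x) ≤ Ku * Kv := by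
    calc ‖x‖ ^ 2 * (dn u x * dn v x) = (‖x‖ * dn u x) * (‖x‖ * dn v x) := by ring
      _ ≤ Ku * Kv := mul_le_mul (hdu x hx hx1) (hdv x hx hx1)
          (mul_nonneg hx0.le (norm_nonneg _)) hKu
  have h3 : ‖x‖ * (dn v x * u x) ≤ Kv * Mu := by
    rw [← mul_assoc]; exact mul_le_mul (hdv x hx hx1) hux hu0.le hKv
  have h4 : ‖x‖ * (dn u x * v x) ≤ Ku * Mv := by
    rw [← mul_assoc]; exact mul_le_mul (hdu x hx hx1) hvx hv0.le hKu
  linarith

/-- A radial ramp from `1` on `Q ≤ R1` to `0` on `R2 ≤ Q`. -/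
structure Ramp (R1 R2 : ℝ) (ω ω' : ℝ → ℝ) : Prop where
  der : ∀ t, HasDerivAt ω (ω' t) t
  cont : Continuous ω
  cont' : Continuous ω'
  one : ∀ t, t ≤ R1 → ω t = 1
  zero : ∀ t, R2 ≤ t → ω t = 0
  out : ∀ t, t ∉ Icc R1 R2 → ω' t = 0
  neg : ∀ t, ω' t ≤ 0
  le1 : ∀ t, ω t ≤ 1
  ge0 : ∀ t, 0 ≤ ω t

/-- The outer boundary integrand. -/
def outB (A B p q : ℝ) (ω' : ℝ → ℝ) (u v : E n → ℝ) (x : E n) : ℝ :=
  -(2 * ω' (‖x‖ ^ 2)) * ‖x‖ * bdy A B p q u v x

theorem outer_le (hn : 3 ≤ n) {A B p q : ℝ} {u v : E n → ℝ} (hs : Sol A B p q u v) {r h S : ℝ}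
    (hr1 : 1 ≤ r) (hr2 : r ≤ 2) (hh : 0 < h) (hh1 : h ≤ 1) {ω ω' : ℝ → ℝ}
    (hω : Ramp (r ^ 2) ((r + h) ^ 2) ω ω')
    (hS : ∀ t ∈ Icc r (r + h), sphInt (bdy A B p q u v) t ≤ S) :
    Integrable (outB A B p q ω' u v : E n → ℝ) ∧
      ∫ x : E n, outB A B p q ω' u v x ≤ 3 ^ (n - 1) * S := by
  obtain ⟨hωd, hωc, hω'c, hω1, hω0, hω'0, hω'neg, -, -⟩ := hω
  set R1 := r ^ 2
  set R2 := (r + h) ^ 2
  have hR1 : 1 ≤ R1 := one_le_pow₀ hr1
  -- the outer integrand
  set b : E n → ℝ := outB A B p q ω' u v with hb'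
  have hb : b = fun x : E n => -(2 * ω' (‖x‖ ^ 2)) * ‖x‖ * bdy A B p q u v x := rfl
  have hbi : Integrable b := by
    refine Continuous.integrable_of_hasCompactSupport ?_
      (HasCompactSupport.intro (isCompact_ann (n := n) R1 R2) fun x hx => by
        simp [hb, hω'0 _ hx])
    refine continuous_iff_continuousAt.2 fun x => ?_
    rcases eq_or_ne x 0 with rfl | hx
    · refine (continuousAt_const (y := (0 : ℝ))).congr ?_
      filter_upwards [(isCompact_ann (n := n) R1 R2).isClosed.isOpen_compl.mem_nhds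
        (fun h0 => ann_ne_zero (by linarith : (0 : ℝ) < R1) h0 rfl)] with z hz
      simp [hb, hω'0 _ hz]
    · exact ((continuousAt_const.mul (hω'c.comp (continuous_norm.pow 2)).continuousAt).neg.mul
        continuous_norm.continuousAt).mul (continuousAt_bdy hs hx)
  refine ⟨hbi, ?_⟩
  rw [integral_polar' (by omega) b hbi]
  have hS0 : 0 ≤ S := le_trans (integral_nonneg fun θ => bdy_nonneg hs _)
    (hS r ⟨le_rfl, by linarith⟩)
  set k : ℝ → ℝ := fun t => -(2 * t * ω' (t ^ 2)) with hk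
  have hsph : ∀ t ∈ Ioi (0 : ℝ), sphInt b t = k t * sphInt (bdy A B p q u v) t := by
    intro t ht
    rw [sphInt, sphInt, ← integral_const_mul]
    refine integral_congr_ae (Eventually.of_forall fun θ => ?_)
    have hn1 : ‖t • (θ : E n)‖ = t := by
      rw [norm_smul, norm_eq_of_mem_sphere θ, mul_one, Real.norm_eq_abs, abs_of_pos ht]
    simp only [hb, hk, hn1]
    ring
  have hk0 : ∀ t, 0 < t → t ∉ Icc r (r + h) → k t = 0 := fun t ht htI => by
    rw [hk]
    simp only
    rw [hω'0, mul_zero, neg_zero]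
    rintro ⟨a1, a2⟩
    exact htI ⟨(pow_le_pow_iff_left₀ (by linarith) ht.le two_ne_zero).1 a1,
      (pow_le_pow_iff_left₀ ht.le (by linarith) two_ne_zero).1 a2⟩
  rw [setIntegral_congr_fun measurableSet_Ioi (g := fun t => t ^ (n - 1) *
    (k t * sphInt (bdy A B p q u v) t)) fun t ht => by simp only; rw [hsph t ht],
    setIntegral_eq_of_subset_of_forall_sdiff_eq_zero measurableSet_Ioi
      (show Icc r (r + h) ⊆ Ioi 0 from fun t ht => by
        have := ht.1; exact lt_of_lt_of_le (by linarith) this)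
      fun t ht => by simp [hk0 t ht.1 ht.2]]
  have hkc : Continuous k := by rw [hk]; fun_prop
  have hsc : ContinuousOn (sphInt (bdy A B p q u v)) (Icc r (r + h)) :=
    (continuousOn_sphInt fun x hx => continuousAt_bdy hs hx).mono fun t ht =>
      lt_of_lt_of_le (by linarith) ht.1
  have h2 : IntegrableOn (fun t => 3 ^ (n - 1) * S * k t) (Icc r (r + h)) :=
    (hkc.const_mul _).continuousOn.integrableOn_compact isCompact_Icc
  refine (setIntegral_mono_on
    (((continuous_pow (n - 1)).continuousOn.mul (hkc.continuousOn.mul hsc)).integrableOn_compact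
      isCompact_Icc) h2 measurableSet_Icc fun t ht => ?_).trans ?_
  · have hk' : 0 ≤ k t := by
      have := mul_nonpos_of_nonneg_of_nonpos
        (show (0 : ℝ) ≤ 2 * t by linarith [ht.1]) (hω'neg (t ^ 2))
      simp only [hk]
      linarith
    have ht3 : t ^ (n - 1) ≤ (3 : ℝ) ^ (n - 1) :=
      pow_le_pow_left₀ (by linarith [ht.1]) (by linarith [ht.2]) _
    calc t ^ (n - 1) * (k t * sphInt (bdy A B p q u v) t)
        ≤ 3 ^ (n - 1) * (k t * S) := mul_le_mul ht3 (mul_le_mul_of_nonneg_left (hS t ht) hk')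
          (mul_nonneg hk' (integral_nonneg fun θ => bdy_nonneg hs _)) (by positivity)
      _ = 3 ^ (n - 1) * S * k t := by ring
  · rw [integral_const_mul, integral_Icc_eq_integral_Ioc,
      ← intervalIntegral.integral_of_le (by linarith)]
    have hder : ∀ t ∈ uIcc r (r + h), HasDerivAt (fun t => -ω (t ^ 2)) (k t) t := fun t _ => by
      refine (((hωd (t ^ 2)).comp t (hasDerivAt_pow 2 t)).neg).congr_deriv ?_
      simp only [hk]
      norm_num
      ring
    rw [intervalIntegral.integral_eq_sub_of_hasDerivAt hder (hkc.intervalIntegrable _ _),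
      hω1 _ le_rfl, hω0 _ le_rfl]
    simp
theorem cutoff_step (hn : 3 ≤ n) {A B p q μ δ F K0 : ℝ} (hp : 0 < p) (hq : 0 < q)
    (hμ1 : (n : ℝ) + B - ((n : ℝ) - 2) * μ * (q + 1) = δ * (q + 1))
    (hμ2 : (n : ℝ) + A - ((n : ℝ) - 2) * (1 - μ) * (p + 1) = δ * (p + 1))
    {u v : E n → ℝ} (hs : Sol A B p q u v) (hF : 0 ≤ F)
    (hFx : ∀ x : E n, x ≠ 0 → ‖x‖ ≤ 1 / 2 → |flux A B p q μ u v x| ≤ F)
    (hK0 : 0 ≤ K0) (hK0' : ∀ t, |deriv Real.smoothTransition t| ≤ K0)
    {R1 R2 : ℝ} (hR1 : 1 ≤ R1) (hR2 : R2 ≤ 9) {ω ω' : ℝ → ℝ} (hω : Ramp R1 R2 ω ω')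
    (hbi : Integrable (outB A B p q ω' u v : E n → ℝ)) {e : ℝ} (hem : 0 < e) (he4 : e ≤ 1 / 4) :
    δ * ∫ x : E n, Real.smoothTransition ((e ^ 2)⁻¹ * ‖x‖ ^ 2 + (-1)) * ω (‖x‖ ^ 2) *
        dens A B p q u v x ≤
      4 * ((n : ℝ) + 3 + ((n : ℝ) - 2) * (|μ| + |1 - μ|)) * (∫ x, outB A B p q ω' u v x) +
        2 * K0 * F * (2 ^ n * volume.real (Metric.closedBall (0 : E n) 1)) * e ^ (n - 2) := by
  obtain ⟨hωd, hωc, hω'c, hω1, hω0, hω'0, hω'neg, hωle, hωge⟩ := hω
  have hn' : (3 : ℝ) ≤ n := by exact_mod_cast hn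
  set K := (n : ℝ) + 3 + ((n : ℝ) - 2) * (|μ| + |1 - μ|)
  have hK : 0 ≤ K := by
    have : 0 ≤ ((n : ℝ) - 2) * (|μ| + |1 - μ|) := mul_nonneg (by linarith) (by positivity)
    linarith
  have hdc : Continuous (deriv Real.smoothTransition) :=
    (Real.smoothTransition.contDiff (n := 1)).continuous_deriv le_rfl
  set vol := volume.real (Metric.closedBall (0 : E n) 1)
  set b : E n → ℝ := outB A B p q ω' u v with hb'
  have hb : b = fun x : E n => -(2 * ω' (‖x‖ ^ 2)) * ‖x‖ * bdy A B p q u v x := rfl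
  set χ : ℝ → ℝ := fun t => Real.smoothTransition ((e ^ 2)⁻¹ * t + (-1)) with hχ
  set χ' : ℝ → ℝ :=
    fun t => deriv Real.smoothTransition ((e ^ 2)⁻¹ * t + (-1)) * (e ^ 2)⁻¹ with hχ'
  have hχd : ∀ t, HasDerivAt χ (χ' t) t := hasDerivAt_trans_lin _ _
  change δ * ∫ x : E n, χ (‖x‖ ^ 2) * ω (‖x‖ ^ 2) * dens A B p q u v x ≤ _
  have he2 : 0 < e ^ 2 := by positivity
  have hχ0 : ∀ t, t ≤ e ^ 2 → χ t = 0 := fun t ht => by
    refine Real.smoothTransition.zero_of_nonpos ?_
    have : (e ^ 2)⁻¹ * t ≤ 1 := by rw [inv_mul_le_iff₀ he2]; linarith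
    linarith
  have hχ'0 : ∀ t, t ∉ Icc (e ^ 2) (2 * e ^ 2) → χ' t = 0 := fun t ht => by
    simp only [hχ']
    rw [deriv_trans_out, zero_mul]
    contrapose! ht
    obtain ⟨a1, a2⟩ := ht
    have a1' : 1 ≤ (e ^ 2)⁻¹ * t := by linarith
    have a2' : (e ^ 2)⁻¹ * t ≤ 2 := by linarith
    rw [le_inv_mul_iff₀ he2] at a1'
    rw [inv_mul_le_iff₀ he2] at a2'
    exact ⟨by linarith, by linarith⟩
  have h2e : 2 * e ^ 2 ≤ 1 / 8 := by
    have := pow_le_pow_left₀ hem.le he4 2
    linarith
  have hid := identity (μ := μ) (δ := δ) hp hq hμ1 hμ2 hs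
    (β := fun t => χ t * ω t) (β' := fun t => χ' t * ω t + χ t * ω' t)
    (fun t => (hχd t).mul (hωd t))
    (((hdc.comp (by fun_prop)).mul continuous_const).mul hωc |>.add
      ((Real.smoothTransition.continuous.comp (by fun_prop)).mul hω'c))
    (a := e ^ 2) (b := R2) he2
    (fun t ht => by
      rw [mem_Icc, not_and_or, not_le, not_le] at ht
      rcases ht with ht | ht
      · simp [hχ0 t ht.le]
      · simp [hω0 t ht.le])
    (fun t ht => by
      rw [mem_Icc, not_and_or, not_le, not_le] at ht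
      rcases ht with ht | ht
      · simp [hχ0 t ht.le, hχ'0 t (fun hc => by linarith [hc.1])]
      · simp [hω'0 t (fun hc => by linarith [hc.2]), hω0 t ht.le])
  rw [hid]
  set S2 := Metric.closedBall (0 : E n) (2 * e)
  set c := 2 * (K0 * (e ^ 2)⁻¹) * F
  have hc : 0 ≤ c := by positivity
  have hS2i : Integrable (S2.indicator fun _ => c) :=
    (integrableOn_const (hs := measure_closedBall_lt_top.ne)).integrable_indicator
      measurableSet_closedBall
  have hptw : ∀ x : E n, 2 * (χ' (‖x‖ ^ 2) * ω (‖x‖ ^ 2) + χ (‖x‖ ^ 2) * ω' (‖x‖ ^ 2)) *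
      flux A B p q μ u v x ≤ 4 * K * b x + S2.indicator (fun _ => c) x := by
    intro x
    set Q := ‖x‖ ^ 2
    have hχ1 : χ Q ≤ 1 ∧ 0 ≤ χ Q :=
      ⟨Real.smoothTransition.le_one _, Real.smoothTransition.nonneg _⟩
    have hω1' : ω Q ≤ 1 ∧ 0 ≤ ω Q := ⟨hωle Q, hωge Q⟩
    have hb0 : 0 ≤ b x := mul_nonneg (mul_nonneg (by linarith [hω'neg Q]) (norm_nonneg _))
      (bdy_nonneg hs x)
    have t1 : 2 * (χ' Q * ω Q) * flux A B p q μ u v x ≤ S2.indicator (fun _ => c) x := by
      by_cases hQ : Q ∈ Icc (e ^ 2) (2 * e ^ 2)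
      · have hn0 : x ≠ 0 := ne_of_le_sq he2 hQ.1
        have hn2 : ‖x‖ ≤ 2 * e :=
          (pow_le_pow_iff_left₀ (norm_nonneg x) (by positivity) two_ne_zero).1
            (by nlinarith [hQ.2])
        rw [indicator_of_mem (mem_closedBall_zero_iff.2 hn2)]
        refine (le_abs_self _).trans ?_
        rw [abs_mul, abs_mul, abs_two, abs_mul, abs_of_nonneg hω1'.2]
        have hd : |χ' Q| ≤ K0 * (e ^ 2)⁻¹ := by
          simp only [hχ']
          rw [abs_mul, abs_of_nonneg (inv_nonneg.2 he2.le)]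
          exact mul_le_mul_of_nonneg_right (hK0' _) (by positivity)
        have hf := hFx x hn0 (by linarith [he4])
        calc 2 * (|χ' Q| * ω Q) * |flux A B p q μ u v x|
            ≤ 2 * (K0 * (e ^ 2)⁻¹ * 1) * F := by
              refine mul_le_mul (mul_le_mul_of_nonneg_left (mul_le_mul hd hω1'.1 hω1'.2
                (by positivity)) zero_le_two) hf (abs_nonneg _) (by positivity)
          _ = c := by simp only [c]; ring
      · rw [hχ'0 Q hQ]
        simp only [zero_mul, mul_zero]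
        exact indicator_nonneg (fun _ _ => hc) x
    have t2 : 2 * (χ Q * ω' Q) * flux A B p q μ u v x ≤ 4 * K * b x := by
      by_cases hQ : Q ∈ Icc R1 R2
      · have hn3 : ‖x‖ ≤ 3 :=
          (pow_le_pow_iff_left₀ (norm_nonneg x) (by norm_num) two_ne_zero).1
            (by linarith [hQ.2])
        have hf := abs_flux_le (μ := μ) hn hp hq hs x
        have hT : ‖x‖ ^ 2 * dens A B p q u v x + ‖x‖ ^ 2 * (dn u x * dn v x) +
            ‖x‖ * (dn v x * u x) + ‖x‖ * (dn u x * v x) ≤ 3 * ‖x‖ * bdy A B p q u v x := by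
          have a1 := mul_nonneg (mul_nonneg (norm_nonneg x) (sub_nonneg.2 hn3))
            (add_nonneg (dens_nonneg hs x)
              (mul_nonneg (norm_nonneg (fderiv ℝ u x)) (norm_nonneg (fderiv ℝ v x))))
          have a2 := mul_nonneg (norm_nonneg x)
            (mul_nonneg (norm_nonneg (fderiv ℝ v x)) (hs.hu.pos x).le)
          have a3 := mul_nonneg (norm_nonneg x)
            (mul_nonneg (norm_nonneg (fderiv ℝ u x)) (hs.hv.pos x).le)
          simp only [bdy, dn]
          nlinarith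
        calc 2 * (χ Q * ω' Q) * flux A B p q μ u v x
            ≤ |2 * (χ Q * ω' Q) * flux A B p q μ u v x| := le_abs_self _
          _ = χ Q * (-(2 * ω' Q)) * |flux A B p q μ u v x| := by
              rw [abs_mul, abs_mul, abs_mul, abs_two, abs_of_nonneg hχ1.2,
                abs_of_nonpos (hω'neg Q)]
              ring
          _ ≤ 1 * (-(2 * ω' Q)) * (K * (3 * ‖x‖ * bdy A B p q u v x)) := by
              refine mul_le_mul (mul_le_mul_of_nonneg_right hχ1.1 (by linarith [hω'neg Q]))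
                (hf.trans (mul_le_mul_of_nonneg_left hT hK)) (abs_nonneg _)
                (by linarith [hω'neg Q])
          _ = 3 * K * b x := by simp only [hb]; ring
          _ ≤ 4 * K * b x := by nlinarith [mul_nonneg hK hb0]
      · simp [hb, hω'0 Q hQ, hQ, Q]
    linarith
  have hint : Integrable fun x : E n =>
      2 * (χ' (‖x‖ ^ 2) * ω (‖x‖ ^ 2) + χ (‖x‖ ^ 2) * ω' (‖x‖ ^ 2)) *
        flux A B p q μ u v x := by
    refine Continuous.integrable_of_hasCompactSupport ?_
      (HasCompactSupport.intro (isCompact_ann (n := n) (e ^ 2) R2) fun x hx => ?_)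
    · refine continuous_iff_continuousAt.2 fun x => ?_
      rcases eq_or_ne x 0 with rfl | hx
      · refine (continuousAt_const (y := (0 : ℝ))).congr ?_
        filter_upwards [(isOpen_lt (continuous_norm.pow 2) continuous_const).mem_nhds
          (show (0 : E n) ∈ {z : E n | ‖z‖ ^ 2 < e ^ 2} by simp [he2])] with z hz
        have hz' : ‖z‖ ^ 2 < e ^ 2 := hz
        simp [hχ0 _ hz'.le, hχ'0 (‖z‖ ^ 2) (fun hc => by linarith [hc.1])]
      · exact (continuous_const.mul ((((hdc.comp (by fun_prop)).mul continuous_const).mul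
          (hωc.comp (continuous_norm.pow 2))).add
          ((Real.smoothTransition.continuous.comp (by fun_prop)).mul
            (hω'c.comp (continuous_norm.pow 2))))).continuousAt.mul (continuousAt_flux hp hq hs hx)
    · rw [ann, mem_ofPred_eq, not_and_or, not_le, not_le] at hx
      rcases hx with hx | hx
      · simp [hχ0 _ hx.le, hχ'0 (‖x‖ ^ 2) (fun hc => by linarith [hc.1])]
      · simp [hω0 _ hx.le, hω'0 (‖x‖ ^ 2) (fun hc => by linarith [hc.2])]
  calc ∫ x : E n, 2 * (χ' (‖x‖ ^ 2) * ω (‖x‖ ^ 2) + χ (‖x‖ ^ 2) * ω' (‖x‖ ^ 2)) *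
        flux A B p q μ u v x
      ≤ ∫ x, (4 * K * b x + S2.indicator (fun _ => c) x) :=
        integral_mono hint ((hbi.const_mul _).add hS2i) hptw
    _ = 4 * K * (∫ x, b x) + volume.real S2 * c := by
        rw [integral_add (hbi.const_mul _) hS2i, integral_const_mul,
          integral_indicator_const c measurableSet_closedBall, smul_eq_mul]
    _ = 4 * K * (∫ x, b x) + 2 * K0 * F * (2 ^ n * vol) * e ^ (n - 2) := by
        have : volume.real S2 = (2 * e) ^ n * vol := by
          simp only [vol, S2, Measure.real]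
          rw [Measure.addHaar_closedBall' volume (0 : E n) (by positivity : (0:ℝ) ≤ 2 * e),
            finrank_euclideanSpace_fin, ENNReal.toReal_mul, ENNReal.toReal_ofReal (by positivity)]
        rw [this, mul_pow, show e ^ n = e ^ (n - 2) * e ^ 2 by
          rw [← pow_add]; congr 1; omega]
        simp only [c]
        field_simp

theorem remove_cutoff (hn : 3 ≤ n) {A B p q : ℝ} (hA : -2 < A) (hB : -2 < B) (hp : 0 < p)
    (hq : 0 < q) {u v : E n → ℝ} (hs : Sol A B p q u v) {r h : ℝ} (hr1 : 1 ≤ r) (hr2 : r ≤ 2)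
    (hh : 0 < h) (hh1 : h ≤ 1) {ω ω' : ℝ → ℝ} (hω : Ramp (r ^ 2) ((r + h) ^ 2) ω ω')
    {δ X Y : ℝ} (hδ : 0 < δ) (hstep : ∀ e : ℝ, 0 < e → e ≤ 1 / 4 →
      δ * ∫ x : E n, Real.smoothTransition ((e ^ 2)⁻¹ * ‖x‖ ^ 2 + (-1)) * ω (‖x‖ ^ 2) *
        dens A B p q u v x ≤ X + Y * e ^ (n - 2)) :
    δ * energy A B p q u v r ≤ X := by
  have hn' : (3 : ℝ) ≤ n := by exact_mod_cast hn
  obtain ⟨hωd, hωc, hω'c, hω1, hω0, hω'0, hω'neg, hωle, hωge⟩ := hω
  set R2 := (r + h) ^ 2
  set e : ℕ → ℝ := fun m => 1 / (4 * (m + 1)) with he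
  have he0 : ∀ m, 0 < e m := fun m => by simp only [he]; positivity
  have he4 : ∀ m, e m ≤ 1 / 4 := fun m => by
    simp only [he]
    rw [div_le_div_iff₀ (by positivity) (by norm_num)]
    have : (0 : ℝ) ≤ m := Nat.cast_nonneg m
    linarith
  set χ : ℕ → ℝ → ℝ := fun m t => Real.smoothTransition ((e m ^ 2)⁻¹ * t + (-1)) with hχ
  -- remove the inner cutoff
  have hlim : Tendsto (fun m => ∫ x : E n, χ m (‖x‖ ^ 2) * ω (‖x‖ ^ 2) * dens A B p q u v x)
      atTop (𝓝 (∫ x : E n, ω (‖x‖ ^ 2) * dens A B p q u v x)) := by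
    refine tendsto_integral_of_dominated_convergence
      ((Metric.closedBall (0 : E n) 3).indicator (dens A B p q u v)) (fun m => ?_) ?_ (fun m => ?_) ?_
    · have hm : AEStronglyMeasurable (dens A B p q u v) volume := by
        have hc : ContinuousOn (dens A B p q u v) ({0}ᶜ : Set (E n)) := fun x hx =>
          (((continuous_norm.continuousAt.rpow_const (Or.inl (norm_ne_zero_iff.2 hx))).mul
            (hs.hv.cont.continuousAt.rpow_const (Or.inr hp.le))).mul
            hs.hv.cont.continuousAt).add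
          (((continuous_norm.continuousAt.rpow_const (Or.inl (norm_ne_zero_iff.2 hx))).mul
            (hs.hu.cont.continuousAt.rpow_const (Or.inr hq.le))).mul
            hs.hu.cont.continuousAt) |>.continuousWithinAt
        have : Nonempty (Fin n) := ⟨⟨0, by omega⟩⟩
        have := hc.aestronglyMeasurable (μ := (volume : Measure (E n)))
          (measurableSet_singleton 0).compl
        rwa [restrict_compl_singleton] at this
      exact (((Real.smoothTransition.continuous.comp (by fun_prop)).mul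
        (hωc.comp (continuous_norm.pow 2))).aestronglyMeasurable).mul hm
    · exact (integrableOn_dens (by omega) (by linarith) (by linarith) hp hq hs 3).integrable_indicator
        measurableSet_closedBall
    · refine Eventually.of_forall fun x => ?_
      rw [Real.norm_eq_abs, abs_mul, abs_of_nonneg (dens_nonneg hs x),
        abs_of_nonneg (mul_nonneg (Real.smoothTransition.nonneg _) (hωge _))]
      by_cases hx : x ∈ Metric.closedBall (0 : E n) 3
      · rw [indicator_of_mem hx]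
        exact mul_le_of_le_one_left (dens_nonneg hs x)
          (mul_le_one₀ (Real.smoothTransition.le_one _) (hωge _) (hωle _))
      · rw [mem_closedBall_zero_iff, not_le] at hx
        have h2 : R2 ≤ ‖x‖ ^ 2 := pow_le_pow_left₀ (by linarith) (by linarith) 2
        rw [indicator_of_notMem (by simpa using hx), hω0 _ h2]
        simp
    · have : Nonempty (Fin n) := ⟨⟨0, by omega⟩⟩
      have hae : ∀ᵐ x : E n, x ≠ 0 := by
        rw [ae_iff]; simp
      filter_upwards [hae] with x hx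
      have hQ := sq_pos_of_ne hx
      have het : Tendsto e atTop (𝓝 0) := by
        simp only [he]
        have := (tendsto_one_div_add_atTop_nhds_zero_nat (𝕜 := ℝ)).const_mul (1 / 4 : ℝ)
        rw [mul_zero] at this
        refine this.congr fun m => ?_
        field_simp
      have h2 : Tendsto (fun m => 2 * e m ^ 2) atTop (𝓝 0) := by
        simpa using (het.pow 2).const_mul 2
      refine tendsto_const_nhds.congr' ?_
      filter_upwards [h2.eventually (gt_mem_nhds hQ)] with m hm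
      have : χ m (‖x‖ ^ 2) = 1 := by
        refine Real.smoothTransition.one_of_one_le ?_
        have he2 : 0 < e m ^ 2 := pow_pos (he0 m) 2
        have : 2 ≤ (e m ^ 2)⁻¹ * ‖x‖ ^ 2 := by rw [le_inv_mul_iff₀ he2]; linarith
        linarith
      rw [this, one_mul]
  have hlim2 : Tendsto (fun m => X + Y * e m ^ (n - 2)) atTop (𝓝 X) := by
    have het : Tendsto e atTop (𝓝 0) := by
      simp only [he]
      have := (tendsto_one_div_add_atTop_nhds_zero_nat (𝕜 := ℝ)).const_mul (1 / 4 : ℝ)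
      rw [mul_zero] at this
      refine this.congr fun m => ?_
      field_simp
    simpa [zero_pow (show n - 2 ≠ 0 by omega)] using
      (tendsto_const_nhds (x := X)).add ((het.pow (n - 2)).const_mul Y)
  have hmain := le_of_tendsto_of_tendsto' (hlim.const_mul δ) hlim2
    fun m => hstep (e m) (he0 m) (he4 m)
  have hen : energy A B p q u v r ≤ ∫ x : E n, ω (‖x‖ ^ 2) * dens A B p q u v x := by
    rw [energy, ← integral_indicator measurableSet_closedBall]
    refine integral_mono_of_nonneg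
      (Eventually.of_forall fun x => indicator_nonneg (fun y _ => dens_nonneg hs y) x)
      ?_ (Eventually.of_forall fun x => ?_)
    · have hbd : IntegrableOn (fun x : E n => dens A B p q u v x * ω (‖x‖ ^ 2))
          (Metric.closedBall 0 3) :=
        (integrableOn_dens (by omega) (by linarith) (by linarith) hp hq hs 3).mul_continuousOn
          (hωc.comp (continuous_norm.pow 2)).continuousOn (isCompact_closedBall _ _)
      rw [← integrable_indicator_iff measurableSet_closedBall] at hbd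
      refine hbd.congr (Eventually.of_forall fun x => ?_)
      by_cases hx : x ∈ Metric.closedBall (0 : E n) 3
      · rw [indicator_of_mem hx]; ring
      · rw [mem_closedBall_zero_iff, not_le] at hx
        have h2 : R2 ≤ ‖x‖ ^ 2 := pow_le_pow_left₀ (by linarith) (by linarith) 2
        simp [indicator_of_notMem (by simpa using hx : x ∉ Metric.closedBall (0 : E n) 3), hω0 _ h2]
    · by_cases hx : x ∈ Metric.closedBall (0 : E n) r
      · simp only
        rw [indicator_of_mem hx, hω1 _ (pow_le_pow_left₀ (norm_nonneg x)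
          (mem_closedBall_zero_iff.1 hx) 2), one_mul]
      · rw [indicator_of_notMem hx]
        exact mul_nonneg (hωge _) (dens_nonneg hs x)
  exact (mul_le_mul_of_nonneg_left hen hδ.le).trans hmain

/-- The identity with an outer ramp on `[r, r+h]`, after removing the inner cutoff. -/
theorem with_ramp (hn : 3 ≤ n) {A B p q μ δ : ℝ} (hA : -2 < A) (hB : -2 < B) (hp : 0 < p)
    (hq : 0 < q) (hδ : 0 < δ)
    (hμ1 : (n : ℝ) + B - ((n : ℝ) - 2) * μ * (q + 1) = δ * (q + 1))
    (hμ2 : (n : ℝ) + A - ((n : ℝ) - 2) * (1 - μ) * (p + 1) = δ * (p + 1))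
    {u v : E n → ℝ} (hs : Sol A B p q u v) {r h S : ℝ} (hr : r ∈ Icc (1 : ℝ) 2) (hh : 0 < h)
    (hh1 : h ≤ 1) (hS : ∀ t ∈ Icc r (r + h), sphInt (bdy A B p q u v) t ≤ S) :
    δ * energy A B p q u v r ≤
      4 * 3 ^ (n - 1) * ((n : ℝ) + 3 + ((n : ℝ) - 2) * (|μ| + |1 - μ|)) * S := by
  obtain ⟨K0, hK0, hK0'⟩ := exists_trans_bound
  obtain ⟨F, hF, hFx⟩ := flux_zero (μ := μ) hn hA hB hp hq hs
  have hn' : (3 : ℝ) ≤ n := by exact_mod_cast hn
  set K := (n : ℝ) + 3 + ((n : ℝ) - 2) * (|μ| + |1 - μ|)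
  have hK : 0 ≤ K := by
    have : 0 ≤ ((n : ℝ) - 2) * (|μ| + |1 - μ|) := mul_nonneg (by linarith) (by positivity)
    linarith
  obtain ⟨hr1, hr2⟩ := hr
  set R1 := r ^ 2
  set R2 := (r + h) ^ 2
  have hR12 : R1 < R2 := pow_lt_pow_left₀ (by linarith) (by linarith) two_ne_zero
  have hR1 : 1 ≤ R1 := one_le_pow₀ hr1
  -- outer ramp
  set c2 := -(R2 - R1)⁻¹ with hc2
  set d2 := R2 / (R2 - R1) with hd2
  set ω : ℝ → ℝ := fun t => Real.smoothTransition (c2 * t + d2) with hω
  set ω' : ℝ → ℝ := fun t => deriv Real.smoothTransition (c2 * t + d2) * c2 with hω'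
  have hωd : ∀ t, HasDerivAt ω (ω' t) t := hasDerivAt_trans_lin c2 d2
  have hlin : ∀ t, c2 * t + d2 = (R2 - t) / (R2 - R1) := fun t => by rw [hc2, hd2]; ring
  have hdc : Continuous (deriv Real.smoothTransition) :=
    (Real.smoothTransition.contDiff (n := 1)).continuous_deriv le_rfl
  have hω'c : Continuous ω' := by rw [hω']; fun_prop
  have hωc : Continuous ω := Real.smoothTransition.continuous.comp (by fun_prop)
  have hω1 : ∀ t, t ≤ R1 → ω t = 1 := fun t ht => by
    refine Real.smoothTransition.one_of_one_le ?_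
    rw [hlin, le_div_iff₀ (by linarith)]; linarith
  have hω0 : ∀ t, R2 ≤ t → ω t = 0 := fun t ht => by
    refine Real.smoothTransition.zero_of_nonpos ?_
    rw [hlin]
    exact div_nonpos_of_nonpos_of_nonneg (by linarith) (by linarith)
  have hω'0 : ∀ t, t ∉ Icc R1 R2 → ω' t = 0 := fun t ht => by
    simp only [hω']
    rw [deriv_trans_out, zero_mul]
    rw [hlin]
    contrapose! ht
    obtain ⟨a1, a2⟩ := ht
    rw [le_div_iff₀ (by linarith)] at a1
    rw [div_le_iff₀ (by linarith)] at a2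
    exact ⟨by linarith, by linarith⟩
  have hω'neg : ∀ t, ω' t ≤ 0 := fun t => mul_nonpos_of_nonneg_of_nonpos
    Real.smoothTransition.monotone.deriv_nonneg (by
      have : 0 < (R2 - R1)⁻¹ := by
        have : 0 < R2 - R1 := by linarith
        positivity
      linarith)
  have hR : Ramp R1 R2 ω ω' := ⟨hωd, hωc, hω'c, hω1, hω0, hω'0, hω'neg,
    fun t => Real.smoothTransition.le_one _, fun t => Real.smoothTransition.nonneg _⟩
  obtain ⟨hbi, houter⟩ := outer_le hn hs hr1 hr2 hh hh1 hR hS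
  have hR2 : R2 ≤ 9 := by
    have := pow_le_pow_left₀ (show (0 : ℝ) ≤ r + h by linarith) (show r + h ≤ 3 by linarith) 2
    norm_num at this ⊢
    exact this
  refine (remove_cutoff hn hA hB hp hq hs hr1 hr2 hh hh1 hR hδ fun e he0 he4 =>
    cutoff_step hn hp hq hμ1 hμ2 hs hF hFx hK0 hK0' hR1 hR2 hR hbi he0 he4).trans ?_
  refine (mul_le_mul_of_nonneg_left houter (by positivity)).trans_eq ?_
  ring

end Vale.Agent.P100E.Poho

namespace Vale.Agent.P100E

open Filter Topology Set MeasureTheory Vale.Agent.P100H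

/-- Module P. -/
theorem pohozaevBound {n : ℕ} (hn : 3 ≤ n) : PohozaevBound n := by
  intro A B p q hA hB hp hq hsub
  have hn' : (3 : ℝ) ≤ n := by exact_mod_cast hn
  set δ := (((n : ℝ) + A) / (p + 1) + ((n : ℝ) + B) / (q + 1) - ((n : ℝ) - 2)) / 2 with hδd
  have hδ : 0 < δ := by rw [hδd]; linarith
  set μ := (((n : ℝ) + B) / (q + 1) - δ) / ((n : ℝ) - 2) with hμd
  have hnm : (n : ℝ) - 2 ≠ 0 := by linarith
  have hμ1 : (n : ℝ) + B - ((n : ℝ) - 2) * μ * (q + 1) = δ * (q + 1) := by
    rw [hμd]; field_simp; ring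
  have hμ2 : (n : ℝ) + A - ((n : ℝ) - 2) * (1 - μ) * (p + 1) = δ * (p + 1) := by
    rw [hμd, hδd]; field_simp; ring
  set C := 4 * 3 ^ (n - 1) * ((n : ℝ) + 3 + ((n : ℝ) - 2) * (|μ| + |1 - μ|)) with hC
  have hC0 : 0 ≤ C := by
    have : 0 ≤ ((n : ℝ) - 2) * (|μ| + |1 - μ|) := mul_nonneg (by linarith) (by positivity)
    rw [hC]; positivity
  refine ⟨C / δ, by positivity, fun u v hs => ⟨fun r =>
    Poho.integrableOn_dens (by omega) (by linarith) (by linarith) hp hq hs r, fun r hr => ?_⟩⟩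
  rw [div_mul_eq_mul_div, le_div_iff₀ hδ, mul_comm]
  refine le_of_forall_pos_le_add fun η hη => ?_
  have hc := (Poho.continuousOn_sphInt (g := bdy A B p q u v)
    fun x hx => Poho.continuousAt_bdy hs hx).continuousAt
    (Ioi_mem_nhds (show (0 : ℝ) < r by linarith [hr.1]))
  obtain ⟨d, hd, hd'⟩ := Metric.continuousAt_iff.1 hc (η / (C + 1)) (by positivity)
  have h := Poho.with_ramp hn hA hB hp hq hδ hμ1 hμ2 hs hr
    (show 0 < min (d / 2) 1 by positivity) (min_le_right _ _)
    (S := sphInt (bdy A B p q u v) r + η / (C + 1)) fun t ht => by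
      have := hd' (x := t) (by
        rw [Real.dist_eq, abs_of_nonneg (by linarith [ht.1])]
        linarith [ht.2, min_le_left (d / 2) 1])
      rw [Real.dist_eq, abs_lt] at this
      linarith [this.2]
  refine h.trans ?_
  rw [← hC, mul_add]
  have : C * (η / (C + 1)) ≤ η := by
    rw [mul_div_assoc', div_le_iff₀ (by positivity)]
    nlinarith
  linarith

end Vale.Agent.P100E
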