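import Vale.Agent.P100E.Apriori

/-!
# P100 energy method: spheres — continuity, Hölder, radial Markov inequality
-/

noncomputable section

namespace Vale.Agent.P100E

open MeasureTheory Set Filter Topology Vale.Agent.P100H Metric

variable {n : ℕ}

theorem smul_sphere_ne {r : ℝ} (hr : 0 < r) (θ : sphere (0 : E n) 1) : r • θ.1 ≠ 0 := by
  refine smul_ne_zero hr.ne' fun h => ?_
  have := θ.2
  rw [h] at this
  simp at this

theorem norm_smul_sphere {r : ℝ} (hr : 0 ≤ r) (θ : sphere (0 : E n) 1) : ‖r • θ.1‖ = r := by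
  rw [norm_smul, Real.norm_eq_abs, abs_of_nonneg hr, mem_sphere_zero_iff_norm.1 θ.2, mul_one]

theorem continuous_sphere_fun {g : E n → ℝ} (hg : ∀ x, x ≠ 0 → ContinuousAt g x) {r : ℝ}
    (hr : 0 < r) : Continuous fun θ : sphere (0 : E n) 1 => g (r • θ.1) :=
  continuous_iff_continuousAt.2 fun θ => ContinuousAt.comp (g := g)
    (hg _ (smul_sphere_ne hr θ)) (by fun_prop)

theorem integrable_sphere {f : sphere (0 : E n) 1 → ℝ} (hf : Continuous f) :
    Integrable f (volume : Measure (E n)).toSphere :=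
  hf.integrable_of_hasCompactSupport (HasCompactSupport.of_compactSpace f)

theorem memLp_sphere {f : sphere (0 : E n) 1 → ℝ} (hf : Continuous f) (p : ℝ) :
    MemLp f (ENNReal.ofReal p) (volume : Measure (E n)).toSphere :=
  hf.memLp_of_hasCompactSupport (HasCompactSupport.of_compactSpace f)

theorem sphInt_nonneg {g : E n → ℝ} (hg : ∀ x, x ≠ 0 → 0 ≤ g x) {r : ℝ} (hr : 0 < r) :
    0 ≤ sphInt g r :=
  integral_nonneg fun θ => hg _ (smul_sphere_ne hr θ)

theorem sN_nonneg (s : ℝ) (g : E n → ℝ) (r : ℝ) : 0 ≤ sN s g r :=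
  Real.rpow_nonneg (integral_nonneg fun _ => Real.rpow_nonneg (abs_nonneg _) _) _

theorem sphInt_add {f g : E n → ℝ} (hf : ∀ x, x ≠ 0 → ContinuousAt f x)
    (hg : ∀ x, x ≠ 0 → ContinuousAt g x) {r : ℝ} (hr : 0 < r) :
    sphInt (fun x => f x + g x) r = sphInt f r + sphInt g r :=
  integral_add (integrable_sphere (continuous_sphere_fun hf hr))
    (integrable_sphere (continuous_sphere_fun hg hr))

/-- Hölder's inequality on a sphere, exponents `1/a` and `1/b`. -/
theorem sphInt_holder {f g : E n → ℝ} (hf : ∀ x, x ≠ 0 → ContinuousAt f x)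
    (hg : ∀ x, x ≠ 0 → ContinuousAt g x) (hf0 : ∀ x, x ≠ 0 → 0 ≤ f x)
    (hg0 : ∀ x, x ≠ 0 → 0 ≤ g x) {s t : ℝ} (hst : s.HolderConjugate t) {r : ℝ} (hr : 0 < r) :
    sphInt (fun x => f x * g x) r ≤ sN s f r * sN t g r := by
  have h := integral_mul_le_Lp_mul_Lq_of_nonneg (μ := (volume : Measure (E n)).toSphere) hst
    (f := fun θ => f (r • θ.1)) (g := fun θ => g (r • θ.1))
    (Eventually.of_forall fun θ => hf0 _ (smul_sphere_ne hr θ))
    (Eventually.of_forall fun θ => hg0 _ (smul_sphere_ne hr θ))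
    (memLp_sphere (continuous_sphere_fun hf hr) s) (memLp_sphere (continuous_sphere_fun hg hr) t)
  refine h.trans (le_of_eq ?_)
  unfold sN sphInt
  rw [one_div, one_div]
  congr 2
  · exact integral_congr_ae (Eventually.of_forall fun θ => by
      simp only [abs_of_nonneg (hf0 _ (smul_sphere_ne hr θ))])
  · exact integral_congr_ae (Eventually.of_forall fun θ => by
      simp only [abs_of_nonneg (hg0 _ (smul_sphere_ne hr θ))])

theorem continuousOn_sphInt {g : E n → ℝ} (hg : ∀ x, x ≠ 0 → ContinuousAt g x) :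
    ContinuousOn (sphInt g) (Ioi (0 : ℝ)) := by
  refine continuousOn_integral_of_compact_support (isCompact_univ) ?_
    (fun r θ _ h => absurd (mem_univ θ) h)
  rintro ⟨r, θ⟩ ⟨hr, -⟩
  refine ContinuousAt.continuousWithinAt ?_
  exact ContinuousAt.comp (g := g) (f := fun p : ℝ × sphere (0 : E n) 1 => p.1 • p.2.1)
    (hg _ (smul_sphere_ne hr θ)) (by fun_prop)

/-- The radial integral of sphere integrals is at most the integral over the shell. -/
theorem radial_le (hn : 3 ≤ n) {g : E n → ℝ} (hg : ∀ x, x ≠ 0 → ContinuousAt g x)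
    (hg0 : ∀ x, x ≠ 0 → 0 ≤ g x) {t T : ℝ} (ht : 1 ≤ t) :
    (∫ r in Icc t T, sphInt g r) ≤ ∫ x in reg n T, g x := by
  have hregc : IsCompact (reg n T) :=
    (isCompact_closedBall (0 : E n) T).of_isClosed_subset
      ((isClosed_le continuous_const continuous_norm).inter
        (isClosed_le continuous_norm continuous_const))
      fun _x hx => mem_closedBall_zero_iff.2 hx.2
  have hne : ∀ x ∈ reg n T, x ≠ 0 := fun x hx h => by
    have := hx.1; simp [h] at this; linarith
  set Sh : Set (E n) := {x | t ≤ ‖x‖ ∧ ‖x‖ ≤ T} with hSh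
  have hShm : MeasurableSet Sh :=
    ((isClosed_le continuous_const continuous_norm).inter
      (isClosed_le continuous_norm continuous_const)).measurableSet
  have hsub : Sh ⊆ reg n T := fun x hx => ⟨by linarith [hx.1], hx.2⟩
  have hgi : IntegrableOn g (reg n T) :=
    ContinuousOn.integrableOn_compact hregc fun x hx => (hg x (hne x hx)).continuousWithinAt
  set G : E n → ℝ := Sh.indicator g with hG
  have hGi : Integrable G := (hgi.mono_set hsub).integrable_indicator hShm
  have hGr : ∫ x, G x = ∫ x in Sh, g x := integral_indicator hShm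
  refine le_trans ?_ (setIntegral_mono_set hgi
    ((ae_restrict_iff' hregc.measurableSet).2 (Eventually.of_forall fun x hx => hg0 x (hne x hx)))
    hsub.eventuallyLE)
  rw [← hGr]
  haveI : Nontrivial (E n) :=
    Module.nontrivial_of_finrank_pos (R := ℝ) (by rw [finrank_euclideanSpace_fin]; omega)
  set μ := (volume : Measure (E n))
  have hmp := μ.measurePreserving_homeomorphUnitSphereProd
  have hemb := (homeomorphUnitSphereProd (E n)).measurableEmbedding
  have e1 : ∫ x, G x = ∫ x : ({(0 : E n)}ᶜ : Set (E n)), G x.1 ∂(μ.comap (↑)) := by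
    rw [integral_subtype_comap (measurableSet_singleton _).compl, restrict_compl_singleton]
  have hGi' : Integrable (fun x : ({(0 : E n)}ᶜ : Set (E n)) => G x.1) (μ.comap (↑)) :=
    (integrableOn_iff_comap_subtypeVal (measurableSet_singleton _).compl).1 hGi.integrableOn
  set H : sphere (0 : E n) 1 × Ioi (0 : ℝ) → ℝ := fun z => G (z.2.1 • z.1.1) with hH
  have hHe : ∀ x : ({(0 : E n)}ᶜ : Set (E n)), H (homeomorphUnitSphereProd (E n) x) = G x.1 := by
    intro x
    have hx : ‖x.1‖ ≠ 0 := norm_ne_zero_iff.2 x.2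
    simp only [hH, homeomorphUnitSphereProd_apply_snd_coe, homeomorphUnitSphereProd_apply_fst_coe]
    rw [smul_smul, mul_inv_cancel₀ hx, one_smul]
  have hHi : Integrable H
      (μ.toSphere.prod (Measure.volumeIoiPow (Module.finrank ℝ (E n) - 1))) := by
    rw [← hmp.integrable_comp_emb hemb]
    exact hGi'.congr (Eventually.of_forall fun x => (hHe x).symm)
  have e2 : ∫ x, G x =
      ∫ r : Ioi (0 : ℝ), sphInt G r.1 ∂Measure.volumeIoiPow (Module.finrank ℝ (E n) - 1) := by
    rw [e1, ← integral_congr_ae (Eventually.of_forall hHe), hmp.integral_comp hemb H,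
      integral_prod_symm H hHi]
    rfl
  rw [e2, Measure.volumeIoiPow]
  simp only [ENNReal.ofReal]
  rw [integral_withDensity_eq_integral_smul (measurable_subtype_coe.pow_const _).real_toNNReal,
    integral_subtype_comap measurableSet_Ioi fun r : ℝ =>
      Real.toNNReal (r ^ (Module.finrank ℝ (E n) - 1)) • sphInt G r]
  set k := Module.finrank ℝ (E n) - 1
  have hsG : ∀ r ∈ Ioi (0 : ℝ), Real.toNNReal (r ^ k) • sphInt G r =
      (Icc t T).indicator (fun r => r ^ k * sphInt g r) r := by
    intro r hr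
    have hr0 : (0 : ℝ) < r := hr
    rw [NNReal.smul_def, Real.coe_toNNReal _ (by positivity), smul_eq_mul]
    by_cases h : r ∈ Icc t T
    · rw [indicator_of_mem h]
      congr 1
      refine integral_congr_ae (Eventually.of_forall fun θ => ?_)
      simp only [hG]
      rw [indicator_of_mem]
      rw [hSh, mem_ofPred_eq, norm_smul_sphere hr0.le]
      exact h
    · rw [indicator_of_notMem h, mul_eq_zero]
      right
      refine integral_eq_zero_of_ae (Eventually.of_forall fun θ => ?_)
      simp only [hG]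
      rw [indicator_of_notMem]
      · rfl
      rw [hSh, mem_ofPred_eq, norm_smul_sphere hr0.le]
      exact h
  rw [setIntegral_congr_fun measurableSet_Ioi hsG, setIntegral_indicator measurableSet_Icc,
    inter_eq_self_of_subset_right (fun r hr => by simp only [mem_Ioi]; linarith [hr.1])]
  have hc : ContinuousOn (sphInt g) (Icc t T) :=
    (continuousOn_sphInt hg).mono fun r hr => by simp only [mem_Ioi]; linarith [hr.1]
  refine setIntegral_mono_on (hc.integrableOn_compact isCompact_Icc)
    (((continuous_pow k).continuousOn.mul hc).integrableOn_compact isCompact_Icc)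
    measurableSet_Icc fun r hr => ?_
  exact le_mul_of_one_le_left (sphInt_nonneg hg0 (by linarith [hr.1]))
    (one_le_pow₀ (by linarith [hr.1]))

/-- Markov's inequality for sphere norms. -/
theorem radial_bad (hn : 3 ≤ n) {g : E n → ℝ} (hg : ∀ x, x ≠ 0 → ContinuousAt g x)
    {m : ℝ} (hm : 1 ≤ m) {t T η M : ℝ} (ht : 1 ≤ t) (hη : 0 < η) (hη1 : η ≤ 1) (hM : 0 < M)
    (hbd : (∫ x in reg n T, |g x| ^ m) ≤ M ^ m) :
    ∃ bad : Set ℝ, volume bad ≤ ENNReal.ofReal η ∧
      ∀ r ∈ Icc t T \ bad, sN m g r ≤ M / η := by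
  have hgm : ∀ x, x ≠ 0 → ContinuousAt (fun x => |g x| ^ m) x := fun x hx =>
    (hg x hx).abs.rpow_const (Or.inr (by linarith))
  set L := M ^ m / η with hL
  have hL0 : 0 < L := by positivity
  set h := sphInt (fun x => |g x| ^ m) with hh
  refine ⟨{r | r ∈ Icc t T ∧ L ≤ h r}, ?_, fun r hr => ?_⟩
  · have h0 : 0 ≤ᵐ[volume.restrict (Icc t T)] h :=
      (ae_restrict_iff' measurableSet_Icc).2 (Eventually.of_forall fun r hr =>
        sphInt_nonneg (fun _ _ => Real.rpow_nonneg (abs_nonneg _) _) (by linarith [hr.1]))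
    have hi : IntegrableOn h (Icc t T) := ((continuousOn_sphInt hgm).mono fun r hr => by
      simp only [mem_Ioi]; linarith [hr.1]).integrableOn_compact isCompact_Icc
    have h1 := mul_meas_ge_le_integral_of_nonneg h0 hi L
    have h2 : L * (volume.restrict (Icc t T)).real {r | L ≤ h r} ≤ L * η := by
      refine h1.trans (le_trans ?_ (le_of_eq (show M ^ m = L * η by rw [hL]; field_simp)))
      exact (radial_le hn hgm (fun _ _ => Real.rpow_nonneg (abs_nonneg _) _) ht).trans hbd
    have h3 := le_of_mul_le_mul_left h2 hL0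
    rw [measureReal_def, Measure.restrict_apply' measurableSet_Icc] at h3
    have hfin : volume ({r | L ≤ h r} ∩ Icc t T) ≠ ⊤ :=
      ((measure_mono inter_subset_right).trans_lt measure_Icc_lt_top).ne
    refine le_trans (le_of_eq ?_) ((ENNReal.le_ofReal_iff_toReal_le hfin hη.le).2 h3)
    congr 1
    ext r
    exact and_comm
  · obtain ⟨hr1, hr2⟩ := hr
    have hlt : h r < L := not_le.1 fun hle => hr2 ⟨hr1, hle⟩
    have h0 : 0 ≤ h r := sphInt_nonneg (fun _ _ => Real.rpow_nonneg (abs_nonneg _) _)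
      (by linarith [hr1.1])
    calc sN m g r ≤ L ^ m⁻¹ := Real.rpow_le_rpow h0 hlt.le (by positivity)
      _ = M * (η⁻¹) ^ m⁻¹ := by
          rw [hL, div_eq_mul_inv, Real.mul_rpow (by positivity) (by positivity),
            Real.rpow_rpow_inv hM.le (by linarith)]
      _ ≤ M * η⁻¹ := mul_le_mul_of_nonneg_left
          (Real.rpow_le_self_of_one_le (one_le_inv_iff₀.2 ⟨hη, hη1⟩)
            (inv_le_one_of_one_le₀ hm)) hM.le
      _ = M / η := (div_eq_mul_inv _ _).symm

end Vale.Agent.P100E
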