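import Vale.Agent.P100E.Defs

/-!
# P100: sphere bounds from `L^m` bounds on the Laplacian, for most radii
-/

noncomputable section

namespace Vale.Agent.P100E

open MeasureTheory Set Metric Vale.Agent.P100H
open scoped ENNReal Pointwise

variable {n : ℕ}

/-- The surface measure on the unit sphere. -/
abbrev sig (n : ℕ) : Measure (sphere (0 : E n) 1) := (volume : Measure (E n)).toSphere

/-- Volume of the unit ball. -/
def om (n : ℕ) : ℝ := volume.real (ball (0 : E n) 1)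

lemma om_nonneg (n : ℕ) : 0 ≤ om n := measureReal_nonneg

lemma real_closedBall (x : E n) {r : ℝ} (hr : 0 ≤ r) :
    volume.real (closedBall x r) = r ^ n * om n := by
  rw [Measure.real, Measure.addHaar_closedBall volume x hr, ENNReal.toReal_mul, finrank_euclideanSpace_fin,
    ENNReal.toReal_ofReal (by positivity)]
  rfl

/-- A spherical cap of radius `ε` has measure `O(ε^(n-1))`. -/
lemma cap_le (hn : 1 ≤ n) {r ε : ℝ} (hr : 1 ≤ r) (hε : 0 < ε) (hε1 : ε ≤ 1) (y : E n) :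
    (sig n).real {θ : sphere (0 : E n) 1 | r • θ.1 ∈ closedBall y ε} ≤
      (2 * n * 3 ^ n * om n) * ε ^ (n - 1) := by
  set S := {θ : sphere (0 : E n) 1 | r • θ.1 ∈ closedBall y ε} with hS
  have hom := om_nonneg n
  rcases S.eq_empty_or_nonempty with he | ⟨θ₀, hθ₀⟩
  · rw [he, measureReal_empty]; positivity
  have hmS : MeasurableSet S :=
    (isClosed_closedBall.preimage (continuous_subtype_val.const_smul r)).measurableSet
  set M := ⌈1 / ε⌉₊ with hM
  have hM0 : 0 < (M : ℝ) := by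
    have : 0 < M := Nat.ceil_pos.2 (by positivity)
    exact_mod_cast this
  have hM1 : 1 / (M : ℝ) ≤ ε := by
    rw [div_le_iff₀ hM0]
    have := Nat.le_ceil (1 / ε)
    rw [div_le_iff₀ hε] at this
    rw [mul_comm]; exact this
  have hM2 : (M : ℝ) ≤ 2 / ε := by
    have := (Nat.ceil_lt_add_one (show 0 ≤ 1 / ε by positivity)).le
    have h1 : (1 : ℝ) ≤ 1 / ε := by rw [le_div_iff₀ hε]; linarith
    refine this.trans ?_
    rw [show (2 : ℝ) / ε = 1 / ε + 1 / ε by ring]
    linarith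
  have hsub : Ioo (0 : ℝ) 1 • ((↑) '' S : Set (E n)) ⊆
      ⋃ i ∈ Finset.range M, closedBall (((i : ℝ) / M) • θ₀.1) (3 * ε) := by
    rintro z ⟨a, ⟨ha0, ha1⟩, _, ⟨θ, hθ, rfl⟩, rfl⟩
    have hlt : ⌊a * M⌋₊ < M := (Nat.floor_lt (by positivity)).2 (by nlinarith)
    refine mem_iUnion₂.2 ⟨⌊a * M⌋₊, Finset.mem_range.2 hlt, ?_⟩
    rw [mem_closedBall, dist_eq_norm]
    have hd : ‖θ.1 - θ₀.1‖ ≤ 2 * ε := by
      have h1 : ‖r • θ.1 - y‖ ≤ ε := mem_closedBall_iff_norm.1 hθ
      have h2 : ‖r • θ₀.1 - y‖ ≤ ε := mem_closedBall_iff_norm.1 hθ₀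
      have h3 : ‖r • (θ.1 - θ₀.1)‖ ≤ 2 * ε := by
        rw [smul_sub]
        have := norm_sub_le (r • θ.1 - y) (r • θ₀.1 - y)
        rw [sub_sub_sub_cancel_right] at this
        linarith
      rw [norm_smul, Real.norm_eq_abs, abs_of_pos (by linarith : (0:ℝ) < r)] at h3
      nlinarith [norm_nonneg (θ.1 - θ₀.1)]
    have hfl : |a - (⌊a * M⌋₊ : ℝ) / M| ≤ ε := by
      have h1 := Nat.floor_le (show 0 ≤ a * M by positivity)
      have h2 := Nat.lt_floor_add_one (a * M)
      rw [show a - (⌊a * M⌋₊ : ℝ) / M = (a * M - ⌊a * M⌋₊) * (1 / M) by field_simp,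
        abs_mul, abs_of_nonneg (by linarith : 0 ≤ a * M - ⌊a * M⌋₊), abs_of_pos (by positivity : 0 < 1 / (M : ℝ))]
      exact (mul_le_of_le_one_left (by positivity) (by linarith)).trans hM1
    calc ‖a • θ.1 - ((⌊a * M⌋₊ : ℝ) / M) • θ₀.1‖
        = ‖a • (θ.1 - θ₀.1) + (a - (⌊a * M⌋₊ : ℝ) / M) • θ₀.1‖ := by
          congr 1; rw [smul_sub, sub_smul]; abel
      _ ≤ a * ‖θ.1 - θ₀.1‖ + |a - (⌊a * M⌋₊ : ℝ) / M| := by
          refine (norm_add_le _ _).trans (le_of_eq ?_)
          rw [norm_smul, norm_smul, mem_sphere_zero_iff_norm.1 θ₀.2, mul_one, Real.norm_eq_abs,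
            Real.norm_eq_abs, abs_of_pos ha0]
      _ ≤ 3 * ε := by nlinarith [norm_nonneg (θ.1 - θ₀.1)]
  have hfin : volume (⋃ i ∈ Finset.range M, closedBall (((i : ℝ) / M) • θ₀.1) (3 * ε)) ≠ ⊤ :=
    ((measure_biUnion_finset_le _ _).trans_lt (ENNReal.sum_lt_top.2 fun i _ => measure_closedBall_lt_top)).ne
  have hv : volume.real (Ioo (0 : ℝ) 1 • ((↑) '' S : Set (E n))) ≤ 2 / ε * ((3 * ε) ^ n * om n) := by
    refine (measureReal_mono hsub hfin).trans ((measureReal_biUnion_finset_le _ _).trans ?_)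
    rw [Finset.sum_congr rfl fun i _ => real_closedBall _ (show 0 ≤ 3 * ε by positivity), Finset.sum_const,
      Finset.card_range, nsmul_eq_mul]
    exact mul_le_mul_of_nonneg_right hM2 (by positivity)
  have hs : (sig n).real S = n * volume.real (Ioo (0 : ℝ) 1 • ((↑) '' S : Set (E n))) := by
    rw [Measure.real, Measure.toSphere_apply' _ hmS, ENNReal.toReal_mul, finrank_euclideanSpace_fin]
    simp [Measure.real]
  rw [hs]
  refine (mul_le_mul_of_nonneg_left hv (Nat.cast_nonneg n)).trans (le_of_eq ?_)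
  obtain ⟨k, rfl⟩ : ∃ k, n = k + 1 := ⟨n - 1, by omega⟩
  rw [mul_pow, Nat.add_sub_cancel, pow_succ ε]
  field_simp

/-- `∫_s |f| ≤ 2 |s|^(1-1/m) (∫_s |f|^m)^(1/m)`. -/
lemma holder_set {s : Set (E n)} (hs : volume s ≠ ⊤) {f : E n → ℝ} {m V P : ℝ} (hm : 1 ≤ m)
    (hf : IntegrableOn (fun y => |f y|) s) (hfm : IntegrableOn (fun y => |f y| ^ m) s)
    (hV : volume.real s ≤ V) (hV0 : 0 < V) (hP : (∫ y in s, |f y| ^ m) ≤ P) :
    ∫ y in s, |f y| ≤ 2 * V ^ (1 - 1 / m) * P ^ (1 / m) := by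
  have hm0 : 0 < m := by linarith
  have key : ∀ l : ℝ, 0 < l → ∫ y in s, |f y| ≤ l * V + l ^ (1 - m) * P := by
    intro l hl
    have hpt : ∀ y, |f y| ≤ l + l ^ (1 - m) * |f y| ^ m := by
      intro y
      rcases le_total |f y| l with h | h
      · exact h.trans (le_add_of_nonneg_right (by positivity))
      · refine le_add_of_nonneg_of_le hl.le ?_
        have hy : 0 < |f y| := hl.trans_le h
        calc |f y| = |f y| ^ (1 - m) * |f y| ^ m := by
              rw [← Real.rpow_add hy]; simp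
          _ ≤ l ^ (1 - m) * |f y| ^ m :=
              mul_le_mul_of_nonneg_right (Real.rpow_le_rpow_of_nonpos hl h (by linarith)) (by positivity)
    have hc : IntegrableOn (fun _ => l) s volume := integrableOn_const hs
    refine (setIntegral_mono hf (hc.add (hfm.const_mul _)) hpt).trans ?_
    simp only [Pi.add_apply]
    rw [integral_add hc (hfm.const_mul _), setIntegral_const, integral_const_mul, smul_eq_mul, mul_comm]
    exact add_le_add (mul_le_mul_of_nonneg_left hV hl.le) (mul_le_mul_of_nonneg_left hP (by positivity))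
  have hP0 : 0 ≤ P := (setIntegral_nonneg_of_ae (Filter.Eventually.of_forall fun y => by positivity)).trans hP
  rcases hP0.lt_or_eq with hP1 | hP1
  · have hl : 0 < P ^ (1 / m) * V ^ (-(1 / m)) := by positivity
    refine (key _ hl).trans (le_of_eq ?_)
    rw [Real.mul_rpow (by positivity) (by positivity), ← Real.rpow_mul hP1.le, ← Real.rpow_mul hV0.le]
    have e1 : V ^ (1 - 1 / m) = V ^ (-(1 / m)) * V := by
      rw [← Real.rpow_add_one hV0.ne']; ring_nf
    have e2 : P ^ (1 / m * (1 - m)) * P = P ^ (1 / m) := by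
      rw [← Real.rpow_add_one hP1.ne']; congr 1; field_simp; ring
    have e3 : V ^ (-(1 / m) * (1 - m)) = V ^ (-(1 / m)) * V := by
      rw [← Real.rpow_add_one hV0.ne']; congr 1; field_simp; ring
    rw [e1, e3]
    linear_combination (V ^ (-(1 / m)) * V) * e2
  · rw [← hP1] at key ⊢
    rw [Real.zero_rpow (by positivity), mul_zero]
    refine le_of_forall_pos_le_add fun e he => ?_
    have := key (e / V) (by positivity)
    rwa [mul_zero, add_zero, div_mul_cancel₀ _ hV0.ne', ← zero_add e] at this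

lemma rpow_sum_le {s q : ℝ} (hs : 0 < s) (hq : 0 < q) (hq1 : q < 1) (K : ℕ) {a : ℕ → ℝ} (ha : ∀ k, 0 ≤ a k) :
    (∑ k ∈ Finset.range K, a k) ^ s ≤
      (1 / (1 - q)) ^ s * ∑ k ∈ Finset.range K, (a k / q ^ k) ^ s := by
  set T := ∑ k ∈ Finset.range K, (a k / q ^ k) ^ s with hT
  have hnn : ∀ k, 0 ≤ a k / q ^ k := fun k => div_nonneg (ha k) (by positivity)
  have hT0 : 0 ≤ T := Finset.sum_nonneg fun k _ => Real.rpow_nonneg (hnn k) s
  have hk : ∀ k ∈ Finset.range K, a k ≤ q ^ k * T ^ s⁻¹ := fun k hk => by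
    have h1 : (a k / q ^ k) ^ s ≤ T := Finset.single_le_sum (fun i _ => Real.rpow_nonneg (hnn i) s) hk
    have h2 := Real.rpow_le_rpow (Real.rpow_nonneg (hnn k) s) h1 (inv_pos.2 hs).le
    rw [Real.rpow_rpow_inv (hnn k) hs.ne', div_le_iff₀ (by positivity)] at h2
    linarith
  have h3 : ∑ k ∈ Finset.range K, a k ≤ 1 / (1 - q) * T ^ s⁻¹ := by
    refine (Finset.sum_le_sum hk).trans ?_
    rw [← Finset.sum_mul]
    refine mul_le_mul_of_nonneg_right ?_ (by positivity)
    have := sum_le_hasSum (Finset.range K) (fun i _ => by positivity) (hasSum_geometric_of_lt_one hq.le hq1)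
    simpa using this
  refine (Real.rpow_le_rpow (Finset.sum_nonneg fun k _ => ha k) h3 hs.le).trans (le_of_eq ?_)
  rw [Real.mul_rpow (one_div_nonneg.2 (by linarith)) (Real.rpow_nonneg hT0 _), Real.rpow_inv_rpow hT0 hs.ne']

lemma rpow_add3 {x y z s : ℝ} (hx : 0 ≤ x) (hy : 0 ≤ y) (hz : 0 ≤ z) (hs : 0 ≤ s) :
    (x + y + z) ^ s ≤ 3 ^ s * (x ^ s + y ^ s + z ^ s) := by
  have aux : ∀ a : ℝ, 0 ≤ a → x ≤ a → y ≤ a → z ≤ a → a ^ s ≤ x ^ s + y ^ s + z ^ s →
      (x + y + z) ^ s ≤ 3 ^ s * (x ^ s + y ^ s + z ^ s) := fun a ha h1 h2 h3 h4 =>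
    ((Real.rpow_le_rpow (by positivity) (show x + y + z ≤ 3 * a by linarith) hs).trans_eq
      (Real.mul_rpow (by norm_num) ha)).trans (mul_le_mul_of_nonneg_left h4 (by positivity))
  have := Real.rpow_nonneg hx s
  have := Real.rpow_nonneg hy s
  have := Real.rpow_nonneg hz s
  rcases le_total x y with h | h <;> rcases le_total y z with h' | h' <;> rcases le_total x z with h'' | h'' <;>
    first
      | exact aux x hx le_rfl (by linarith) (by linarith) (by linarith)
      | exact aux y hy (by linarith) le_rfl (by linarith) (by linarith)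
      | exact aux z hz (by linarith) (by linarith) le_rfl (by linarith)

lemma isCompact_reg (T : ℝ) : IsCompact (reg n T) :=
  (isCompact_closedBall (0 : E n) T).of_isClosed_subset
    ((isClosed_le continuous_const continuous_norm).inter (isClosed_le continuous_norm continuous_const))
    fun x hx => mem_closedBall_zero_iff.2 hx.2

lemma reg_subset (T : ℝ) : reg n T ⊆ {0}ᶜ := fun x hx h => by
  rw [mem_singleton_iff] at h
  have := hx.1
  rw [h, norm_zero] at this
  linarith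

lemma contOn_lap {w : E n → ℝ} (hw : ContDiffOn ℝ 2 w {0}ᶜ) :
    ContinuousOn (Laplacian.laplacian w) {0}ᶜ := by
  have h1 : ContDiffOn ℝ 1 (fderiv ℝ w) {0}ᶜ := hw.fderiv_of_isOpen isOpen_compl_singleton (by norm_num)
  have h2 := h1.continuousOn_fderiv_of_isOpen isOpen_compl_singleton le_rfl
  refine (continuousOn_finsetSum Finset.univ fun i _ =>
    ((h2.clm_apply continuousOn_const).clm_apply continuousOn_const :
      ContinuousOn (fun x => fderiv ℝ (fderiv ℝ w) x (cv i) (cv i)) {0}ᶜ)).congr fun x _ => lap_eq_sum w x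

/-- The mass of a density in the band `| |y| - r | ≤ ε`. -/
def bandInt (ε : ℝ) (f : E n → ℝ) (r : ℝ) : ℝ := ∫ y in {y : E n | |‖y‖ - r| ≤ ε}, f y

/-- Averaged over radii, a band carries at most `2ε` times the mass. -/
lemma band_measure {ε l MM : ℝ} (hε : 0 ≤ ε) {f : E n → ℝ} (hf : Integrable f) (hf0 : ∀ y, 0 ≤ f y)
    (hMM : (∫ y, f y) ≤ MM) :
    l * volume.real {r ∈ Icc (0 : ℝ) 3 | l ≤ bandInt ε f r} ≤ 2 * ε * MM := by
  set μ := (volume : Measure ℝ).restrict (Icc 0 3) with hμ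
  haveI : IsFiniteMeasure μ := isFiniteMeasure_restrict.2 measure_Icc_lt_top.ne
  set S : Set (ℝ × E n) := {p | |‖p.2‖ - p.1| ≤ ε}
  have hS : MeasurableSet S := (isClosed_le (by fun_prop) continuous_const).measurableSet
  set h : ℝ × E n → ℝ := S.indicator fun p => f p.2
  have hh : Integrable h (μ.prod volume) := (hf.comp_snd μ).indicator hS
  have e1 : ∀ r, ∫ y, h (r, y) = bandInt ε f r := fun r => by
    rw [bandInt, ← integral_indicator (isClosed_le (by fun_prop) continuous_const).measurableSet]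
    rfl
  have hint : Integrable (bandInt ε f) μ := hh.integral_prod_left.congr (Filter.Eventually.of_forall e1)
  have h1 := mul_meas_ge_le_integral_of_nonneg
    (Filter.Eventually.of_forall fun r => integral_nonneg fun y => hf0 y) hint l
  have h2 : μ.real {r | l ≤ bandInt ε f r} = volume.real {r ∈ Icc (0 : ℝ) 3 | l ≤ bandInt ε f r} := by
    rw [Measure.real, Measure.real, hμ, Measure.restrict_apply' measurableSet_Icc]
    congr 2
    ext r; exact and_comm
  change l * μ.real {r | l ≤ bandInt ε f r} ≤ ∫ r, bandInt ε f r ∂μ at h1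
  rw [h2] at h1
  refine h1.trans ?_
  calc ∫ r, bandInt ε f r ∂μ = ∫ r, (∫ y, h (r, y)) ∂μ := by simp only [e1]
    _ = ∫ y : E n, (∫ r : ℝ, h (r, y) ∂μ) := integral_integral_swap (f := fun (r : ℝ) (y : E n) => h (r, y)) hh
    _ ≤ ∫ y, 2 * ε * f y := by
        refine integral_mono hh.integral_prod_right (hf.const_mul _) fun y => ?_
        have e2 : (fun r => h (r, y)) = (Icc (‖y‖ - ε) (‖y‖ + ε)).indicator fun _ => f y := by
          funext r
          have : (r, y) ∈ S ↔ r ∈ Icc (‖y‖ - ε) (‖y‖ + ε) := by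
            simp only [S, mem_setOf_eq, abs_le, mem_Icc]; constructor <;> rintro ⟨a, b⟩ <;> constructor <;> linarith
          by_cases hr : (r, y) ∈ S
          · simp [h, hr, this.1 hr]
          · simp [h, hr, mt this.2 hr]
        show ∫ r, h (r, y) ∂μ ≤ _
        rw [e2, integral_indicator_const _ measurableSet_Icc, smul_eq_mul]
        refine mul_le_mul_of_nonneg_right ?_ (hf0 y)
        refine ENNReal.toReal_le_of_le_ofReal (by positivity) ((Measure.restrict_apply_le _ _).trans ?_)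
        rw [Real.volume_Icc]
        exact ENNReal.ofReal_le_ofReal (by linarith)
    _ ≤ 2 * ε * MM := by
        rw [integral_const_mul]; exact mul_le_mul_of_nonneg_left hMM (by positivity)

/-- Averaged over a sphere, a small ball carries at most a cap times the band. -/
lemma ball_sphere (hn : 1 ≤ n) {r ε : ℝ} (hr : 1 ≤ r) (hε : 0 < ε) (hε1 : ε ≤ 1) {f : E n → ℝ}
    (hf : Integrable f) (hf0 : ∀ y, 0 ≤ f y) :
    Integrable (fun θ : sphere (0 : E n) 1 => ∫ y in closedBall (r • θ.1) ε, f y) (sig n) ∧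
      (∫ θ : sphere (0 : E n) 1, (∫ y in closedBall (r • θ.1) ε, f y) ∂sig n) ≤
        (2 * n * 3 ^ n * om n) * ε ^ (n - 1) * bandInt ε f r ∧
      ∀ θ : sphere (0 : E n) 1, (∫ y in closedBall (r • θ.1) ε, f y) ≤ bandInt ε f r := by
  set S : Set (sphere (0 : E n) 1 × E n) := {p | dist p.2 (r • p.1.1) ≤ ε}
  have hS : MeasurableSet S := (isClosed_le (by fun_prop) continuous_const).measurableSet
  set h : sphere (0 : E n) 1 × E n → ℝ := S.indicator fun p => f p.2
  have hh : Integrable h ((sig n).prod volume) := (hf.comp_snd (sig n)).indicator hS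
  have e1 : ∀ θ, ∫ y, h (θ, y) = ∫ y in closedBall (r • θ.1) ε, f y := fun θ => by
    rw [← integral_indicator measurableSet_closedBall]; rfl
  set B := {y : E n | |‖y‖ - r| ≤ ε}
  have hB : MeasurableSet B := (isClosed_le (by fun_prop) continuous_const).measurableSet
  have hin : ∀ θ : sphere (0 : E n) 1, closedBall (r • θ.1) ε ⊆ B := fun θ y hy => by
    rw [mem_closedBall, dist_eq_norm] at hy
    have := abs_norm_sub_norm_le y (r • θ.1)
    rw [norm_smul, mem_sphere_zero_iff_norm.1 θ.2, mul_one, Real.norm_eq_abs,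
      abs_of_pos (by linarith : (0:ℝ) < r)] at this
    exact this.trans hy
  refine ⟨hh.integral_prod_left.congr (Filter.Eventually.of_forall e1), ?_,
    fun θ => setIntegral_mono_set hf.integrableOn (Filter.Eventually.of_forall fun y => hf0 y)
      (HasSubset.Subset.eventuallyLE (hin θ))⟩
  calc (∫ θ : sphere (0 : E n) 1, (∫ y in closedBall (r • θ.1) ε, f y) ∂sig n)
      = ∫ θ, ∫ y, h (θ, y) ∂volume ∂sig n := by simp only [e1]
    _ = ∫ y, ∫ θ, h (θ, y) ∂sig n := integral_integral_swap (f := fun θ y => h (θ, y)) hh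
    _ ≤ ∫ y, (2 * n * 3 ^ n * om n) * ε ^ (n - 1) * B.indicator f y := by
        refine integral_mono hh.integral_prod_right ((hf.indicator hB).const_mul _) fun y => ?_
        set A := {θ : sphere (0 : E n) 1 | r • θ.1 ∈ closedBall y ε}
        have hA : MeasurableSet A :=
          (isClosed_closedBall.preimage (continuous_subtype_val.const_smul r)).measurableSet
        have e2 : (fun θ => h (θ, y)) = A.indicator fun _ => B.indicator f y := by
          funext θ
          by_cases hθ : (θ, y) ∈ S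
          · have hy : y ∈ closedBall (r • θ.1) ε := hθ
            have h1 : r • θ.1 ∈ closedBall y ε := mem_closedBall_comm.1 hy
            have : θ ∈ A := h1
            rw [indicator_of_mem this, indicator_of_mem (hin θ hy)]
            exact indicator_of_mem hθ fun p => f p.2
          · have : θ ∉ A := fun h' => by
              have h1 : r • θ.1 ∈ closedBall y ε := h'
              have h2 : y ∈ closedBall (r • θ.1) ε := mem_closedBall_comm.1 h1
              exact hθ h2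
            rw [indicator_of_notMem this]
            exact indicator_of_notMem hθ fun p => f p.2
        show ∫ θ, h (θ, y) ∂sig n ≤ _
        rw [e2, integral_indicator_const _ hA, smul_eq_mul]
        exact mul_le_mul_of_nonneg_right (cap_le hn hr hε hε1 y) (indicator_nonneg (fun y _ => hf0 y) y)
    _ = (2 * n * 3 ^ n * om n) * ε ^ (n - 1) * bandInt ε f r := by
        rw [integral_const_mul, integral_indicator hB]; rfl

lemma integral_affine {X : Type*} [MeasurableSpace X] {μ : Measure X} [IsFiniteMeasure μ] {φ : X → ℝ}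
    (hφ : Integrable φ μ) (c d e W : ℝ) :
    Integrable (fun x => c * (d + W * φ x + e)) μ ∧
      ∫ x, c * (d + W * φ x + e) ∂μ = c * (μ.real univ * d + W * ∫ x, φ x ∂μ + μ.real univ * e) := by
  have h1 : Integrable (fun x => d + W * φ x) μ := (integrable_const d).add (hφ.const_mul W)
  refine ⟨(h1.add (integrable_const e)).const_mul c, ?_⟩
  rw [integral_const_mul, integral_add h1 (integrable_const e), integral_add (integrable_const d) (hφ.const_mul W),
    integral_const, integral_const, integral_const_mul, smul_eq_mul, smul_eq_mul]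

lemma om_pos (n : ℕ) : 0 < om n :=
  ENNReal.toReal_pos (measure_ball_pos volume 0 one_pos).ne' measure_ball_lt_top.ne

/-- The exponent count for one dyadic scale. -/
lemma term_const {ε L Mm b C0 ω Cc m s g : ℝ} {n j k : ℕ} (hn : 1 ≤ n) (hε : 0 < ε) (hL : 1 ≤ L) (hM : 0 ≤ Mm)
    (hb : 1 < b) (hm : 1 ≤ m) (hs : 0 < s) (hω : 0 < ω) (hC : 0 ≤ C0) (hCc : 0 ≤ Cc)
    (hg : g = (j : ℝ) - ((n : ℝ) - 1) * (1 / m - 1 / s)) (hεg : ε ^ g ≤ ((b ^ k) ^ 3)⁻¹) :
    2 * C0 * ε ^ j * (ε ^ n)⁻¹ * (ε ^ n * ω) ^ (1 - 1 / m) / (b⁻¹) ^ k *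
      (ε * (b ^ k) ^ m * L * Mm ^ m) ^ (1 / m) * Cc * ε ^ (((n : ℝ) - 1) / s) ≤
      2 * C0 * ω ^ (1 - 1 / m) * L * Cc * Mm * (b⁻¹) ^ k := by
  have hm0 : 0 < m := by linarith
  set c := b ^ k with hc
  have hc0 : 0 < c := by positivity
  rw [inv_pow, ← hc, div_inv_eq_mul, Real.mul_rpow (by positivity) hω.le,
    Real.mul_rpow (by positivity) (by positivity), Real.mul_rpow (by positivity) (by positivity),
    Real.mul_rpow hε.le (by positivity), ← Real.rpow_mul hM, ← Real.rpow_mul hc0.le,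
    mul_one_div_cancel hm0.ne', Real.rpow_one, Real.rpow_one]
  have e : ε ^ j * (ε ^ n)⁻¹ * (ε ^ n) ^ (1 - 1 / m) * ε ^ (1 / m) * ε ^ (((n : ℝ) - 1) / s) = ε ^ g := by
    rw [← Real.rpow_natCast ε j, ← Real.rpow_natCast ε n, ← Real.rpow_neg hε.le, ← Real.rpow_mul hε.le,
      ← Real.rpow_add hε, ← Real.rpow_add hε, ← Real.rpow_add hε, ← Real.rpow_add hε, hg]
    congr 1
    field_simp
    ring
  have hL1 : L ^ (1 / m) ≤ L := by
    refine (Real.rpow_le_rpow_of_exponent_le hL ?_).trans_eq (Real.rpow_one L)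
    rw [div_le_one hm0]; exact hm
  calc _ = 2 * C0 * ω ^ (1 - 1 / m) * L ^ (1 / m) * Cc * Mm * (c * c) * ε ^ g := by rw [← e]; ring
    _ ≤ 2 * C0 * ω ^ (1 - 1 / m) * L * Cc * Mm * (c * c) * (c ^ 3)⁻¹ := by gcongr
    _ = _ := by field_simp

/-- The exceptional radii have small total measure. -/
lemma bad_le {ε : ℕ → ℝ} {b m δ Mm Kp : ℝ} {f : E n → ℝ} (hε : ∀ k, 0 < ε k) (hb : 1 < b) (hm0 : 0 < m)
    (hδ : 0 < δ) (hδ1 : δ ≤ 1) (hMm : 0 ≤ Mm) (hKp' : 1 ≤ Kp ∧ 32 ≤ Kp * (1 - (b ^ m)⁻¹))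
    (hfi : Integrable f) (hf0 : ∀ y, 0 ≤ f y) (hfM : (∫ y, f y) ≤ Mm ^ m) :
    volume (⋃ k, {r ∈ Icc (0 : ℝ) 3 | ε k * (b ^ k) ^ m * (Kp / δ) * Mm ^ m < bandInt (ε k) f r}) ≤
      ENNReal.ofReal (δ / 16) := by
  have hKp : 1 ≤ Kp := hKp'.1
  have hbm : 0 < (b ^ m)⁻¹ ∧ (b ^ m)⁻¹ < 1 :=
    ⟨by positivity, inv_lt_one_of_one_lt₀ (Real.one_lt_rpow hb hm0)⟩
  let lam : ℕ → ℝ := fun k => ε k * (b ^ k) ^ m * (Kp / δ) * Mm ^ m
  have hlam : ∀ k, 0 ≤ lam k := fun k => by have := hε k; positivity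
  have hk : ∀ k, volume {r ∈ Icc (0 : ℝ) 3 | lam k < bandInt (ε k) f r} ≤
      ENNReal.ofReal (2 * δ / Kp * ((b ^ m)⁻¹) ^ k) := by
    intro k
    have hQ : ∀ r, bandInt (ε k) f r ≤ Mm ^ m := fun r =>
      (setIntegral_le_integral hfi (Filter.Eventually.of_forall hf0)).trans hfM
    rcases hMm.lt_or_eq with hM1 | hM1
    · have h1 := band_measure (l := lam k) (hε k).le hfi hf0 hfM
      have hl : 0 < lam k := by
        have := (hε k); have := Real.rpow_pos_of_pos hM1 m; positivity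
      have hfin : volume {r ∈ Icc (0 : ℝ) 3 | lam k ≤ bandInt (ε k) f r} ≠ ⊤ :=
        ((measure_mono (sep_subset _ _)).trans_lt measure_Icc_lt_top).ne
      have hsub : {r ∈ Icc (0 : ℝ) 3 | lam k < bandInt (ε k) f r} ⊆
          {r ∈ Icc (0 : ℝ) 3 | lam k ≤ bandInt (ε k) f r} := fun r hr => ⟨hr.1, hr.2.le⟩
      refine (measure_mono hsub).trans ((ENNReal.le_ofReal_iff_toReal_le hfin (by positivity)).2 ?_)
      rw [← measureReal_def]
      refine le_of_mul_le_mul_left (h1.trans (le_of_eq ?_)) hl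
      have := Real.rpow_pos_of_pos hM1 m
      have := (hε k)
      rw [inv_pow, show (b ^ m) ^ k = (b ^ k) ^ m by
        rw [← Real.rpow_mul_natCast (by positivity) m k, mul_comm, Real.rpow_natCast_mul (by positivity) k m]]
      simp only [lam]
      field_simp
    · have : {r ∈ Icc (0 : ℝ) 3 | lam k < bandInt (ε k) f r} = ∅ := by
        ext r
        simp only [mem_setOf_eq, mem_empty_iff_false, iff_false, not_and, not_lt]
        intro _
        refine (hQ r).trans ?_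
        rw [← hM1, Real.zero_rpow hm0.ne']
        exact hlam k
      rw [this, measure_empty]; exact zero_le
  refine (measure_iUnion_le _).trans ((ENNReal.tsum_le_tsum hk).trans ?_)
  rw [← ENNReal.ofReal_tsum_of_nonneg (fun k => by positivity)
    ((summable_geometric_of_lt_one hbm.1.le hbm.2).mul_left _), tsum_mul_left,
    tsum_geometric_of_lt_one hbm.1.le hbm.2]
  refine ENNReal.ofReal_le_ofReal ?_
  have h1 : 0 < 1 - (b ^ m)⁻¹ := by linarith [hbm.2]
  have h2 := hKp'.2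
  rw [← div_eq_mul_inv, div_div, div_le_div_iff₀ (by positivity) (by norm_num)]
  nlinarith

/-- Bound for one dyadic scale after integration over the sphere. -/
lemma term_le (hn : 3 ≤ n) {j k : ℕ} {m s g ρ C0 Cc L Mm J : ℝ}
    (hgdef : g = (j : ℝ) - ((n : ℝ) - 1) * (1 / m - 1 / s)) (hg0 : 0 < g) (hm : 1 ≤ m) (hms : m ≤ s)
    (hρ : 0 < ρ) (hρ1 : ρ ≤ 1 / 4) (hC0 : 0 ≤ C0) (hCc : 0 ≤ Cc) (hL : 1 ≤ L) (hMm : 0 ≤ Mm)
    (hJ : J ≤ Cc * (ρ / 2 ^ k) ^ (n - 1) *
      ((ρ / 2 ^ k) * (((2 : ℝ) ^ (g / 3)) ^ k) ^ m * L * Mm ^ m)) :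
    (2 * C0 * (ρ / 2 ^ k) ^ j * ((ρ / 2 ^ k) ^ n)⁻¹ * ((ρ / 2 ^ k) ^ n * om n) ^ (1 - 1 / m) /
        (((2 : ℝ) ^ (g / 3))⁻¹) ^ k) ^ s *
      ((ρ / 2 ^ k) * (((2 : ℝ) ^ (g / 3)) ^ k) ^ m * L * Mm ^ m) ^ (s / m - 1) * J ≤
      (2 * C0 * om n ^ (1 - 1 / m) * L * (Cc + 1) * Mm) ^ s * ((((2 : ℝ) ^ (g / 3))⁻¹) ^ s) ^ k := by
  have hm0 : 0 < m := by linarith
  have hs0 : 0 < s := by linarith
  have hs1 : 1 ≤ s := by linarith
  have hom := om_pos n
  generalize hεdef : ρ / 2 ^ k = ε at hJ ⊢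
  generalize hbdef : (2 : ℝ) ^ (g / 3) = b at hJ ⊢
  have hb : 1 < b := hbdef ▸ Real.one_lt_rpow one_lt_two (by positivity)
  have hε : 0 < ε := hεdef ▸ (by positivity)
  generalize hqdef : b⁻¹ = q
  have hq : 0 < q := hqdef ▸ (by positivity)
  generalize hAdef : 2 * C0 * ε ^ j * (ε ^ n)⁻¹ * (ε ^ n * om n) ^ (1 - 1 / m) / q ^ k = A
  generalize hldef : ε * (b ^ k) ^ m * L * Mm ^ m = l at hJ ⊢
  have hA : 0 ≤ A := hAdef ▸ (by positivity)
  have hl : 0 ≤ l := hldef ▸ (by positivity)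
  generalize hBc : 2 * C0 * om n ^ (1 - 1 / m) * L * (Cc + 1) * Mm = Bc
  have hBc0 : 0 ≤ Bc := hBc ▸ (by positivity)
  set Cc1 := Cc + 1
  have hεg : ε ^ g ≤ ((b ^ k) ^ 3)⁻¹ := by
    have e2 : ((2 : ℝ) ^ k) ^ g = (b ^ k) ^ 3 := by
      rw [← pow_mul, ← Real.rpow_natCast b, ← Real.rpow_natCast (2 : ℝ) k, ← hbdef,
        ← Real.rpow_mul zero_le_two, ← Real.rpow_mul zero_le_two]
      push_cast; congr 1; ring
    rw [← hεdef]
    rw [Real.div_rpow hρ.le (by positivity), e2, div_eq_mul_inv]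
    exact mul_le_of_le_one_left (by positivity) (Real.rpow_le_one hρ.le (by linarith) hg0.le)
  have h1 : A * l ^ (1 / m) * Cc1 * ε ^ (((n : ℝ) - 1) / s) ≤ Bc * q ^ k :=
    by
      rw [← hAdef, ← hldef, ← hqdef, ← hBc]
      exact term_const (show 1 ≤ n by omega) hε hL hMm hb hm hs0 (om_pos n) hC0 (by positivity) hgdef hεg
  have h3 := Real.rpow_le_rpow (by have := hA; have := hl; positivity) h1 hs0.le
  rw [Real.mul_rpow (by have := hA; have := hl; positivity) (by positivity),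
    Real.mul_rpow (by have := hA; have := hl; positivity) (by positivity),
    Real.mul_rpow (hA) (Real.rpow_nonneg (hl) _), ← Real.rpow_mul (hl), ← Real.rpow_mul hε.le,
    Real.mul_rpow hBc0 (by positivity), one_div_mul_eq_div, div_mul_cancel₀ _ hs0.ne',
    show (q ^ k) ^ s = (q ^ s) ^ k by
      rw [← Real.rpow_natCast_mul hq.le k s, mul_comm, Real.rpow_mul_natCast hq.le s k],
    show ((n : ℝ) - 1) = ((n - 1 : ℕ) : ℝ) by rw [Nat.cast_sub (by omega)]; simp, Real.rpow_natCast] at h3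
  refine le_trans ?_ h3
  calc A ^ s * l ^ (s / m - 1) * J
      ≤ A ^ s * l ^ (s / m - 1) * (Cc * ε ^ (n - 1) * l) :=
        mul_le_mul_of_nonneg_left hJ
          (by have := hA; have := hl; positivity)
    _ = A ^ s * l ^ (s / m) * Cc * ε ^ (n - 1) := by
        rw [show l ^ (s / m) = l ^ (s / m - 1) * l by
          rw [show s / m = (s / m - 1) + 1 by ring, Real.rpow_add' (hl) (by rw [sub_add_cancel]; positivity),
            Real.rpow_one]
          simp]
        ring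
    _ ≤ A ^ s * l ^ (s / m) * Cc1 ^ s * ε ^ (n - 1) := by
        have hc : Cc ≤ Cc1 ^ s := (le_add_of_nonneg_right zero_le_one).trans
          (Real.self_le_rpow_of_one_le (le_add_of_nonneg_left hCc) hs1)
        have := hA; have := hl
        gcongr

/-- Bound for one dyadic scale at one point. -/
lemma point_le {j k : ℕ} {m s C0 q ε l : ℝ} {g : E n → ℝ} {R : Set (E n)} {x : E n} (hm : 1 ≤ m) (hms : m ≤ s)
    (hC0 : 0 ≤ C0) (hq : 0 < q) (hε : 0 < ε) (hl : 0 ≤ l) (hiL : IntegrableOn (fun y => |g y|) R)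
    (him : IntegrableOn (fun y => |g y| ^ m) R) (hsub : closedBall x ε ⊆ R)
    (hP : (∫ y in closedBall x ε, R.indicator (fun y => |g y| ^ m) y) ≤ l) :
    (C0 * (ε ^ j * ((ε ^ n)⁻¹ * ∫ y in closedBall x ε, |g y|)) / q ^ k) ^ s ≤
      (2 * C0 * ε ^ j * (ε ^ n)⁻¹ * (ε ^ n * om n) ^ (1 - 1 / m) / q ^ k) ^ s * l ^ (s / m - 1) *
        ∫ y in closedBall x ε, R.indicator (fun y => |g y| ^ m) y := by
  have hm0 : 0 < m := by linarith
  have hs0 : 0 < s := by linarith
  have hom := om_pos n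
  have hP0 : 0 ≤ ∫ y in closedBall x ε, R.indicator (fun y => |g y| ^ m) y :=
    setIntegral_nonneg measurableSet_closedBall fun y _ => indicator_nonneg (fun z _ => by positivity) y
  have hG0 : 0 ≤ ∫ y in closedBall x ε, |g y| := setIntegral_nonneg measurableSet_closedBall fun y _ => abs_nonneg _
  have hT := holder_set (f := g) (V := ε ^ n * om n) (P := ∫ y in closedBall x ε, R.indicator (fun y => |g y| ^ m) y)
    measure_closedBall_lt_top.ne hm (hiL.mono_set hsub) (him.mono_set hsub)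
    (real_closedBall _ hε.le).le (mul_pos (pow_pos hε n) hom)
    (le_of_eq (setIntegral_congr_fun measurableSet_closedBall fun y hy =>
      (indicator_of_mem (hsub hy) (fun z => |g z| ^ m)).symm))
  generalize (∫ y in closedBall x ε, R.indicator (fun y => |g y| ^ m) y) = P at hP hP0 hT ⊢
  generalize (∫ y in closedBall x ε, |g y|) = T at hG0 hT ⊢
  generalize hA : 2 * C0 * ε ^ j * (ε ^ n)⁻¹ * (ε ^ n * om n) ^ (1 - 1 / m) / q ^ k = A
  have hA0 : 0 ≤ A := hA ▸ (by positivity)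
  have h2 : C0 * (ε ^ j * ((ε ^ n)⁻¹ * T)) / q ^ k ≤ A * P ^ (1 / m) := by
    rw [← hA, div_mul_eq_mul_div]
    refine div_le_div_of_nonneg_right ?_ (by positivity)
    refine (mul_le_mul_of_nonneg_left (mul_le_mul_of_nonneg_left (mul_le_mul_of_nonneg_left hT
      (by positivity)) (by positivity)) hC0).trans (le_of_eq ?_)
    ring
  have hsm : 0 ≤ s / m - 1 := by rw [sub_nonneg, le_div_iff₀ hm0]; linarith
  calc (C0 * (ε ^ j * ((ε ^ n)⁻¹ * T)) / q ^ k) ^ s ≤ (A * P ^ (1 / m)) ^ s :=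
        Real.rpow_le_rpow (by positivity) h2 hs0.le
    _ = A ^ s * P ^ ((s / m - 1) + 1) := by
        rw [Real.mul_rpow hA0 (Real.rpow_nonneg hP0 _), ← Real.rpow_mul hP0]
        congr 2; ring
    _ = A ^ s * (P ^ (s / m - 1) * P) := by
        rw [Real.rpow_add' hP0 (by rw [sub_add_cancel]; positivity), Real.rpow_one]
    _ ≤ A ^ s * l ^ (s / m - 1) * P := by
        rw [← mul_assoc]
        exact mul_le_mul_of_nonneg_right (mul_le_mul_of_nonneg_left
          (Real.rpow_le_rpow hP0 hP hsm) (Real.rpow_nonneg hA0 s)) hP0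

/-- Passing to the limit and taking the root. -/
lemma root_le {Y σ a W Bc W2 s : ℝ} {e : ℕ → ℝ} (hs1 : 1 ≤ s) (hσ : 0 ≤ σ) (ha : 0 ≤ a) (hW : 0 ≤ W)
    (hBc : 0 ≤ Bc) (hW2 : 1 ≤ W2) (hY : 0 ≤ Y) (he : Filter.Tendsto e Filter.atTop (nhds 0))
    (hK : ∀ K, Y ≤ 3 ^ s * (σ * a ^ s + W ^ s * (Bc ^ s * W2) + σ * e K ^ s)) :
    Y ^ s⁻¹ ≤ 6 * ((σ + 1) * a + W * Bc * W2) := by
  have hs0 : 0 < s := by linarith
  have h1 : Filter.Tendsto (fun K => e K ^ s) Filter.atTop (nhds 0) := by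
    simpa [Real.zero_rpow hs0.ne'] using he.rpow_const (Or.inr hs0.le)
  have h2 := ge_of_tendsto (((h1.const_mul σ).const_add (σ * a ^ s + W ^ s * (Bc ^ s * W2))).const_mul
    ((3 : ℝ) ^ s)) (Filter.Eventually.of_forall hK)
  rw [mul_zero, add_zero] at h2
  generalize hX : (σ + 1) * a + W * Bc * W2 = X
  have hX0 : 0 ≤ X := hX ▸ (by positivity)
  have h3 : σ * a ^ s ≤ X ^ s := by
    refine le_trans ?_ (Real.rpow_le_rpow (by positivity)
      ((le_add_of_nonneg_right (by positivity)).trans_eq hX : (σ + 1) * a ≤ X) hs0.le)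
    rw [Real.mul_rpow (by positivity) ha]
    exact mul_le_mul_of_nonneg_right ((le_add_of_nonneg_right zero_le_one).trans
      (Real.self_le_rpow_of_one_le (le_add_of_nonneg_left hσ) hs1)) (by positivity)
  have h4 : W ^ s * (Bc ^ s * W2) ≤ X ^ s := by
    refine le_trans ?_ (Real.rpow_le_rpow (by positivity)
      ((le_add_of_nonneg_left (by positivity)).trans_eq hX : W * Bc * W2 ≤ X) hs0.le)
    rw [Real.mul_rpow (by positivity) (by positivity), Real.mul_rpow hW hBc, mul_assoc (W ^ s)]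
    gcongr
    exact Real.self_le_rpow_of_one_le hW2 hs1
  have h5 : Y ≤ (6 * X) ^ s := by
    refine h2.trans ?_
    rw [show (6 : ℝ) * X = 3 * (2 * X) by ring, Real.mul_rpow (by norm_num) (by positivity)]
    refine mul_le_mul_of_nonneg_left ?_ (by positivity)
    rw [Real.mul_rpow zero_le_two hX0]
    have := Real.self_le_rpow_of_one_le one_le_two hs1
    nlinarith [Real.rpow_nonneg hX0 s]
  refine (Real.rpow_le_rpow hY h5 (by positivity)).trans_eq ?_
  rw [Real.rpow_rpow_inv (by positivity) hs0.ne']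

/-- Collecting the constants. -/
lemma final_le (hn : 3 ≤ n) {δ S1 W W2 C0 ω Kp Cc1 Mm I : ℝ} (hδ : 0 < δ) (hδ1 : δ ≤ 1) (hS : 0 ≤ S1) (hW : 0 ≤ W)
    (hW2 : 0 ≤ W2) (hC : 0 ≤ C0) (hω : 0 ≤ ω) (hKp : 0 ≤ Kp) (hCc : 0 ≤ Cc1) (hM : 0 ≤ Mm) (hI : 0 ≤ I) :
    6 * (S1 * (C0 * (((δ / 4) ^ (n + 1))⁻¹ * I)) + W * (2 * C0 * ω * (Kp / δ) * Cc1 * Mm) * W2) ≤
      6 * (S1 * C0 * 4 ^ (n + 1) + W * W2 * (2 * C0 * ω * Kp * Cc1)) * (1 / δ) ^ (n + 1) * (Mm + I) := by
  have e1 : S1 * (C0 * (((δ / 4) ^ (n + 1))⁻¹ * I)) = S1 * C0 * 4 ^ (n + 1) * (1 / δ) ^ (n + 1) * I := by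
    simp only [div_pow, inv_div, one_pow]
    field_simp
  have e2 : W * (2 * C0 * ω * (Kp / δ) * Cc1 * Mm) * W2 = W * W2 * (2 * C0 * ω * Kp * Cc1) * (1 / δ) * Mm := by
    field_simp
  rw [e1, e2]
  have hd : 1 / δ ≤ (1 / δ) ^ (n + 1) := le_self_pow₀ (by rw [le_div_iff₀ hδ]; linarith) (by omega)
  have hA : 0 ≤ S1 * C0 * 4 ^ (n + 1) := by positivity
  have hB : 0 ≤ W * W2 * (2 * C0 * ω * Kp * Cc1) := by positivity
  generalize S1 * C0 * 4 ^ (n + 1) = CA at hA ⊢
  generalize W * W2 * (2 * C0 * ω * Kp * Cc1) = CB at hB ⊢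
  calc 6 * (CA * (1 / δ) ^ (n + 1) * I + CB * (1 / δ) * Mm)
      ≤ 6 * (CA * (1 / δ) ^ (n + 1) * I + CB * (1 / δ) ^ (n + 1) * Mm) := by gcongr
    _ ≤ 6 * (CA + CB) * (1 / δ) ^ (n + 1) * (Mm + I) := by
      have t1 : 0 ≤ CA * (1 / δ) ^ (n + 1) * Mm := by positivity
      have t2 : 0 ≤ CB * (1 / δ) ^ (n + 1) * I := by positivity
      nlinarith

/-- Sphere bound for any quantity with a dyadic mean-value representation of order `j`. -/
theorem goodRadii_of_pointwise (hn : 3 ≤ n) {m s : ℝ} (hm : 1 ≤ m) (hms : m ≤ s) (j : ℕ) (hj : 1 ≤ j)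
    (hg : ((n : ℝ) - 1) * (1 / m - 1 / s) < j) (G : (E n → ℝ) → E n → ℝ) {C0 : ℝ} (hC0 : 0 ≤ C0)
    (hpt : ∀ (w : E n → ℝ) (x : E n) (ρ Λ : ℝ), 0 < ρ → ρ ≤ 1 →
      (∀ y ∈ closedBall x ρ, ContDiffAt ℝ 2 w y) →
      (∀ y ∈ closedBall x ρ, |Laplacian.laplacian w y| ≤ Λ) →
      ∀ K : ℕ, |G w x| ≤ C0 * ((ρ ^ (n + 1))⁻¹ * ∫ y in closedBall x ρ, |w y|) +
        C0 * ∑ k ∈ Finset.range K, (ρ / 2 ^ k) ^ j *
          (((ρ / 2 ^ k) ^ n)⁻¹ * ∫ y in closedBall x (ρ / 2 ^ k), |Laplacian.laplacian w y|) +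
        C0 * Λ * (ρ / 2 ^ K) ^ j) :
    GoodRadii n m s G := by
  set g := (j : ℝ) - ((n : ℝ) - 1) * (1 / m - 1 / s) with hgdef
  have hg0 : 0 < g := by linarith
  have hm0 : 0 < m := by linarith
  have hs0 : 0 < s := by linarith
  have hs1 : 1 ≤ s := by linarith
  set b := (2 : ℝ) ^ (g / 3) with hbdef
  have hb : 1 < b := Real.one_lt_rpow one_lt_two (by positivity)
  set q := b⁻¹ with hqdef
  have hq : 0 < q := by positivity
  have hq1 : q < 1 := inv_lt_one_of_one_lt₀ hb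
  have hqs : q ^ s < 1 := Real.rpow_lt_one hq.le hq1 hs0
  have hbm : 0 < (b ^ m)⁻¹ ∧ (b ^ m)⁻¹ < 1 :=
    ⟨by positivity, inv_lt_one_of_one_lt₀ (Real.one_lt_rpow hb hm0)⟩
  set Cc := 2 * (n : ℝ) * 3 ^ n * om n
  have hCc : 0 ≤ Cc := mul_nonneg (by positivity) (om_nonneg n)
  set Cc1 := Cc + 1
  set Kp := 32 / (1 - (b ^ m)⁻¹) + 1 with hKpdef
  have hKp : 1 ≤ Kp := le_add_of_nonneg_left (div_nonneg (by norm_num) (by linarith [hbm.2]))
  have hKb : 1 ≤ Kp ∧ 32 ≤ Kp * (1 - (b ^ m)⁻¹) := by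
    refine ⟨hKp, ?_⟩
    rw [hKpdef, add_mul, div_mul_cancel₀ _ (sub_pos.2 hbm.2).ne']
    linarith [hbm.2]
  set W := 1 / (1 - q)
  have hW : 0 ≤ W := one_div_nonneg.2 (by linarith)
  set W2 := 1 / (1 - q ^ s)
  have hW2 : 1 ≤ W2 := one_le_one_div (by linarith) (by linarith [Real.rpow_nonneg hq.le s])
  set S1 := (sig n).real univ + 1
  have hS1 : 1 ≤ S1 := le_add_of_nonneg_left measureReal_nonneg
  have hωm : 0 ≤ om n ^ (1 - 1 / m) := Real.rpow_nonneg (om_nonneg n) _
  set CA := S1 * C0 * 4 ^ (n + 1)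
  set CB := W * W2 * (2 * C0 * om n ^ (1 - 1 / m) * Kp * Cc1)
  refine ⟨6 * (CA + CB), n + 1, by positivity, fun w t δ Mm I hw ht hδ htδ hMm hwm hwI => ?_⟩
  have hδ1 : δ ≤ 1 := by linarith
  set ρ := δ / 4 with hρdef
  have hρ : 0 < ρ := by positivity
  have hρ1 : ρ ≤ 1 / 4 := by linarith
  let ε : ℕ → ℝ := fun k => ρ / 2 ^ k
  have hε : ∀ k, 0 < ε k ∧ ε k ≤ ρ := fun k =>
    ⟨by positivity, div_le_self hρ.le (one_le_pow₀ one_le_two)⟩
  set R := reg n (t + δ) with hR
  have hRc : IsCompact R := isCompact_reg _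
  have hlap := (contOn_lap hw).mono (reg_subset (t + δ))
  have hiL : IntegrableOn (fun y => |Laplacian.laplacian w y|) R := hlap.abs.integrableOn_compact hRc
  have him : IntegrableOn (fun y => |Laplacian.laplacian w y| ^ m) R :=
    (hlap.abs.rpow_const fun y _ => Or.inr hm0.le).integrableOn_compact hRc
  have hiw : IntegrableOn (fun y => |w y|) R :=
    (hw.continuousOn.mono (reg_subset _)).abs.integrableOn_compact hRc
  set f := R.indicator fun y => |Laplacian.laplacian w y| ^ m with hf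
  have hfi : Integrable f := (integrable_indicator_iff hRc.measurableSet).2 him
  have hf0 : ∀ y, 0 ≤ f y := fun y => indicator_nonneg (fun z _ => by positivity) y
  have hfM : (∫ y, f y) ≤ Mm ^ m := by rw [hf, integral_indicator hRc.measurableSet]; exact hwm
  have hI0 : 0 ≤ I := (setIntegral_nonneg hRc.measurableSet fun y _ => abs_nonneg _).trans hwI
  set L := Kp / δ
  have hL : 1 ≤ L := by rw [le_div_iff₀ hδ]; linarith
  let lam : ℕ → ℝ := fun k => ε k * (b ^ k) ^ m * L * Mm ^ m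
  have hlam : ∀ k, 0 ≤ lam k := fun k => by
    have := (hε k).1; positivity
  set bad := ⋃ k, {r ∈ Icc (0 : ℝ) 3 | lam k < bandInt (ε k) f r} with hbad
  refine ⟨bad, ?_, fun r hr => ?_⟩
  · exact bad_le (fun k => (hε k).1) hb hm0 hδ hδ1 hMm (hKb) hfi hf0 hfM
  · obtain ⟨⟨hr1, hr2⟩, hrb⟩ := hr
    have hgood : ∀ k, bandInt (ε k) f r ≤ lam k := fun k => by
      by_contra hc
      exact hrb (mem_iUnion.2 ⟨k, ⟨⟨by linarith, by linarith⟩, not_le.1 hc⟩⟩)
    obtain ⟨Λ, hΛ⟩ := hRc.exists_bound_of_continuousOn hlap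
    have hsubR : ∀ θ : sphere (0 : E n) 1, closedBall (r • θ.1) ρ ⊆ R := fun θ y hy => by
      rw [mem_closedBall, dist_eq_norm] at hy
      have h1 := abs_le.1 ((abs_norm_sub_norm_le y (r • θ.1)).trans hy)
      rw [norm_smul, mem_sphere_zero_iff_norm.1 θ.2, mul_one, Real.norm_eq_abs,
        abs_of_pos (by linarith : (0:ℝ) < r)] at h1
      exact ⟨by linarith [h1.1], by linarith [h1.2]⟩
    let P : ℕ → sphere (0 : E n) 1 → ℝ := fun k θ => ∫ y in closedBall (r • θ.1) (ε k), f y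
    have hP0 : ∀ k θ, 0 ≤ P k θ := fun k θ => setIntegral_nonneg measurableSet_closedBall fun y _ => hf0 y
    have hBS := fun k => ball_sphere (r := r) (show 1 ≤ n by omega) (by linarith) (hε k).1
      ((hε k).2.trans (by linarith)) hfi hf0
    let A : ℕ → ℝ := fun k =>
      2 * C0 * ε k ^ j * (ε k ^ n)⁻¹ * (ε k ^ n * om n) ^ (1 - 1 / m) / q ^ k
    have hA : ∀ k, 0 ≤ A k := fun k => by
      have := (hε k).1; have := om_pos n; positivity
    set a := C0 * ((ρ ^ (n + 1))⁻¹ * I) with ha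
    have ha0 : 0 ≤ a := by positivity
    let e : ℕ → ℝ := fun K => C0 * |Λ| * (ρ / 2 ^ K) ^ j
    have he0 : ∀ K, 0 ≤ e K := fun K => by positivity
    have hbound : ∀ (K : ℕ) (θ : sphere (0 : E n) 1), |G w (r • θ.1)| ^ s ≤
        3 ^ s * (a ^ s + W ^ s * ∑ k ∈ Finset.range K, A k ^ s * lam k ^ (s / m - 1) * P k θ + e K ^ s) := by
      intro K θ
      let gk : ℕ → ℝ := fun k => C0 * (ε k ^ j * ((ε k ^ n)⁻¹ *
        ∫ y in closedBall (r • θ.1) (ε k), |Laplacian.laplacian w y|))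
      have hgk : ∀ k, 0 ≤ gk k := fun k => by
        have := (hε k).1
        have := setIntegral_nonneg (μ := volume) (measurableSet_closedBall (x := r • θ.1) (ε := ε k))
          (fun y _ => abs_nonneg (Laplacian.laplacian w y))
        positivity
      have h1 : |G w (r • θ.1)| ≤ a + ∑ k ∈ Finset.range K, gk k + e K := by
        refine (hpt w _ ρ |Λ| hρ (by linarith) (fun y hy => hw.contDiffAt
          (isOpen_compl_singleton.mem_nhds (reg_subset _ (hsubR θ hy))))
          (fun y hy => ((Real.norm_eq_abs _).symm.trans_le (hΛ y (hsubR θ hy))).trans (le_abs_self Λ)) K).trans ?_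
        rw [Finset.mul_sum]
        refine add_le_add (add_le_add ?_ le_rfl) le_rfl
        exact mul_le_mul_of_nonneg_left (mul_le_mul_of_nonneg_left
          ((setIntegral_mono_set hiw (Filter.Eventually.of_forall fun y => abs_nonneg _)
            (HasSubset.Subset.eventuallyLE (hsubR θ))).trans hwI) (by positivity)) hC0
      refine (Real.rpow_le_rpow (abs_nonneg _) h1 hs0.le).trans ((rpow_add3 ha0
        (Finset.sum_nonneg fun k _ => hgk k) (he0 K) hs0.le).trans ?_)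
      refine mul_le_mul_of_nonneg_left (add_le_add (add_le_add le_rfl ?_) le_rfl) (by positivity)
      refine (rpow_sum_le hs0 hq hq1 K hgk).trans (mul_le_mul_of_nonneg_left
        (Finset.sum_le_sum fun k _ => ?_) (Real.rpow_nonneg hW s))
      have hsub : closedBall (r • θ.1) (ε k) ⊆ R := (closedBall_subset_closedBall (hε k).2).trans (hsubR θ)
      exact point_le hm hms hC0 hq (hε k).1 (hlam k) hiL him hsub (((hBS k).2.2 θ).trans (hgood k))
    set Bc := 2 * C0 * om n ^ (1 - 1 / m) * L * Cc1 * Mm with hBc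
    have hBc0 : 0 ≤ Bc := by positivity
    have hterm : ∀ k, A k ^ s * lam k ^ (s / m - 1) * ∫ θ, P k θ ∂sig n ≤ Bc ^ s * (q ^ s) ^ k := fun k =>
      term_le hn hgdef hg0 hm hms hρ hρ1 hC0 hCc hL hMm
        ((hBS k).2.1.trans (mul_le_mul_of_nonneg_left (hgood k) (mul_nonneg hCc (pow_nonneg (hε k).1.le _))))
    set σ0 := (sig n).real univ
    have hK : ∀ K, sphInt (fun x => |G w x| ^ s) r ≤
        3 ^ s * (σ0 * a ^ s + W ^ s * (Bc ^ s * W2) + σ0 * e K ^ s) := by
      intro K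
      have hint : Integrable (fun θ => ∑ k ∈ Finset.range K, A k ^ s * lam k ^ (s / m - 1) * P k θ) (sig n) :=
        integrable_finsetSum _ fun k _ => (hBS k).1.const_mul _
      obtain ⟨hi2, hi3⟩ := integral_affine hint (3 ^ s) (a ^ s) (e K ^ s) (W ^ s)
      have hm1 : sphInt (fun x => |G w x| ^ s) r ≤ ∫ θ, 3 ^ s * (a ^ s +
          W ^ s * (∑ k ∈ Finset.range K, A k ^ s * lam k ^ (s / m - 1) * P k θ) + e K ^ s) ∂sig n :=
        integral_mono_of_nonneg (Filter.Eventually.of_forall fun θ => Real.rpow_nonneg (abs_nonneg _) s) hi2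
          (Filter.Eventually.of_forall fun θ => hbound K θ)
      rw [hi3] at hm1
      refine hm1.trans ?_
      refine mul_le_mul_of_nonneg_left (add_le_add (add_le_add le_rfl (mul_le_mul_of_nonneg_left ?_
        (Real.rpow_nonneg hW s))) le_rfl) (Real.rpow_nonneg (by norm_num : (0:ℝ) ≤ 3) s)
      rw [integral_finsetSum _ (fun k _ => (hBS k).1.const_mul _)]
      simp only [integral_const_mul]
      refine le_trans (Finset.sum_le_sum (g := fun k => Bc ^ s * (q ^ s) ^ k) fun k _ => hterm k) ?_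
      rw [← Finset.mul_sum]
      refine mul_le_mul_of_nonneg_left ?_ (by positivity)
      have := sum_le_hasSum (Finset.range K) (fun i _ => by positivity)
        (hasSum_geometric_of_lt_one (Real.rpow_nonneg hq.le s) hqs)
      simpa [W2] using this
    have h5 : sN s (G w) r ≤ 6 * (S1 * a + W * Bc * W2) := by
      refine root_le (e := e) hs1 measureReal_nonneg ha0 hW hBc0 hW2 ?_ ?_ hK
      · exact integral_nonneg fun θ => Real.rpow_nonneg (abs_nonneg _) s
      · have h0 : Filter.Tendsto (fun K : ℕ => ρ / 2 ^ K) Filter.atTop (nhds 0) :=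
          tendsto_const_nhds.div_atTop (tendsto_pow_atTop_atTop_of_one_lt one_lt_two)
        have h1 : Filter.Tendsto e Filter.atTop (nhds (C0 * |Λ| * 0 ^ j)) := (h0.pow j).const_mul _
        rw [zero_pow (by omega), mul_zero] at h1
        exact h1
    refine h5.trans ?_
    exact final_le hn hδ hδ1 (by positivity) hW (zero_le_one.trans hW2) hC0 (by positivity) (zero_le_one.trans hKp)
      (by positivity) hMm hI0

/-- Module S: sphere bounds for the value and for the derivative. -/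
theorem sphereBound {n : ℕ} (hn : 3 ≤ n) (hM : MeanBound n) : SphereBound n := by
  obtain ⟨C, hC, hmean⟩ := hM
  refine fun m s hm hms => ⟨fun hg => goodRadii_of_pointwise hn hm hms 2 (by norm_num) (by exact_mod_cast hg) _ hC
    fun w x ρ Λ hρ hρ1 h1 h2 K => ?_,
    fun hg => goodRadii_of_pointwise hn hm hms 1 le_rfl (by exact_mod_cast hg) _ hC
      fun w x ρ Λ hρ hρ1 h1 h2 K => ?_⟩
  · refine ((hmean w x ρ Λ hρ h1 h2 K).1).trans (add_le_add (add_le_add ?_ le_rfl) le_rfl)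
    have h3 : ρ ^ (n + 1) ≤ ρ ^ n := pow_le_pow_of_le_one hρ.le hρ1 (Nat.le_succ n)
    gcongr
  · simp only [pow_one]
    rw [abs_of_nonneg (show 0 ≤ dn w x from norm_nonneg _)]
    exact (hmean w x ρ Λ hρ h1 h2 K).2

end Vale.Agent.P100E
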