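import Vale.Agent.P100E.Radial

/-!
# P100 energy method: the feedback inequality between two nearby balls
-/

noncomputable section

namespace Vale.Agent.P100E

open MeasureTheory Set Filter Topology Vale.Agent.P100H Metric

variable {n : ℕ}

theorem reg_ne {T : ℝ} {x : E n} (hx : x ∈ reg n T) : x ≠ 0 := fun h => by
  have := hx.1; simp [h] at this; linarith

theorem isCompact_reg (T : ℝ) : IsCompact (reg n T) :=
  (isCompact_closedBall (0 : E n) T).of_isClosed_subset
    ((isClosed_le continuous_const continuous_norm).inter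
      (isClosed_le continuous_norm continuous_const))
    fun _x hx => mem_closedBall_zero_iff.2 hx.2

theorem src_nonneg (A p : ℝ) {w : E n → ℝ} (hw : Super w) (x : E n) : 0 ≤ src A p w x :=
  mul_nonneg (Real.rpow_nonneg (norm_nonneg x) _) (Real.rpow_nonneg (hw.pos x).le _)

theorem dens_nonneg {A B p q : ℝ} {u v : E n → ℝ} (hu : Super u) (hv : Super v) (x : E n) :
    0 ≤ dens A B p q u v x :=
  add_nonneg (mul_nonneg (src_nonneg A p hv x) (hv.pos x).le)
    (mul_nonneg (src_nonneg B q hu x) (hu.pos x).le)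

theorem continuousAt_dn {u : E n → ℝ} (hu : Super u) {x : E n} (hx : x ≠ 0) :
    ContinuousAt (dn u) x :=
  (((hu.at' hx).fderiv_right (m := 1) (by norm_num)).continuousAt).norm

theorem lap_abs {A p : ℝ} {u v : E n → ℝ} (hv : Super v) (he : Eqn A p u v) {x : E n}
    (hx : x ≠ 0) : |Laplacian.laplacian u x| = src A p v x := by
  rw [← abs_neg, he x hx, abs_of_nonneg]
  · rfl
  · exact src_nonneg A p hv x

/-- `L^m` bound for a source, by interpolation between mass and energy. -/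
theorem src_Lm (n : ℕ) (A : ℝ) {p x C1 : ℝ} (hp : 0 < p) (hx : 0 < x) (hx1 : x ≤ (p + 1)⁻¹)
    (hC1 : 0 ≤ C1) : ∃ K : ℝ, 0 < K ∧ ∀ v : E n → ℝ, Super v →
      (∫ y in reg n 2, src A p v y) ≤ C1 → ∀ T Φ : ℝ, T ≤ 2 → 1 ≤ Φ →
      (∫ y in reg n T, src A p v y * v y) ≤ Φ →
      (∫ y in reg n T, |src A p v y| ^ (1 - x)⁻¹) ≤ (K * Φ ^ (p * x)) ^ (1 - x)⁻¹ := by
  have hx2 : x < 1 := lt_of_le_of_lt hx1 (inv_lt_one_of_one_lt₀ (by linarith))
  have hx3 : 0 < 1 - x := by linarith
  set m := (1 - x)⁻¹ with hm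
  set θ := p * x / (1 - x) with hθ
  have hθ0 : 0 < θ := by positivity
  have hθ1 : θ ≤ 1 := by
    rw [hθ, div_le_one hx3]
    have : (p + 1) * x ≤ 1 :=
      (mul_le_mul_of_nonneg_left hx1 (by linarith)).trans_eq (mul_inv_cancel₀ (by linarith))
    linarith
  obtain ⟨W, hW⟩ := (isCompact_wide (n := n)).exists_bound_of_continuousOn
    (f := fun y : E n => ‖y‖ ^ (A / p)) fun y hy => (continuous_norm.continuousAt.rpow_const
      (Or.inl (norm_ne_zero_iff.2 (wide_ne_zero hy)))).continuousWithinAt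
  set a := C1 + 1
  set b := max W 0 + 1
  have ha : 0 < a := by positivity
  have hb : 0 < b := by positivity
  refine ⟨(a ^ (1 - θ) * b ^ θ) ^ m⁻¹, by positivity, fun v hv hI T Φ hT hΦ hJ => ?_⟩
  have hΦ0 : 0 < Φ := by linarith
  have hrhs : ((a ^ (1 - θ) * b ^ θ) ^ m⁻¹ * Φ ^ (p * x)) ^ m = a ^ (1 - θ) * (b * Φ) ^ θ := by
    rw [Real.mul_rpow (by positivity) (by positivity),
      Real.rpow_inv_rpow (by positivity) (by rw [hm]; positivity), ← Real.rpow_mul hΦ0.le,
      Real.mul_rpow hb.le hΦ0.le, show p * x * m = θ from (div_eq_mul_inv _ _).symm]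
    ring
  rw [hrhs]
  set f := src A p v
  have hsub : reg n T ⊆ reg n 2 := fun y hy => ⟨hy.1, hy.2.trans hT⟩
  have hf0 : ∀ y, 0 ≤ f y := src_nonneg A p hv
  have hfc : ∀ y ∈ reg n T, ContinuousAt f y := fun y hy => continuousAt_src hv (reg_ne hy)
  have hfi : IntegrableOn f (reg n T) :=
    ContinuousOn.integrableOn_compact (isCompact_reg T) fun y hy => (hfc y hy).continuousWithinAt
  have hhi : IntegrableOn (fun y => f y * v y) (reg n T) :=
    ContinuousOn.integrableOn_compact (isCompact_reg T) fun y hy =>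
      ((hfc y hy).mul hv.cont.continuousAt).continuousWithinAt
  have hmi : IntegrableOn (fun y => |f y| ^ m) (reg n T) :=
    ContinuousOn.integrableOn_compact (isCompact_reg T) fun y hy =>
      ((hfc y hy).abs.rpow_const (Or.inr (by rw [hm]; positivity))).continuousWithinAt
  set c := a ^ (1 - θ) * (b * Φ) ^ θ
  have hc : 0 < c := by positivity
  have hpt : ∀ y ∈ reg n T,
      |f y| ^ m ≤ c * ((1 - θ) / a * f y + θ / Φ * (f y * v y)) := by
    intro y hy
    have hy0 := norm_pos_iff.2 (reg_ne hy)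
    have hfy : 0 < f y := src_pos hv (reg_ne hy)
    set h := f y * (‖y‖ ^ (A / p) * v y) with hh
    have hvy := hv.pos y
    have hh0 : 0 < h := by positivity
    have e1 : f y ^ p⁻¹ = ‖y‖ ^ (A / p) * v y := by
      simp only [f, src]
      rw [Real.mul_rpow (by positivity) (by positivity), ← Real.rpow_mul hy0.le,
        ← Real.rpow_mul hvy.le, mul_inv_cancel₀ hp.ne', Real.rpow_one, ← div_eq_mul_inv]
    have e2 : |f y| ^ m = f y ^ (1 - θ) * h ^ θ := by
      rw [hh, ← e1, Real.mul_rpow hfy.le (by positivity), ← Real.rpow_mul hfy.le, ← mul_assoc,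
        ← Real.rpow_add hfy, ← Real.rpow_add hfy, abs_of_pos hfy]
      congr 1
      rw [hm, hθ]
      field_simp
      ring
    have e3 := Real.geom_mean_le_arith_mean2_weighted (show 0 ≤ 1 - θ by linarith) hθ0.le
      (show 0 ≤ f y / a by positivity) (show 0 ≤ h / (b * Φ) by positivity) (by ring)
    have e4 : h / (b * Φ) ≤ f y * v y / Φ := by
      rw [div_le_div_iff₀ (by positivity) hΦ0, hh]
      have hWy : ‖y‖ ^ (A / p) ≤ b := by
        have := hW y (reg_subset_wide (hT.trans (by norm_num)) hy)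
        rw [Real.norm_eq_abs, abs_of_pos (Real.rpow_pos_of_pos hy0 _)] at this
        linarith [le_max_left W 0]
      have := mul_le_mul_of_nonneg_left hWy (show 0 ≤ f y * v y * Φ by positivity)
      linarith
    rw [e2]
    calc f y ^ (1 - θ) * h ^ θ = c * ((f y / a) ^ (1 - θ) * (h / (b * Φ)) ^ θ) := by
          rw [Real.div_rpow hfy.le ha.le, Real.div_rpow hh0.le (by positivity)]
          have : a ^ (1 - θ) ≠ 0 := by positivity
          have : (b * Φ) ^ θ ≠ 0 := by positivity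
          field_simp
          rfl
      _ ≤ c * ((1 - θ) * (f y / a) + θ * (h / (b * Φ))) := mul_le_mul_of_nonneg_left e3 hc.le
      _ ≤ c * ((1 - θ) / a * f y + θ / Φ * (f y * v y)) := by
          refine mul_le_mul_of_nonneg_left ?_ hc.le
          have e5 := mul_le_mul_of_nonneg_left e4 hθ0.le
          have e6 : (1 - θ) / a * f y + θ / Φ * (f y * v y) =
              (1 - θ) * (f y / a) + θ * (f y * v y / Φ) := by ring
          linarith
  have i1 : IntegrableOn (fun y => (1 - θ) / a * f y) (reg n T) := hfi.const_mul _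
  have i2 : IntegrableOn (fun y => θ / Φ * (f y * v y)) (reg n T) := hhi.const_mul _
  refine (setIntegral_mono_on hmi ((i1.add i2).const_mul c)
    (isCompact_reg T).measurableSet hpt).trans ?_
  simp only [Pi.add_apply]
  rw [integral_const_mul, integral_add i1 i2, integral_const_mul, integral_const_mul]
  have h1 : (∫ y in reg n T, f y) ≤ C1 := by
    refine le_trans (setIntegral_mono_set ?_ (Eventually.of_forall hf0) hsub.eventuallyLE) hI
    exact ContinuousOn.integrableOn_compact (isCompact_reg 2) fun y hy =>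
      (continuousAt_src hv (reg_ne hy)).continuousWithinAt
  have h2 : (1 - θ) / a * (∫ y in reg n T, f y) ≤ 1 - θ := by
    refine (mul_le_mul_of_nonneg_left (h1.trans (show C1 ≤ a by simp [a]))
      (div_nonneg (by linarith) ha.le)).trans (le_of_eq ?_)
    field_simp
  have h3 : θ / Φ * (∫ y in reg n T, f y * v y) ≤ θ := by
    refine (mul_le_mul_of_nonneg_left hJ (by positivity)).trans (le_of_eq ?_)
    field_simp
  calc c * ((1 - θ) / a * (∫ y in reg n T, f y) + θ / Φ * ∫ y in reg n T, f y * v y)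
      ≤ c * ((1 - θ) + θ) := mul_le_mul_of_nonneg_left (add_le_add h2 h3) hc.le
    _ = c := by ring

/-- The three kinds of bounds on one component on a good sphere. -/
theorem component (hn : 3 ≤ n) (hS : SphereBound n) {A p x y C1 : ℝ} (hp : 0 < p) (hx : 0 < x)
    (hx1 : x ≤ (p + 1)⁻¹) (hy : 0 < y) (hxy1 : x + y ≤ 1) (hC1 : 0 ≤ C1)
    (hxy : ((n : ℝ) - 3) / ((n : ℝ) - 1) < x + y) :
    ∃ (D : ℝ) (N : ℕ), 0 ≤ D ∧ ∀ u v : E n → ℝ, Super u → Super v → Eqn A p u v →
      (∫ z in reg n 2, u z) ≤ C1 → (∫ z in reg n 2, src A p v z) ≤ C1 →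
      ∀ t δ Φ : ℝ, 1 ≤ t → 0 < δ → t + δ ≤ 2 → 1 ≤ Φ →
      (∫ z in reg n (t + δ), src A p v z * v z) ≤ Φ →
      ∃ bad : Set ℝ, volume bad ≤ ENNReal.ofReal (δ * (13 / 64)) ∧
        ∀ r ∈ Icc t (t + δ / 2) \ bad,
          sN (1 - x)⁻¹ (src A p v) r ≤ D * (1 / δ) ^ N * Φ ^ (p * x) ∧
          sN y⁻¹ u r ≤ D * (1 / δ) ^ N * Φ ^ (p * x) ∧
          sN (2 / (1 - x + y)) u r ≤ D * (1 / δ) ^ N * Φ ^ (p * x) ∧
          sN (2 / (1 - x + y)) (dn u) r ≤ D * (1 / δ) ^ N * Φ ^ (p * x) := by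
  have hx2 : x < 1 := lt_of_le_of_lt hx1 (inv_lt_one_of_one_lt₀ (by linarith))
  have hx3 : 0 < 1 - x := by linarith
  obtain ⟨K, hK, hKb⟩ := src_Lm n A hp hx hx1 hC1
  set m := (1 - x)⁻¹ with hm
  set s := 2 / (1 - x + y) with hs
  have hm1 : 1 ≤ m := one_le_inv_iff₀.2 ⟨hx3, by linarith⟩
  have hn1 : (0 : ℝ) < (n : ℝ) - 1 := by
    have : (3 : ℝ) ≤ n := by exact_mod_cast hn
    linarith
  have hxy' := (div_lt_iff₀ hn1).1 hxy
  have hms : m ≤ s := by
    rw [hm, hs, le_div_iff₀ (by linarith), inv_mul_le_iff₀ hx3]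
    linarith
  have hmy : m ≤ y⁻¹ := inv_anti₀ hy (by linarith)
  have em : 1 / m = 1 - x := by rw [hm, one_div, inv_inv]
  have es : 1 / s = (1 - x + y) / 2 := by rw [hs, one_div, inv_div]
  have ey : 1 / y⁻¹ = y := by rw [one_div, inv_inv]
  obtain ⟨Ca, Na, hCa, ha⟩ := (hS m y⁻¹ hm1 hmy).1 (by rw [em, ey]; nlinarith)
  obtain ⟨Cb, Nb, hCb, hb⟩ := (hS m s hm1 hms).1 (by rw [em, es]; nlinarith)
  obtain ⟨Cc, Nc, hCc, hc⟩ := (hS m s hm1 hms).2 (by rw [em, es]; nlinarith)
  refine ⟨(Ca + Cb + Cc) * (K + C1) + 64 * K, Na + Nb + Nc + 1, by positivity,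
    fun u v hu hv he hI1 hI2 t δ Φ ht hδ htδ hΦ hJ => ?_⟩
  have hΦp : 1 ≤ Φ ^ (p * x) := Real.one_le_rpow hΦ (by positivity)
  set M := K * Φ ^ (p * x)
  have hM : 0 < M := mul_pos hK (by linarith)
  have hL : (∫ z in reg n (t + δ), |src A p v z| ^ m) ≤ M ^ m :=
    hKb v hv hI2 (t + δ) Φ htδ hΦ hJ
  have hlap : (∫ z in reg n (t + δ), |Laplacian.laplacian u z| ^ m) ≤ M ^ m := by
    refine le_trans (le_of_eq (setIntegral_congr_fun (isCompact_reg _).measurableSet
      fun z hz => ?_)) hL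
    simp only [lap_abs hv he (reg_ne hz), abs_of_nonneg (src_nonneg A p hv z)]
  have hI : (∫ z in reg n (t + δ), |u z|) ≤ C1 := by
    refine le_trans (le_trans (le_of_eq ?_) (setIntegral_mono_set
      (hu.cont.continuousOn.integrableOn_compact (isCompact_reg 2))
      (Eventually.of_forall fun z => (hu.pos z).le)
      (show reg n (t + δ) ⊆ reg n 2 from fun z hz => ⟨hz.1, hz.2.trans htδ⟩).eventuallyLE)) hI1
    exact integral_congr_ae (Eventually.of_forall fun z => abs_of_pos (hu.pos z))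
  obtain ⟨b1, hb1, hb1'⟩ := ha u t δ M C1 hu.diff ht hδ htδ hM.le hlap hI
  obtain ⟨b2, hb2, hb2'⟩ := hb u t δ M C1 hu.diff ht hδ htδ hM.le hlap hI
  obtain ⟨b3, hb3, hb3'⟩ := hc u t δ M C1 hu.diff ht hδ htδ hM.le hlap hI
  obtain ⟨b4, hb4, hb4'⟩ := radial_bad hn (fun z hz => continuousAt_src hv hz) hm1 ht
    (η := δ / 64) (by positivity) (by linarith) hM hL
  refine ⟨b1 ∪ b2 ∪ b3 ∪ b4, ?_, fun r hr => ?_⟩
  · calc volume (b1 ∪ b2 ∪ b3 ∪ b4) ≤ volume b1 + volume b2 + volume b3 + volume b4 :=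
          (measure_union_le _ _).trans (add_le_add ((measure_union_le _ _).trans
            (add_le_add (measure_union_le _ _) le_rfl)) le_rfl)
      _ ≤ ENNReal.ofReal (δ / 16) + ENNReal.ofReal (δ / 16) + ENNReal.ofReal (δ / 16) +
          ENNReal.ofReal (δ / 64) := by gcongr
      _ = ENNReal.ofReal (δ * (13 / 64)) := by
          rw [← ENNReal.ofReal_add (by positivity) (by positivity),
            ← ENNReal.ofReal_add (by positivity) (by positivity),
            ← ENNReal.ofReal_add (by positivity) (by positivity)]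
          congr 1
          ring
  · obtain ⟨hr1, hr2⟩ := hr
    simp only [mem_union, not_or] at hr2
    obtain ⟨⟨⟨n1, n2⟩, n3⟩, n4⟩ := hr2
    have hd1 : 1 ≤ 1 / δ := by rw [le_div_iff₀ hδ]; linarith
    set X := (1 / δ) ^ (Na + Nb + Nc + 1) * Φ ^ (p * x)
    have hX0 : 0 ≤ X := by positivity
    have hMI : M + C1 ≤ (K + C1) * Φ ^ (p * x) := by
      have := mul_le_mul_of_nonneg_left hΦp hC1
      simp only [M]
      linarith
    have key : ∀ (C : ℝ) (N : ℕ), 0 ≤ C → N ≤ Na + Nb + Nc + 1 →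
        C * (1 / δ) ^ N * (M + C1) ≤ C * (K + C1) * X := by
      intro C N hC hN
      calc C * (1 / δ) ^ N * (M + C1)
          ≤ C * (1 / δ) ^ (Na + Nb + Nc + 1) * ((K + C1) * Φ ^ (p * x)) := by
            gcongr
        _ = C * (K + C1) * X := by simp only [X]; ring
    have hfin : ∀ C', C' ≤ (Ca + Cb + Cc) * (K + C1) + 64 * K →
        C' * X ≤ ((Ca + Cb + Cc) * (K + C1) + 64 * K) * (1 / δ) ^ (Na + Nb + Nc + 1) *
          Φ ^ (p * x) := by
      intro C' hC'
      rw [mul_assoc _ ((1 / δ) ^ _)]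
      exact mul_le_mul_of_nonneg_right hC' hX0
    have pa := mul_nonneg hCa (show 0 ≤ K + C1 by positivity)
    have pb := mul_nonneg hCb (show 0 ≤ K + C1 by positivity)
    have pc := mul_nonneg hCc (show 0 ≤ K + C1 by positivity)
    refine ⟨?_, ?_, ?_, ?_⟩
    · refine le_trans (hb4' r ⟨⟨hr1.1, by linarith [hr1.2]⟩, n4⟩) (le_trans ?_
        (hfin (64 * K) (by linarith)))
      have : (1 / δ : ℝ) ≤ (1 / δ) ^ (Na + Nb + Nc + 1) := le_self_pow₀ hd1 (by omega)
      have h0 : 0 ≤ 64 * K * Φ ^ (p * x) := by positivity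
      have := mul_le_mul_of_nonneg_left this h0
      have e : M / (δ / 64) = 64 * K * Φ ^ (p * x) * (1 / δ) := by
        simp only [M]; field_simp
      have e' : 64 * K * X = 64 * K * Φ ^ (p * x) * (1 / δ) ^ (Na + Nb + Nc + 1) := by
        simp only [X]; ring
      linarith
    · exact (hb1' r ⟨hr1, n1⟩).trans ((key Ca Na hCa (by omega)).trans
        (hfin _ (by linarith)))
    · exact (hb2' r ⟨hr1, n2⟩).trans ((key Cb Nb hCb (by omega)).trans
        (hfin _ (by linarith)))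
    · exact (hb3' r ⟨hr1, n3⟩).trans ((key Cc Nc hCc (by omega)).trans
        (hfin _ (by linarith)))

/-- The feedback inequality. -/
theorem feedback (hn : 3 ≤ n) (hP : PohozaevBound n) (hAp : AprioriBound n) (hS : SphereBound n)
    {A B p q x y : ℝ} (hA : -2 < A) (hB : -2 < B) (hp : 0 < p) (hq : 0 < q) (hpq : 1 < p * q)
    (hsub : (n : ℝ) - 2 < ((n : ℝ) + A) / (p + 1) + ((n : ℝ) + B) / (q + 1))
    (hx : 0 < x) (hx1 : x ≤ (p + 1)⁻¹) (hy : 0 < y) (hy1 : y ≤ (q + 1)⁻¹)
    (hxy : ((n : ℝ) - 3) / ((n : ℝ) - 1) < x + y) :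
    ∃ (C : ℝ) (N : ℕ), 0 ≤ C ∧ ∀ u v : E n → ℝ, Sol A B p q u v →
      ∀ t δ : ℝ, 1 ≤ t → 0 < δ → t + δ ≤ 2 →
        energy A B p q u v t ≤
          C * (1 / δ) ^ N * (1 + energy A B p q u v (t + δ)) ^ (p * x + q * y) := by
  obtain ⟨CP, hCP, hPo⟩ := hP A B p q hA hB hp hq hsub
  obtain ⟨C1, hC1, hAb⟩ := hAp A B p q hA hB hp hq hpq
  have hxy1 : x + y ≤ 1 := by
    have h1 : (p + 1)⁻¹ + (q + 1)⁻¹ ≤ 1 := by
      rw [inv_eq_one_div, inv_eq_one_div,
        div_add_div _ _ (show p + 1 ≠ 0 by linarith) (show q + 1 ≠ 0 by linarith),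
        div_le_one (by positivity)]
      linarith
    linarith
  obtain ⟨Du, Nu, hDu, hcu⟩ := component hn hS (A := A) hp hx hx1 hy hxy1 hC1 hxy
  obtain ⟨Dv, Nv, hDv, hcv⟩ := component hn hS (A := B) hq hy hy1 hx (by linarith) hC1
    (by linarith)
  refine ⟨CP * (5 * (Du * Dv)), Nu + Nv, by positivity, fun u v hs t δ ht hδ htδ => ?_⟩
  obtain ⟨hint, hPr⟩ := hPo u v hs
  obtain ⟨a1, a2, a3, a4⟩ := hAb u v hs
  set F := energy A B p q u v with hF
  have hd0 := dens_nonneg (A := A) (B := B) (p := p) (q := q) hs.hu hs.hv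
  have hmono : ∀ r r', r ≤ r' → F r ≤ F r' := fun r r' h =>
    setIntegral_mono_set (hint r') (Eventually.of_forall hd0)
      (closedBall_subset_closedBall h).eventuallyLE
  have hF0 : ∀ r, 0 ≤ F r := fun r => setIntegral_nonneg measurableSet_closedBall fun z _ => hd0 z
  set T := t + δ
  set Φ := 1 + F T
  have hΦ : 1 ≤ Φ := by linarith [hF0 T]
  have hregb : reg n T ⊆ closedBall (0 : E n) T := fun z hz => mem_closedBall_zero_iff.2 hz.2
  have hden : (∫ z in reg n T, dens A B p q u v z) ≤ Φ := by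
    refine (setIntegral_mono_set (hint T) (Eventually.of_forall hd0) hregb.eventuallyLE).trans ?_
    simp only [Φ, F, energy]
    linarith
  have hf : ∀ {w : E n → ℝ} {G H : ℝ}, Super w →
      IntegrableOn (fun z => src G H w z * w z) (reg n T) := fun hw =>
    ContinuousOn.integrableOn_compact (isCompact_reg T) fun z hz =>
      ((continuousAt_src hw (reg_ne hz)).mul hw.cont.continuousAt).continuousWithinAt
  have hJu : (∫ z in reg n T, src A p v z * v z) ≤ Φ := by
    refine (setIntegral_mono_on (hf hs.hv) ((hint T).mono_set hregb)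
      (isCompact_reg T).measurableSet fun z _ => ?_).trans hden
    exact le_add_of_nonneg_right (mul_nonneg (src_nonneg B q hs.hu z) (hs.hu.pos z).le)
  have hJv : (∫ z in reg n T, src B q u z * u z) ≤ Φ := by
    refine (setIntegral_mono_on (hf hs.hu) ((hint T).mono_set hregb)
      (isCompact_reg T).measurableSet fun z _ => ?_).trans hden
    exact le_add_of_nonneg_left (mul_nonneg (src_nonneg A p hs.hv z) (hs.hv.pos z).le)
  obtain ⟨bu, hbu, hu'⟩ := hcu u v hs.hu hs.hv hs.eu a1 a3 t δ Φ ht hδ htδ hΦ hJu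
  obtain ⟨bv, hbv, hv'⟩ := hcv v u hs.hv hs.hu hs.ev a2 a4 t δ Φ ht hδ htδ hΦ hJv
  obtain ⟨r, hr, hru, hrv⟩ : ∃ r ∈ Icc t (t + δ / 2), r ∉ bu ∧ r ∉ bv := by
    by_contra hcon
    have hcov : Icc t (t + δ / 2) ⊆ bu ∪ bv := fun r hr => by
      by_contra h
      rw [mem_union, not_or] at h
      exact hcon ⟨r, hr, h.1, h.2⟩
    have h1 := (measure_mono hcov).trans ((measure_union_le bu bv).trans (add_le_add hbu hbv))
    rw [Real.volume_Icc, ← ENNReal.ofReal_add (by positivity) (by positivity),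
      ENNReal.ofReal_le_ofReal_iff (by positivity)] at h1
    linarith
  have hr0 : 0 < r := by linarith [hr.1]
  obtain ⟨f1, u1, u2, du⟩ := hu' r ⟨hr, hru⟩
  obtain ⟨g1, v1, v2, dv⟩ := hv' r ⟨hr, hrv⟩
  set P := Du * (1 / δ) ^ Nu * Φ ^ (p * x)
  set Q := Dv * (1 / δ) ^ Nv * Φ ^ (q * y)
  have hP0 : 0 ≤ P := by positivity
  have hm : Real.HolderConjugate (1 - x)⁻¹ x⁻¹ := by
    rw [Real.holderConjugate_iff]
    exact ⟨(one_lt_inv₀ (by linarith)).2 (by linarith), by simp⟩
  have hm' : Real.HolderConjugate (1 - y)⁻¹ y⁻¹ := by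
    rw [Real.holderConjugate_iff]
    exact ⟨(one_lt_inv₀ (by linarith)).2 (by linarith), by simp⟩
  have hst : Real.HolderConjugate (2 / (1 - x + y)) (2 / (1 - y + x)) := by
    rw [Real.holderConjugate_iff]
    refine ⟨?_, ?_⟩
    · rw [one_lt_div (by linarith)]
      linarith
    · rw [inv_div, inv_div]
      ring
  have cu : ∀ z : E n, z ≠ 0 → ContinuousAt u z := fun z _ => hs.hu.cont.continuousAt
  have cv' : ∀ z : E n, z ≠ 0 → ContinuousAt v z := fun z _ => hs.hv.cont.continuousAt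
  have cdu : ∀ z : E n, z ≠ 0 → ContinuousAt (dn u) z := fun z hz => continuousAt_dn hs.hu hz
  have cdv : ∀ z : E n, z ≠ 0 → ContinuousAt (dn v) z := fun z hz => continuousAt_dn hs.hv hz
  have cf : ∀ z : E n, z ≠ 0 → ContinuousAt (src A p v) z := fun z hz => continuousAt_src hs.hv hz
  have cg : ∀ z : E n, z ≠ 0 → ContinuousAt (src B q u) z := fun z hz => continuousAt_src hs.hu hz
  have pu : ∀ z : E n, z ≠ 0 → 0 ≤ u z := fun z _ => (hs.hu.pos z).le
  have pv : ∀ z : E n, z ≠ 0 → 0 ≤ v z := fun z _ => (hs.hv.pos z).le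
  have T1 : sphInt (fun z => src A p v z * v z) r ≤ P * Q :=
    (sphInt_holder cf cv' (fun z _ => src_nonneg A p hs.hv z) pv hm hr0).trans
      (mul_le_mul f1 v1 (sN_nonneg _ _ _) hP0)
  have T2 : sphInt (fun z => src B q u z * u z) r ≤ P * Q := by
    refine (sphInt_holder cg cu (fun z _ => src_nonneg B q hs.hu z) pu hm' hr0).trans ?_
    rw [mul_comm P Q]
    exact mul_le_mul g1 u1 (sN_nonneg _ _ _) (by positivity)
  have T3 : sphInt (fun z => dn u z * dn v z) r ≤ P * Q :=
    (sphInt_holder cdu cdv (fun _ _ => norm_nonneg _) (fun _ _ => norm_nonneg _) hst hr0).trans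
      (mul_le_mul du dv (sN_nonneg _ _ _) hP0)
  have T4 : sphInt (fun z => dn u z * v z) r ≤ P * Q :=
    (sphInt_holder cdu cv' (fun _ _ => norm_nonneg _) pv hst hr0).trans
      (mul_le_mul du v2 (sN_nonneg _ _ _) hP0)
  have T5 : sphInt (fun z => dn v z * u z) r ≤ P * Q := by
    refine (sphInt_holder cdv cu (fun _ _ => norm_nonneg _) pu hst.symm hr0).trans ?_
    rw [mul_comm P Q]
    exact mul_le_mul dv u2 (sN_nonneg _ _ _) (by positivity)
  have hsum : sphInt (bdy A B p q u v) r = sphInt (fun z => src A p v z * v z) r +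
      sphInt (fun z => src B q u z * u z) r + sphInt (fun z => dn u z * dn v z) r +
      sphInt (fun z => dn u z * v z) r + sphInt (fun z => dn v z * u z) r := by
    have c1 : ∀ z : E n, z ≠ 0 → ContinuousAt (fun z => src A p v z * v z) z :=
      fun z hz => (cf z hz).mul (cv' z hz)
    have c2 : ∀ z : E n, z ≠ 0 → ContinuousAt (fun z => src B q u z * u z) z :=
      fun z hz => (cg z hz).mul (cu z hz)
    have c3 : ∀ z : E n, z ≠ 0 → ContinuousAt (fun z => dn u z * dn v z) z :=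
      fun z hz => (cdu z hz).mul (cdv z hz)
    have c4 : ∀ z : E n, z ≠ 0 → ContinuousAt (fun z => dn u z * v z) z :=
      fun z hz => (cdu z hz).mul (cv' z hz)
    have c5 : ∀ z : E n, z ≠ 0 → ContinuousAt (fun z => dn v z * u z) z :=
      fun z hz => (cdv z hz).mul (cu z hz)
    have d2 : ∀ z : E n, z ≠ 0 →
        ContinuousAt (fun z => src A p v z * v z + src B q u z * u z) z :=
      fun z hz => (c1 z hz).add (c2 z hz)
    have d3 : ∀ z : E n, z ≠ 0 → ContinuousAt
        (fun z => src A p v z * v z + src B q u z * u z + dn u z * dn v z) z :=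
      fun z hz => (d2 z hz).add (c3 z hz)
    have d4 : ∀ z : E n, z ≠ 0 → ContinuousAt
        (fun z => src A p v z * v z + src B q u z * u z + dn u z * dn v z + dn u z * v z) z :=
      fun z hz => (d3 z hz).add (c4 z hz)
    change sphInt (fun z => src A p v z * v z + src B q u z * u z + dn u z * dn v z +
      dn u z * v z + dn v z * u z) r = _
    rw [sphInt_add d4 c5 hr0, sphInt_add d3 c4 hr0, sphInt_add d2 c3 hr0, sphInt_add c1 c2 hr0]
  have h5 : sphInt (bdy A B p q u v) r ≤ 5 * (P * Q) := by linarith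
  calc F t ≤ F r := hmono t r hr.1
    _ ≤ CP * sphInt (bdy A B p q u v) r := hPr r ⟨by linarith [hr.1], by linarith [hr.2]⟩
    _ ≤ CP * (5 * (P * Q)) := mul_le_mul_of_nonneg_left h5 hCP
    _ = CP * (5 * (Du * Dv)) * (1 / δ) ^ (Nu + Nv) * Φ ^ (p * x + q * y) := by
        rw [Real.rpow_add (by linarith : (0 : ℝ) < Φ), pow_add]
        simp only [P, Q]
        ring

end Vale.Agent.P100E
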